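import Vale.Agent.P174.LO.Free

/-! P174: reduction to countable coefficient groups; the Freiheitssatz.  helper879. -/

namespace Vale.Agent.P174.LO

universe u v w

variable {G : Type u} [Group G] {ι : Type v}

section map

variable {H : Type w} [Group H]

/-- change of the coefficient group -/
def jX (ι : Type v) (f : H →* G) : XX H ι →* XX G ι :=
  Monoid.Coprod.map f (MonoidHom.id (FreeGroup ι))

theorem jX_cX (f : H →* G) (h : H) : jX ι f (cX ι h) = cX ι (f h) := by
  simp [jX, cX]

theorem jX_lX (f : H →* G) (a : ι × Bool) : jX ι f (lX H a) = lX G a := by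
  simp [jX, lX]

theorem jX_comp {K : Type*} [Group K] (f : H →* G) (g : K →* H) (m : XX K ι) :
    jX ι f (jX ι g m) = jX ι (f.comp g) m := by
  induction m using XX_induction with
  | one => simp
  | coef g' u ih => simp only [map_mul, ih, jX_cX, MonoidHom.comp_apply]
  | letter a u ih => simp only [map_mul, ih, jX_lX]

theorem jX_wval (f : H →* G) (p : H × List ((ι × Bool) × H)) :
    jX ι f (wval p) = wval (f p.1, p.2.map fun q => (q.1, f q.2)) := by
  rcases p with ⟨g, l⟩
  induction l generalizing g with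
  | nil => simp [wval_nil, jX_cX]
  | cons q l ih =>
    obtain ⟨a, k⟩ := q
    rw [wval_cons, map_mul, map_mul, ih, jX_cX, jX_lX]
    simp only [List.map_cons, wval_cons]

theorem jX_injective {f : H →* G} (hf : Function.Injective f) :
    Function.Injective (jX ι f) := by
  intro m m' h
  obtain ⟨p, hp, rfl⟩ := exists_wval m
  obtain ⟨p', hp', rfl⟩ := exists_wval m'
  rw [jX_wval, jX_wval] at h
  have hred : ∀ l : List ((ι × Bool) × H), Red l →
      Red (l.map fun q => (q.1, f q.2)) := by
    intro l hl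
    refine List.isChain_map _ |>.2 (hl.imp ?_)
    intro a b hab hc
    exact hab ⟨hf (by rw [map_one]; exact hc.1), hc.2⟩
  have h1 := wval_inj (hred _ hp) (hred _ hp') h
  simp only [Prod.mk.injEq] at h1
  have h2 : p.1 = p'.1 := hf h1.1
  have h3 : p.2 = p'.2 := by
    refine List.map_injective_iff.2 ?_ h1.2
    rintro ⟨a, b⟩ ⟨a', b'⟩ hab
    simp only [Prod.mk.injEq] at hab
    exact Prod.ext hab.1 (hf hab.2)
  have : p = p' := Prod.ext h2 h3
  rw [this]

end map

theorem countable_closure {S : Set G} (hS : S.Countable) : Countable (Subgroup.closure S) := by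
  have : Countable S := hS
  have : Countable (FreeGroup S) := inferInstanceAs (Countable (Quot _))
  have h1 : Subgroup.closure S = (FreeGroup.lift ((↑) : S → G)).range := by
    rw [FreeGroup.range_lift_eq_closure, Subtype.range_coe]
  rw [h1]
  exact (MonoidHom.rangeRestrict_surjective _).countable

/-- `m` has coefficients in the closure of `S` -/
def Lft (S : Set G) (m : XX G ι) : Prop :=
  ∃ m' : XX (Subgroup.closure S) ι, jX ι (Subgroup.closure S).subtype m' = m

theorem Lft.mono {S S' : Set G} (h : S ⊆ S') {m : XX G ι} (hm : Lft S m) : Lft S' m := by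
  obtain ⟨m', hm'⟩ := hm
  refine ⟨jX ι (Subgroup.inclusion (Subgroup.closure_mono h)) m', ?_⟩
  rw [jX_comp]
  exact hm'

theorem exists_Lft (m : XX G ι) : ∃ S : Set G, S.Countable ∧ Lft S m := by
  induction m using XX_induction with
  | one => exact ⟨∅, Set.countable_empty, 1, map_one _⟩
  | coef g u ih =>
    obtain ⟨S, hS, hu⟩ := ih
    refine ⟨insert g S, hS.insert g, ?_⟩
    obtain ⟨u', hu'⟩ := hu.mono (Set.subset_insert g S)
    exact ⟨cX ι ⟨g, Subgroup.subset_closure (Set.mem_insert g S)⟩ * u', by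
      rw [map_mul, hu', jX_cX]; rfl⟩
  | letter a u ih =>
    obtain ⟨S, hS, u', hu'⟩ := ih
    exact ⟨S, hS, lX _ a * u', by rw [map_mul, hu', jX_lX]⟩

/-- localization of a consequence -/
def Cns (W : XX G ι) (S : Set G) (z : XX G ι) : Prop :=
  ∃ W' z' : XX (Subgroup.closure S) ι, jX ι (Subgroup.closure S).subtype W' = W ∧
    jX ι (Subgroup.closure S).subtype z' = z ∧ z' ∈ Subgroup.normalClosure {W'}

theorem Cns.mono {W z : XX G ι} {S S' : Set G} (h : S ⊆ S') (hz : Cns W S z) : Cns W S' z := by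
  obtain ⟨W', z', h1, h2, h3⟩ := hz
  obtain ⟨i, hi⟩ : ∃ i : XX (Subgroup.closure S) ι →* XX (Subgroup.closure S') ι,
    i = jX ι (Subgroup.inclusion (Subgroup.closure_mono h)) := ⟨_, rfl⟩
  refine ⟨i W', i z', ?_, ?_, ?_⟩
  · rw [hi, jX_comp]; exact h1
  · rw [hi, jX_comp]; exact h2
  · have h4 : (Subgroup.normalClosure {W'}).map i ≤ Subgroup.normalClosure {i W'} := by
      rw [Subgroup.map_le_iff_le_comap]
      apply Subgroup.normalClosure_le_normal
      intro t ht
      rw [Set.mem_singleton_iff] at ht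
      subst ht
      exact Subgroup.subset_normalClosure rfl
    exact h4 ⟨z', h3, rfl⟩

theorem exists_Cns {W z : XX G ι} (h : z ∈ Subgroup.normalClosure {W}) :
    ∃ S : Set G, S.Countable ∧ Cns W S z := by
  unfold Subgroup.normalClosure at h
  induction h using Subgroup.closure_induction with
  | mem y hy =>
    rw [Group.conjugatesOfSet, Set.mem_iUnion₂] at hy
    obtain ⟨a, ha, hy⟩ := hy
    rw [Set.mem_singleton_iff] at ha
    subst ha
    rw [conjugatesOf, Set.mem_ofPred_eq, isConj_iff] at hy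
    obtain ⟨u, rfl⟩ := hy
    obtain ⟨S₁, h1, h2⟩ := exists_Lft a
    obtain ⟨S₂, h3, h4⟩ := exists_Lft u
    obtain ⟨a', ha'⟩ := h2.mono (S' := S₁ ∪ S₂) Set.subset_union_left
    obtain ⟨u', hu'⟩ := h4.mono (S' := S₁ ∪ S₂) Set.subset_union_right
    have hn : (Subgroup.normalClosure {a'}).Normal := Subgroup.normalClosure_normal
    have hm : a' ∈ Subgroup.normalClosure {a'} := Subgroup.subset_normalClosure rfl
    exact ⟨S₁ ∪ S₂, h1.union h3, a', u' * a' * u'⁻¹, ha',
      by rw [map_mul, map_mul, map_inv, ha', hu'], hn.conj_mem _ hm _⟩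
  | one =>
    obtain ⟨S, h1, W', h2⟩ := exists_Lft W
    exact ⟨S, h1, W', 1, h2, map_one _, one_mem _⟩
  | mul a b _ _ ha hb =>
    obtain ⟨S₁, h1, h2⟩ := ha
    obtain ⟨S₂, h3, h4⟩ := hb
    obtain ⟨W', a', e1, e2, e3⟩ := h2.mono (S' := S₁ ∪ S₂) Set.subset_union_left
    obtain ⟨W'', b', e4, e5, e6⟩ := h4.mono (S' := S₁ ∪ S₂) Set.subset_union_right
    have e7 : W'' = W' := jX_injective (Subgroup.subtype_injective _) (e4.trans e1.symm)
    subst e7
    exact ⟨S₁ ∪ S₂, h1.union h3, W'', a' * b', e1, by rw [map_mul, e2, e5], mul_mem e3 e6⟩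
  | inv a _ ha =>
    obtain ⟨S, h1, W', a', e1, e2, e3⟩ := ha
    exact ⟨S, h1, W', a'⁻¹, e1, by rw [map_inv, e2], inv_mem e3⟩

/-- the coefficients can be put in a prescribed countable set -/
theorem exists_Cns' {W z : XX G ι} (h : z ∈ Subgroup.normalClosure {W}) (S₀ : Set G)
    (h₀ : S₀.Countable) : ∃ S : Set G, S.Countable ∧ S₀ ⊆ S ∧ Cns W S z := by
  obtain ⟨S, h1, h2⟩ := exists_Cns h
  exact ⟨S ∪ S₀, h1.union h₀, Set.subset_union_right, h2.mono Set.subset_union_left⟩

/-- a left-invariant linear order -/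
def LeftOrderable (G : Type u) [Group G] : Prop :=
  ∃ r : LinearOrder G, ∀ a b c : G, r.lt b c → r.lt (a * b) (a * c)

/-- **Freiheitssatz over left-orderable quotients.** -/
theorem free_LO [Countable ι] {ℓ : ℕ} [NeZero ℓ] {Q : Type w} [Group Q] (hQ : LeftOrderable Q)
    (φ : G →* Q) {x : ZMod ℓ → ι × Bool}
    {c : ZMod ℓ → G} (hcr : ∀ i, ¬ (φ (c i) = 1 ∧ x (i + 1) = linv (x i)))
    (hnp : ∀ d : ℕ, 0 < d → d < ℓ → ¬ ∀ i, x (i + d) = x i ∧ φ (c (i + d)) = φ (c i)) {g : G}
    (h : cX ι g ∈ Subgroup.normalClosure {seg x c 0 ℓ}) : g = 1 := by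
  obtain ⟨S, h1, h2, W', z', h3, h4, h5⟩ := exists_Cns' h (insert g (Set.range c))
    ((Set.countable_range c).insert g)
  obtain ⟨H, hH⟩ : ∃ H : Subgroup G, H = Subgroup.closure S := ⟨_, rfl⟩
  have hHc : Countable (Subgroup.closure S) := countable_closure h1
  have hg : g ∈ Subgroup.closure S := Subgroup.subset_closure (h2 (Set.mem_insert _ _))
  have hc : ∀ i, c i ∈ Subgroup.closure S := fun i =>
    Subgroup.subset_closure (h2 (Set.mem_insert_of_mem _ ⟨i, rfl⟩))
  have hz : z' = cX ι ⟨g, hg⟩ := jX_injective (Subgroup.subtype_injective _)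
    (h4.trans (by rw [jX_cX]; rfl))
  have hseg : ∀ (k : ℕ) (i : ZMod ℓ), jX ι (Subgroup.closure S).subtype
      (seg x (fun i => (⟨c i, hc i⟩ : Subgroup.closure S)) i k) = seg x c i k := by
    intro k
    induction k with
    | zero => intro i; simp [seg]
    | succ k ih => intro i; simp only [seg, map_mul, ih, jX_cX, jX_lX]; rfl
  have hW : W' = seg x (fun i => (⟨c i, hc i⟩ : Subgroup.closure S)) 0 ℓ :=
    jX_injective (Subgroup.subtype_injective _) (h3.trans (hseg ℓ 0).symm)
  rw [hz, hW] at h5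
  -- the countable quotient
  let ψ : Subgroup.closure S →* Q := φ.comp (Subgroup.closure S).subtype
  have hcQ : Countable ψ.range := (MonoidHom.rangeRestrict_surjective ψ).countable
  obtain ⟨r, hr⟩ := hQ
  let _ : LinearOrder ψ.range := @LinearOrder.lift' _ _ r (fun t => (t : Q)) Subtype.val_injective
  have hr' : ∀ a b c : ψ.range, b < c → a * b < a * c := by
    intro a b c hbc
    exact hr a b c hbc
  have key := free_of_countable hr' ψ.rangeRestrict (x := x)
    (c := fun i => (⟨c i, hc i⟩ : Subgroup.closure S)) (fun i hi => hcr i ⟨by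
      have := congrArg (fun t : ψ.range => (t : Q)) hi.1
      exact this, hi.2⟩) (fun d hd hd' hi => hnp d hd hd' (fun i => ⟨(hi i).1, by
      have := congrArg (fun t : ψ.range => (t : Q)) (hi i).2
      exact this⟩)) h5
  exact congrArg Subtype.val key

/-- **One equation over a left-orderable group.**  Every equation which is not conjugate to a
coefficient is solvable. -/
theorem free_word [Countable ι] (hG : LeftOrderable G) {W : XX G ι}
    (hW : ∀ (u : XX G ι) (g : G), W = u * cX ι g * u⁻¹ → g = 1) {g : G}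
    (h : cX ι g ∈ Subgroup.normalClosure {W}) : g = 1 := by
  rcases exists_cyc_red W with ⟨u, g', hu⟩ | ⟨ℓ, h0, x, c, u, hcr, hu⟩
  · have h1 := hW u g' hu
    subst h1
    rw [hu] at h
    have h2 : u * cX ι (1 : G) * u⁻¹ = 1 := by simp
    rw [h2] at h
    have h3 : Subgroup.normalClosure {(1 : XX G ι)} = ⊥ := by
      rw [Subgroup.normalClosure_eq_bot_iff]
    rw [h3, Subgroup.mem_bot, ← cX_one (ι := ι)] at h
    exact cX_injective h
  · obtain ⟨d, h0', x', c', N, hcr', hnp', hN, hroot⟩ := exists_root hcr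
    have h1 : Subgroup.normalClosure {W} ≤ Subgroup.normalClosure {seg x' c' 0 d} := by
      apply Subgroup.normalClosure_le_normal
      intro t ht
      rw [Set.mem_singleton_iff] at ht
      subst ht
      have hn : (Subgroup.normalClosure {seg x' c' 0 d}).Normal := Subgroup.normalClosure_normal
      have hm : seg x' c' 0 d ∈ Subgroup.normalClosure {seg x' c' 0 d} :=
        Subgroup.subset_normalClosure rfl
      show t ∈ Subgroup.normalClosure {seg x' c' 0 d}
      rw [hu, hroot]
      exact hn.conj_mem _ (pow_mem hm N) u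
    exact free_LO hG (MonoidHom.id G) hcr' hnp' (h1 h)

end Vale.Agent.P174.LO
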