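import Vale.Agent.P174.LO.Exists

/-! P174: closed reduced maps.  helper879. -/

namespace Vale.Agent.P174.LO

universe u v w

variable {G : Type u} [Group G] {ι : Type v} {ℓ : ℕ} [NeZero ℓ]

variable (x : ZMod ℓ → ι × Bool) (c : ZMod ℓ → G)

/-- a closed reduced map of spheres with killed vertices -/
structure Cm (A : Finset Fc) (σ : Fc × ZMod ℓ → Fc × ZMod ℓ) (p : Fc × ZMod ℓ → Ps G)
    (V : Finset ℕ) : Prop where
  sA : ∀ a ∈ A, ∀ i, (σ (a, i)).1 ∈ A
  ssig : ∀ a ∈ A, ∀ i, σ (σ (a, i)) = (a, i)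
  slab : ∀ a ∈ A, ∀ i, ilab x (σ (a, i)) = linv (ilab x (a, i))
  inner : ∀ a ∈ A, ∀ i, p (σ (nxt (a, i))) = pm (p (a, i)) (cor c (a, i))
  att : ∀ v ∈ V, ∃ a ∈ A, ∃ i, At v (p (a, i))
  cnt : ℓ * A.card + 2 ≤ 2 * V.card + 2 * A.card
  red : ∀ a ∈ A, ∀ i, (σ (a, i)).2 ≠ i

variable {x c}

/-- reduction of the boundary word -/
theorem St.reduce {g : G} (n : ℕ) : ∀ (A : Finset Fc) (T : List (Dt ι ℓ ⊕ G))
    (σ : Dt ι ℓ → Dt ι ℓ) (p : Dt ι ℓ → Ps G) (b : Ps G) (V : Finset ℕ),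
    ℓ * A.card + (drt T).length ≤ n → St x c A T σ p b V → tval (lab x) T = cX ι g →
    ∃ (A' : Finset Fc) (T' : List (Dt ι ℓ ⊕ G)) (σ' : Dt ι ℓ → Dt ι ℓ) (p' : Dt ι ℓ → Ps G)
      (b' : Ps G) (V' : Finset ℕ), St x c A' T' σ' p' b' V' ∧ tval (lab x) T' = cX ι g ∧
        drt T' = [] := by
  classical
  induction n with
  | zero =>
    intro A T σ p b V hn hS hv
    refine ⟨A, T, σ, p, b, V, hS, hv, ?_⟩
    have : (drt T).length = 0 := by omega
    exact List.eq_nil_of_length_eq_zero this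
  | succ n ih =>
    intro A T σ p b V hn hS hv
    by_cases hT : drt T = []
    · exact ⟨A, T, σ, p, b, V, hS, hv, hT⟩
    · obtain ⟨f, hf⟩ := List.exists_mem_of_ne_nil _ hT
      rw [mem_drt] at hf
      obtain ⟨T₁, d, Gs, d', T₂, rfl, hGs, hdd⟩ := exists_cancel (lab x) hv hf
      have h1 : St x c A ((T₁ ++ [.inl d]) ++ (Gs.map Sum.inr ++ (.inl d' :: T₂))) σ p b V := by
        simpa using hS
      have h2 := h1.coef (Hs := []) (by simpa using hGs)
      have h3 : St x c A (T₁ ++ .inl d :: .inl d' :: T₂) σ p b V := by simpa using h2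
      have hv' : tval (lab x) (T₁ ++ T₂) = cX ι g := by
        rw [← hv]
        simp only [tval_append, tval_inl, tval_map_inr, hGs, cX_one, one_mul, hdd, lX_linv]
        group
      simp only [drt_append, drt_inl, drt_map_inr, List.length_append, List.length_cons,
        List.length_nil] at hn
      by_cases hm : ∀ a ∈ A, ∀ i, ∀ a' ∈ A, σ d = .inl (a, i) → σ d' = .inl (a', i) → a'.2 = a.2
      · obtain ⟨σ', p', b', V', h4⟩ := h3.zip hdd hm
        refine ih A (T₁ ++ T₂) σ' p' b' V' ?_ h4 hv'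
        rw [drt_append, List.length_append]
        omega
      · push Not at hm
        obtain ⟨a, ha, i, a', ha', e1, e2, e3⟩ := hm
        have h4 := h3.unpeel ha ha' e1 e2 e3
        have haa : a ≠ a' := by rintro rfl; exact e3 rfl
        have hc : ((A.erase a).erase a').card + 2 = A.card := by
          have h5 : a' ∈ A.erase a := Finset.mem_erase.2 ⟨haa.symm, ha'⟩
          rw [Finset.card_erase_of_mem h5, Finset.card_erase_of_mem ha]
          have h6 : 0 < (A.erase a).card := Finset.card_pos.2 ⟨a', h5⟩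
          rw [Finset.card_erase_of_mem ha] at h6
          omega
        refine ih _ _ σ p b V ?_ h4 ?_
        · simp only [drt_append, List.length_append, length_drt_rblk]
          have hl : 0 < ℓ := Nat.pos_of_ne_zero (NeZero.ne ℓ)
          rw [← hc, Nat.mul_add] at hn
          omega
        · rw [← hv', tval_append, tval_append, tval_append, ← mul_assoc (tval _ (rblk _ _ _ _)),
            tval_rblk_mirror e3, one_mul, tval_append]

/-- **Closed reduced map.**  If a nontrivial coefficient is a consequence of the relator, there is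
a closed reduced map. -/
theorem exists_closed {g : G} (hg : g ≠ 1)
    (h : cX ι g ∈ Subgroup.normalClosure {seg x c 0 ℓ}) :
    ∃ (A : Finset Fc) (σ : Fc × ZMod ℓ → Fc × ZMod ℓ) (p : Fc × ZMod ℓ → Ps G) (V : Finset ℕ),
      Cm x c A σ p V := by
  classical
  obtain ⟨A₀, T₀, σ₀, p₀, b₀, V₀, h0, hv0⟩ := exists_state h
  obtain ⟨A, T, σ, p, b, V, hS, hv, hT⟩ := St.reduce _ A₀ T₀ σ₀ p₀ b₀ V₀ le_rfl h0 hv0
  have hno : ∀ f, Sum.inl f ∉ T := by
    intro f hf
    rw [← mem_drt, hT] at hf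
    simp at hf
  have hb : b = none := by
    have h1 : (nrm T).2 = [] := by
      by_contra h2
      rcases hl : (nrm T).2 with _ | ⟨⟨d, k⟩, l⟩
      · exact h2 hl
      · obtain ⟨Gs, T', h3, -⟩ := exists_of_nrm_cons hl
        exact hno d (by simp [h3])
    obtain ⟨h2, h3⟩ := exists_of_nrm_nil h1
    have h4 := hS.path
    rw [h2, pth_coef] at h4
    rw [h2, tval_map_inr] at hv
    have h5 := cX_injective hv
    rw [h5] at h4
    rcases b with _ | ⟨v, k⟩
    · rfl
    · simp only [pm_some, Option.some.injEq, Prod.mk.injEq, true_and] at h4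
      exact absurd (mul_eq_left.1 h4) hg
  have hLive : ∀ f, Live A T f ↔ ∃ a ∈ A, ∃ i, f = .inl (a, i) := by
    intro f
    simp [Live, hno]
  have hs : ∀ a ∈ A, ∀ i, ∃ e : Fc × ZMod ℓ, e.1 ∈ A ∧ σ (.inl (a, i)) = .inl e := by
    intro a ha i
    obtain ⟨a', ha', i', h1⟩ := (hLive _).1 (hS.slive (.inl (a, i)) ((hLive _).2 ⟨a, ha, i, rfl⟩))
    exact ⟨(a', i'), ha', h1⟩
  let σ' : Fc × ZMod ℓ → Fc × ZMod ℓ := fun e =>
    match σ (.inl e) with
    | .inl e' => e'
    | .inr _ => e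
  have hσ' : ∀ a ∈ A, ∀ i, σ (.inl (a, i)) = .inl (σ' (a, i)) := by
    intro a ha i
    obtain ⟨e, h1, h2⟩ := hs a ha i
    simp only [σ', h2]
  have hsA : ∀ a ∈ A, ∀ i, (σ' (a, i)).1 ∈ A := by
    intro a ha i
    obtain ⟨e, h1, h2⟩ := hs a ha i
    rw [hσ' a ha i, Sum.inl.injEq] at h2
    rwa [h2]
  have hslab : ∀ a ∈ A, ∀ i, ilab x (σ' (a, i)) = linv (ilab x (a, i)) := by
    intro a ha i
    have h2 := hS.slab (.inl (a, i)) ((hLive _).2 ⟨a, ha, i, rfl⟩)
    rw [hσ' a ha i] at h2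
    exact h2
  refine ⟨A, σ', fun e => p (.inl e), V, ?_⟩
  refine ⟨hsA, ?_, hslab, ?_, ?_, ?_, ?_⟩
  · intro a ha i
    have h1 := hS.ssig (.inl (a, i)) ((hLive _).2 ⟨a, ha, i, rfl⟩)
    have h2 := hσ' (σ' (a, i)).1 (hsA a ha i) (σ' (a, i)).2
    rw [hσ' a ha i] at h1
    have h3 : σ (.inl (σ' (a, i))) = .inl (σ' (σ' (a, i))) := h2
    rw [h3, Sum.inl.injEq] at h1
    exact h1
  · intro a ha i
    have h1 := hS.inner a ha i
    have h2 : σ (.inl (nxt (a, i))) = .inl (σ' (nxt (a, i))) := hσ' _ ha _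
    rw [h2] at h1
    exact h1
  · intro v hv
    rcases hS.att v hv with ⟨g', h1⟩ | ⟨f, h1, h2⟩
    · rw [hb] at h1
      simp at h1
    · obtain ⟨a, ha, i, rfl⟩ := (hLive f).1 h1
      exact ⟨a, ha, i, h2⟩
  · have h1 := hS.cnt
    rw [hT] at h1
    simpa using h1
  · intro a ha i h1
    obtain ⟨e, h2⟩ : ∃ e, e = σ' (a, i) := ⟨_, rfl⟩
    rcases e with ⟨a', i'⟩
    rw [← h2] at h1
    simp only at h1
    subst h1
    have h3 := hsA a ha i'
    rw [← h2] at h3
    have h4 := hS.red a ha i' a' h3 (by rw [hσ' a ha i', ← h2])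
    have h5 := hslab a ha i'
    rw [← h2] at h5
    have h6 : ilab x (a', i') = ilab x (a, i') := by
      simp only [ilab, h4]
    rw [h6] at h5
    exact linv_ne _ h5.symm

end Vale.Agent.P174.LO
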