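import Mathlib

/-! P174: extension of finite partial automorphisms; twisted lexicographic products.  helper879. -/

namespace Vale.Agent.P174.LO

universe u v w

section ext

variable {E : Type u} [LinearOrder E]

/-- a finite partial order isomorphism of a countable dense order extends -/
theorem ext_iso [Countable E] [DenselyOrdered E] [NoMinOrder E] [NoMaxOrder E] [Nonempty E]
    (S : Finset (E × E)) (h : ∀ p ∈ S, ∀ q ∈ S, cmp p.1 q.1 = cmp p.2 q.2) :
    ∃ F : E ≃o E, ∀ q ∈ S, F q.1 = q.2 := by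
  classical
  cases nonempty_encodable E
  let p₀ : Order.PartialIso E E := ⟨S, h⟩
  let to_cofinal : E ⊕ E → Order.Cofinal (Order.PartialIso E E) := fun p ↦
    Sum.recOn p (Order.PartialIso.definedAtLeft E) (Order.PartialIso.definedAtRight E)
  let our_ideal : Order.Ideal (Order.PartialIso E E) := Order.idealOfCofinals p₀ to_cofinal
  let F a := Order.PartialIso.funOfIdeal a our_ideal
    (Order.cofinal_meets_idealOfCofinals _ to_cofinal (Sum.inl a))
  let G b := Order.PartialIso.invOfIdeal b our_ideal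
    (Order.cofinal_meets_idealOfCofinals _ to_cofinal (Sum.inr b))
  refine ⟨OrderIso.ofCmpEqCmp (fun a ↦ (F a).val) (fun b ↦ (G b).val) fun a b ↦ ?_, ?_⟩
  · rcases (F a).prop with ⟨f, hf, ha⟩
    rcases (G b).prop with ⟨g, hg, hb⟩
    rcases our_ideal.directed _ hf _ hg with ⟨m, _, fm, gm⟩
    exact m.prop (a, _) (fm ha) (_, b) (gm hb)
  · rintro ⟨a, b⟩ hq
    show (F a).val = b
    rcases (F a).prop with ⟨f, hf, ha⟩
    have hp : p₀ ∈ our_ideal := Order.mem_idealOfCofinals p₀ to_cofinal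
    rcases our_ideal.directed _ hf _ hp with ⟨m, _, fm, gm⟩
    have h1 := m.prop (a, (F a).val) (fm ha) (a, b) (gm hq)
    simp only [cmp_self_eq_eq] at h1
    exact cmp_eq_eq_iff _ _ |>.1 h1.symm

/-- moving one point and fixing others -/
theorem ext_move [Countable E] [DenselyOrdered E] [NoMinOrder E] [NoMaxOrder E] [Nonempty E]
    {a b b' : E} (hb : a < b) (hb' : a < b') (D : Finset E)
    (h : ∀ t ∈ D, t ≤ a ∨ (b < t ∧ b' < t)) :
    ∃ F : E ≃o E, (∀ t ∈ D, F t = t) ∧ F a = a ∧ F b = b' := by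
  classical
  let φ : E → E := fun t => if t = b then b' else t
  have hφ : ∀ t ∈ insert a (insert b D), ∀ s ∈ insert a (insert b D), t < s → φ t < φ s := by
    have hb0 : φ b = b' := by simp [φ]
    have hne : ∀ t, t ≠ b → φ t = t := fun t ht => by simp [φ, ht]
    intro t ht s hs hts
    by_cases h1 : t = b
    · subst h1
      rw [hb0, hne s hts.ne']
      simp only [Finset.mem_insert] at hs
      rcases hs with rfl | rfl | hs
      · exact absurd hts (not_lt.2 hb.le)
      · exact absurd hts (lt_irrefl _)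
      · rcases h s hs with h2 | h2
        · exact absurd (hts.trans_le h2) (not_lt.2 hb.le)
        · exact h2.2
    · rw [hne t h1]
      by_cases h2 : s = b
      · subst h2
        rw [hb0]
        simp only [Finset.mem_insert] at ht
        rcases ht with rfl | rfl | ht
        · exact hb'
        · exact absurd rfl h1
        · rcases h t ht with h3 | h3
          · exact h3.trans_lt hb'
          · exact absurd (h3.1.trans hts) (lt_irrefl _)
      · rwa [hne s h2]
  obtain ⟨F, hF⟩ := ext_iso ((insert a (insert b D)).image fun t => (t, φ t)) (by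
    intro p hp q hq
    obtain ⟨t, ht, rfl⟩ := Finset.mem_image.1 hp
    obtain ⟨s, hs, rfl⟩ := Finset.mem_image.1 hq
    simp only
    rcases lt_trichotomy t s with h1 | h1 | h1
    · rw [(cmp_eq_lt_iff _ _).2 h1, (cmp_eq_lt_iff _ _).2 (hφ t ht s hs h1)]
    · subst h1; simp
    · rw [(cmp_eq_gt_iff _ _).2 h1, (cmp_eq_gt_iff _ _).2 (hφ s hs t ht h1)])
  have hF' : ∀ t ∈ insert a (insert b D), F t = φ t := by
    intro t ht
    exact hF (t, φ t) (Finset.mem_image.2 ⟨t, ht, rfl⟩)
  refine ⟨F, fun t ht => ?_, ?_, ?_⟩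
  · rw [hF' t (by simp [ht])]
    have : t ≠ b := by
      rintro rfl
      rcases h t ht with h1 | h1
      · exact absurd hb (not_lt.2 h1)
      · exact lt_irrefl _ h1.1
    simp [φ, this]
  · rw [hF' a (by simp)]
    simp [φ, hb.ne]
  · rw [hF' b (by simp)]
    simp [φ]

end ext

section twist

variable {Ω : Type u} [LinearOrder Ω] {F : Type v} [LinearOrder F]

/-- twisted product of order automorphisms -/
def twist (e : Ω ≃o Ω) (f : Ω → (F ≃o F)) : (Ω ×ₗ F) ≃o (Ω ×ₗ F) where
  toFun t := toLex (e (ofLex t).1, f (ofLex t).1 (ofLex t).2)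
  invFun t := toLex (e.symm (ofLex t).1, (f (e.symm (ofLex t).1)).symm (ofLex t).2)
  left_inv t := by simp
  right_inv t := by simp
  map_rel_iff' := by
    intro s t
    simp only [Equiv.coe_fn_mk]
    rw [Prod.Lex.toLex_le_toLex, Prod.Lex.le_iff]
    simp only [OrderIso.lt_iff_lt, EmbeddingLike.apply_eq_iff_eq]
    constructor
    · rintro (h | ⟨h, h'⟩)
      · exact Or.inl h
      · refine Or.inr ⟨h, ?_⟩
        rw [h] at h'
        exact (OrderIso.le_iff_le _).1 h'
    · rintro (h | ⟨h, h'⟩)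
      · exact Or.inl h
      · refine Or.inr ⟨h, ?_⟩
        rw [h]
        exact (OrderIso.le_iff_le _).2 h'

@[simp] theorem twist_apply (e : Ω ≃o Ω) (f : Ω → (F ≃o F)) (ω : Ω) (t : F) :
    twist e f (toLex (ω, t)) = toLex (e ω, f ω t) := rfl

@[simp] theorem twist_inv_apply (e : Ω ≃o Ω) (f : Ω → (F ≃o F)) (ω : Ω) (t : F) :
    (twist e f)⁻¹ (toLex (ω, t)) = toLex (e⁻¹ ω, (f (e⁻¹ ω))⁻¹ t) := rfl

theorem lex_ext {t s : Ω ×ₗ F} (h1 : (ofLex t).1 = (ofLex s).1) (h2 : (ofLex t).2 = (ofLex s).2) :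
    t = s := by
  have : ofLex t = ofLex s := Prod.ext h1 h2
  exact ofLex.injective this

/-- the diagonal action on a lexicographic product -/
def diaH {H : Type w} [Group H] (a : H →* (Ω ≃o Ω)) (b : H →* (F ≃o F)) :
    H →* ((Ω ×ₗ F) ≃o (Ω ×ₗ F)) where
  toFun g := twist (a g) (fun _ => b g)
  map_one' := by
    apply RelIso.ext
    intro t
    apply lex_ext
    · show a 1 (ofLex t).1 = _
      rw [map_one]; rfl
    · show b 1 (ofLex t).2 = _
      rw [map_one]; rfl
  map_mul' g h := by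
    apply RelIso.ext
    intro t
    apply lex_ext
    · show a (g * h) (ofLex t).1 = a g (a h (ofLex t).1)
      rw [map_mul]; rfl
    · show b (g * h) (ofLex t).2 = b g (b h (ofLex t).2)
      rw [map_mul]; rfl

@[simp] theorem diaH_apply {H : Type w} [Group H] (a : H →* (Ω ≃o Ω)) (b : H →* (F ≃o F)) (g : H)
    (ω : Ω) (t : F) : diaH a b g (toLex (ω, t)) = toLex (a g ω, b g t) := rfl

/-- action on cuts -/
def cutH (F : Type v) [LinearOrder F] : (F ≃o F) →* (LowerSet F ≃o LowerSet F) where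
  toFun f := LowerSet.map f
  map_one' := LowerSet.map_refl
  map_mul' f g := by
    apply RelIso.ext
    intro s
    exact (LowerSet.map_map f g).symm

theorem mem_cutH {f : F ≃o F} {s : LowerSet F} {t : F} : t ∈ cutH F f s ↔ f⁻¹ t ∈ s :=
  LowerSet.mem_map

theorem apply_mem_cutH {f : F ≃o F} {s : LowerSet F} {t : F} : f t ∈ cutH F f s ↔ t ∈ s := by
  rw [mem_cutH]
  have : f⁻¹ (f t) = t := f.symm_apply_apply t
  rw [this]

end twist

section closing

variable {F : Type v} [LinearOrder F]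

theorem inv_apply_self' (f : F ≃o F) (t : F) : f⁻¹ (f t) = t := f.symm_apply_apply t

theorem apply_inv_self' (f : F ≃o F) (t : F) : f (f⁻¹ t) = t := f.apply_symm_apply t

/-- an automorphism moving `p` down and `q > p` up fixes a cut between them -/
theorem exists_cut {ψ : F ≃o F} {p q : F} (hpq : p < q) (hp : ψ⁻¹ p < p) (hq : q < ψ⁻¹ q) :
    ∃ K : LowerSet F, cutH F ψ K = K ∧ p ∈ K ∧ q ∉ K := by
  have h1 : ∀ n : ℕ, (ψ⁻¹ ^ n) p ≤ p := by
    intro n
    induction n with
    | zero => simp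
    | succ n ih =>
      rw [pow_succ, RelIso.mul_apply]
      exact le_trans ((ψ⁻¹ ^ n).monotone hp.le) ih
  have hq' : ψ q < q := by
    have := ψ.strictMono hq
    rwa [apply_inv_self'] at this
  have h2 : ∀ n : ℕ, (ψ ^ n) q ≤ q := by
    intro n
    induction n with
    | zero => simp
    | succ n ih =>
      rw [pow_succ, RelIso.mul_apply]
      exact le_trans ((ψ ^ n).monotone hq'.le) ih
  have h3 : ∀ n : ℤ, (ψ ^ n) p < q := by
    intro n
    obtain ⟨m, rfl | rfl⟩ := n.eq_nat_or_neg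
    · rw [zpow_natCast]
      exact lt_of_lt_of_le ((ψ ^ m).strictMono hpq) (h2 m)
    · rw [zpow_neg, zpow_natCast, ← inv_pow]
      exact lt_of_le_of_lt (h1 m) hpq
  refine ⟨⟨{t | ∃ n : ℤ, t ≤ (ψ ^ n) p}, ?_⟩, ?_, ?_, ?_⟩
  · rintro a b hab ⟨n, hn⟩
    exact ⟨n, hab.trans hn⟩
  · apply SetLike.ext
    intro t
    rw [mem_cutH]
    constructor
    · rintro ⟨n, hn⟩
      refine ⟨1 + n, ?_⟩
      rw [zpow_add, zpow_one, RelIso.mul_apply]
      have := ψ.monotone hn
      rwa [apply_inv_self'] at this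
    · rintro ⟨n, hn⟩
      refine ⟨-1 + n, ?_⟩
      rw [zpow_add, zpow_neg, zpow_one, RelIso.mul_apply]
      exact ψ⁻¹.monotone hn
  · exact ⟨0, by simp⟩
  · rintro ⟨n, hn⟩
    exact absurd (h3 n) (not_lt.2 hn)

/-- product of the first steps -/
def prodTo {M : Type w} [Monoid M] (f : ℕ → M) : ℕ → M
  | 0 => 1
  | k + 1 => prodTo f k * f k

/-- closing up a cyclic sequence of automorphisms -/
theorem exists_cyclic {ℓ : ℕ} [NeZero ℓ] (fib : ZMod ℓ → (F ≃o F)) (p q : ℕ → F)
    (hp : ∀ k < ℓ, p k = fib k (p (k + 1))) (hq : ∀ k < ℓ, q k = fib k (q (k + 1)))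
    (h1 : p ℓ < p 0) (h2 : p 0 < q 0) (h3 : q 0 < q ℓ) :
    ∃ T : ZMod ℓ → LowerSet F, (∀ i, T i = cutH F (fib i) (T (i + 1))) ∧
      ∀ k ≤ ℓ, p k ∈ T k ∧ q k ∉ T k := by
  set P : ℕ → (F ≃o F) := prodTo fun k => fib k with hP
  have hP0 : P 0 = 1 := rfl
  have hP1 : ∀ k, P (k + 1) = P k * fib k := fun k => rfl
  have e1 : ∀ k ≤ ℓ, p 0 = P k (p k) := by
    intro k
    induction k with
    | zero => intro _; rw [hP0]; rfl
    | succ k ih =>
      intro hk
      rw [ih (by omega), hP1, RelIso.mul_apply, ← hp k (by omega)]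
  have e2 : ∀ k ≤ ℓ, q 0 = P k (q k) := by
    intro k
    induction k with
    | zero => intro _; rw [hP0]; rfl
    | succ k ih =>
      intro hk
      rw [ih (by omega), hP1, RelIso.mul_apply, ← hq k (by omega)]
  obtain ⟨K, hK1, hK2, hK3⟩ := exists_cut (ψ := P ℓ) h2 (by
    rw [e1 ℓ le_rfl, inv_apply_self', ← e1 ℓ le_rfl]; exact h1) (by
    have h4 : (P ℓ)⁻¹ (q 0) = q ℓ := by rw [e2 ℓ le_rfl, inv_apply_self']
    rw [h4]; exact h3)
  have hK1' : cutH F (P ℓ)⁻¹ K = K := by
    conv_lhs => rw [← hK1]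
    rw [map_inv]
    exact inv_apply_self' _ _
  refine ⟨fun i => cutH F (P i.val)⁻¹ K, ?_, ?_⟩
  · intro i
    have hi : ((i.val : ℕ) : ZMod ℓ) = i := ZMod.natCast_zmod_val i
    have h5 : cutH F (P (i + 1).val)⁻¹ K = cutH F (P (i.val + 1))⁻¹ K := by
      by_cases h6 : i.val + 1 < ℓ
      · have : (i + 1).val = i.val + 1 := by
          rw [← hi, ← Nat.cast_succ, ZMod.val_cast_of_lt h6, ZMod.natCast_zmod_val]
        rw [this]
      · have h7 : i.val + 1 = ℓ := by have := ZMod.val_lt i; omega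
        have h8 : (i + 1).val = 0 := by
          have : i + 1 = 0 := by
            rw [← hi, ← Nat.cast_succ, Nat.succ_eq_add_one, h7]; simp
          rw [this, ZMod.val_zero]
        rw [h8, h7, hK1', hP0, inv_one, map_one]
        rfl
    show cutH F (P i.val)⁻¹ K = cutH F (fib i) (cutH F (P (i + 1).val)⁻¹ K)
    rw [h5, hP1, hi, mul_inv_rev, map_mul, RelIso.mul_apply, map_inv (cutH F) (fib i)]
    exact (apply_inv_self' _ _).symm
  · intro k hk
    have hcast : cutH F (P (k : ZMod ℓ).val)⁻¹ K = cutH F (P k)⁻¹ K := by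
      by_cases h6 : k < ℓ
      · rw [ZMod.val_cast_of_lt h6]
      · have h7 : k = ℓ := by omega
        subst h7
        rw [hK1', ZMod.natCast_self, ZMod.val_zero, hP0, inv_one, map_one]
        rfl
    simp only [hcast]
    rw [mem_cutH, mem_cutH, inv_inv, ← e1 k hk, ← e2 k hk]
    exact ⟨hK2, hK3⟩

end closing

end Vale.Agent.P174.LO
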