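import Vale.Agent.P174.LO.Defs
import Vale.Agent.P174.LO.Ext

/-! P174: the free product of a countable left-ordered group and a free group is left-orderable.
helper879. -/

namespace Vale.Agent.P174.LO

universe u v w

variable {G : Type u} [Group G] {ι : Type v}

/-! ### Normal forms -/

theorem wval_coefP (g : G) (p : G × List ((ι × Bool) × G)) :
    wval (g * p.1, p.2) = cX ι g * wval p := by
  simp [wval, mul_assoc]

theorem wval_push (a : ι × Bool) (p : G × List ((ι × Bool) × G)) :
    wval (push a p) = lX G a * wval p := by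
  rcases p with ⟨g, _ | ⟨⟨b, k⟩, l⟩⟩
  · simp [push, wval]
  · by_cases hc : g = 1 ∧ b = linv a
    · obtain ⟨rfl, rfl⟩ := hc
      simp only [push, and_self, if_true]
      rw [wval_cons, lX_linv]
      simp
    · simp only [push, hc, if_false]
      rw [wval_cons]
      simp

theorem wval_actRW (m : XX G ι) (p : RW G ι) : wval (actRW m p).1 = m * wval p.1 := by
  induction m using Monoid.Coprod.induction_on generalizing p with
  | inl g =>
    have h1 := actRW_cX g p
    rw [cX] at h1
    rw [h1, wval_coefP]; rfl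
  | inr n =>
    induction n using FreeGroup.induction_on generalizing p with
    | C1 => simp
    | of j =>
      have h1 := actRW_lX (j, true) p
      have h2 : (lX G (j, true) : XX G ι) = Monoid.Coprod.inr (FreeGroup.of j) := by
        simp [lX, lF]
      rw [h2] at h1
      rw [h1, wval_push, h2]
    | inv_of j _ =>
      have h1 := actRW_lX (j, false) p
      have h2 : (lX G (j, false) : XX G ι) = Monoid.Coprod.inr (FreeGroup.of j)⁻¹ := by
        simp [lX, lF]
      rw [h2] at h1
      rw [h1, wval_push, h2]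
    | mul a b ha hb =>
      rw [map_mul, map_mul, Equiv.Perm.mul_apply, ha, hb, mul_assoc]
  | mul a b ha hb =>
    rw [map_mul, Equiv.Perm.mul_apply, ha, hb, mul_assoc]

/-- every element has a reduced form -/
theorem exists_wval (m : XX G ι) : ∃ p : G × List ((ι × Bool) × G), Red p.2 ∧ wval p = m := by
  refine ⟨(actRW m rw1).1, (actRW m rw1).2, ?_⟩
  rw [wval_actRW]
  simp [rw1, wval]

theorem countable_XX [Countable G] [Countable ι] : Countable (XX G ι) := by
  apply Function.Surjective.countable (f := (wval : G × List ((ι × Bool) × G) → XX G ι))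
  intro m
  obtain ⟨p, -, hp⟩ := exists_wval m
  exact ⟨p, hp⟩

/-! ### Points of `G ×ₗ ℚ` -/

section path

/-- second coordinate -/
def sec (t : G ×ₗ ℚ) : ℚ := (ofLex t).2

variable [LinearOrder G]

omit [Group G] in
theorem exists_mid {b b' : G ×ₗ ℚ} (h : b < b') (U : Finset ℚ) :
    ∃ t, b < t ∧ t < b' ∧ sec t ∉ U := by
  rcases b with ⟨β, r⟩
  rcases b' with ⟨β', r'⟩
  change toLex (β, r) < toLex (β', r') at h
  rw [Prod.Lex.toLex_lt_toLex] at h
  simp only at h
  rcases h with h | ⟨rfl, h⟩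
  · obtain ⟨a, ha, ha'⟩ := (Set.Ioi_infinite r).exists_notMem_finset U
    refine ⟨toLex (β, a), ?_, ?_, ha'⟩
    · exact Prod.Lex.toLex_lt_toLex.2 (Or.inr ⟨rfl, ha⟩)
    · exact Prod.Lex.toLex_lt_toLex.2 (Or.inl h)
  · obtain ⟨a, ha, ha'⟩ := (Set.Ioo_infinite h).exists_notMem_finset U
    refine ⟨toLex (β, a), ?_, ?_, ha'⟩
    · exact Prod.Lex.toLex_lt_toLex.2 (Or.inr ⟨rfl, ha.1⟩)
    · exact Prod.Lex.toLex_lt_toLex.2 (Or.inr ⟨rfl, ha.2⟩)

theorem fresh_across (S : Finset ((G ×ₗ ℚ) × (G ×ₗ ℚ)))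
    (hS : ∀ p ∈ S, ∀ q ∈ S, cmp p.1 q.1 = cmp p.2 q.2) (U : Finset ℚ) (s : G ×ₗ ℚ)
    (hs : ∀ q ∈ S, q.1 ≠ s) : ∃ t, sec t ∉ U ∧ ∀ q ∈ S, cmp q.1 s = cmp q.2 t := by
  classical
  have : Nonempty (G ×ₗ ℚ) := ⟨toLex (1, 0)⟩
  have : NoMinOrder (G ×ₗ ℚ) := inferInstance
  have : NoMaxOrder (G ×ₗ ℚ) := inferInstance
  have : DenselyOrdered (G ×ₗ ℚ) := inferInstance
  let p₀ : Order.PartialIso (G ×ₗ ℚ) (G ×ₗ ℚ) := ⟨S, hS⟩
  obtain ⟨b, hb⟩ := Order.PartialIso.exists_across p₀ s
  have hb' : ∀ p ∈ S, cmp p.1 s = cmp p.2 b := hb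
  obtain ⟨b', h1, h2⟩ := Order.exists_between_finsets {b}
    ((S.image Prod.snd).filter fun y => b < y) (by
      intro x hx y hy
      rw [Finset.mem_singleton] at hx
      subst hx
      exact (Finset.mem_filter.1 hy).2)
  obtain ⟨t, ht1, ht2, ht3⟩ := exists_mid (h1 b (by simp)) U
  refine ⟨t, ht3, fun q hq => ?_⟩
  rcases lt_or_gt_of_ne (hs q hq) with h3 | h3
  · have h4 := hb' q hq
    rw [(cmp_eq_lt_iff _ _).2 h3] at h4 ⊢
    have h5 := (cmp_eq_lt_iff _ _).1 h4.symm
    exact ((cmp_eq_lt_iff _ _).2 (h5.trans ht1)).symm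
  · have h4 := hb' q hq
    rw [(cmp_eq_gt_iff _ _).2 h3] at h4 ⊢
    have h5 := (cmp_eq_gt_iff _ _).1 h4.symm
    have h6 := h2 q.2 (by simp only [Finset.mem_filter, Finset.mem_image]
                          exact ⟨⟨q, hq, rfl⟩, h5⟩)
    exact ((cmp_eq_gt_iff _ _).2 (ht2.trans h6)).symm

/-- left multiplication on an ordered group -/
def lmulH (h : ∀ a b c : G, b < c → a * b < a * c) : G →* (G ≃o G) where
  toFun g :=
    { toEquiv := Equiv.mulLeft g
      map_rel_iff' := by
        intro a b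
        show g * a ≤ g * b ↔ a ≤ b
        constructor
        · intro h1
          by_contra h2
          exact absurd (h g b a (not_le.1 h2)) (not_lt.2 h1)
        · intro h1
          rcases h1.lt_or_eq with h2 | rfl
          · exact (h g a b h2).le
          · exact le_rfl }
  map_one' := by
    apply RelIso.ext
    intro t
    show 1 * t = t
    simp
  map_mul' a b := by
    apply RelIso.ext
    intro t
    show a * b * t = a * (b * t)
    simp [mul_assoc]

@[simp] theorem lmulH_apply (h : ∀ a b c : G, b < c → a * b < a * c) (g t : G) :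
    lmulH h g t = g * t := rfl

variable (hG : ∀ a b c : G, b < c → a * b < a * c)

/-- the action of `G` on `G ×ₗ ℚ` -/
def actE : G →* ((G ×ₗ ℚ) ≃o (G ×ₗ ℚ)) := diaH (lmulH hG) 1

theorem actE_apply (g a : G) (r : ℚ) : actE hG g (toLex (a, r)) = toLex (g * a, r) := rfl

theorem sec_actE (g : G) (t : G ×ₗ ℚ) : sec (actE hG g t) = sec t := rfl

theorem actE_free {g : G} {t : G ×ₗ ℚ} (h : actE hG g t = t) : g = 1 := by
  have h1 : g * (ofLex t).1 = (ofLex t).1 := congrArg (fun s => (ofLex s).1) h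
  simpa using h1

/-- **Paths.** -/
theorem path_exists (l : List ((ι × Bool) × G)) (hl : Red l) :
    ∃ (S : ι → Finset ((G ×ₗ ℚ) × (G ×ₗ ℚ))) (z : G ×ₗ ℚ) (U : Finset ℚ),
      (∀ j, ∀ p ∈ S j, ∀ q ∈ S j, cmp p.1 q.1 = cmp p.2 q.2) ∧
      (∀ j, ∀ q ∈ S j, sec q.1 ∈ U ∧ sec q.2 ∈ U) ∧ (0 : ℚ) ∈ U ∧ sec z ∈ U ∧
      (l ≠ [] → sec z ≠ 0) ∧ (l = [] → z = toLex (1, 0)) ∧
      (∀ j, ∀ q ∈ S j, sec q.1 = sec z → q.1 = z ∧ ∃ g l', l = ((j, false), g) :: l') ∧
      (∀ j, ∀ q ∈ S j, sec q.2 = sec z → q.2 = z ∧ ∃ g l', l = ((j, true), g) :: l') ∧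
      ∀ ρ : XX G ι →* ((G ×ₗ ℚ) ≃o (G ×ₗ ℚ)), (∀ g, ρ (cX ι g) = actE hG g) →
        (∀ j, ∀ q ∈ S j, ρ (lX G (j, true)) q.1 = q.2) → ρ (wval (1, l)) (toLex (1, 0)) = z := by
  classical
  induction l with
  | nil =>
    refine ⟨fun _ => ∅, toLex (1, 0), {0}, by simp, by simp, by simp, by simp [sec], by simp,
      by simp, by simp, by simp, ?_⟩
    intro ρ _ _
    simp [wval]
  | cons q l ih =>
    obtain ⟨⟨j, b⟩, g⟩ := q
    obtain ⟨S, z, U, h1, h2, h3, h4, h5, h6, h7, h8, h9⟩ := ih (List.IsChain.tail hl)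
    -- the point before the letter
    obtain ⟨s, hs⟩ : ∃ s, s = actE hG g z := ⟨_, rfl⟩
    have hss : sec s = sec z := by rw [hs, sec_actE]
    have hsz : s = z → g = 1 := fun h => actE_free hG (hs.symm.trans h)
    have hval : ∀ ρ : XX G ι →* ((G ×ₗ ℚ) ≃o (G ×ₗ ℚ)), (∀ g, ρ (cX ι g) = actE hG g) →
        (∀ j, ∀ q ∈ S j, ρ (lX G (j, true)) q.1 = q.2) →
        ρ (wval (1, ((j, b), g) :: l)) (toLex (1, 0)) = ρ (lX G (j, b)) s := by
      intro ρ hρ hρ'
      have e1 : wval (1, ((j, b), g) :: l) = lX G (j, b) * (cX ι g * wval (1, l)) := by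
        simp [wval, mul_assoc]
      rw [e1, map_mul, map_mul, RelIso.mul_apply, RelIso.mul_apply, h9 ρ hρ hρ', hρ, hs]
    cases b
    · -- inverse letter
      have hnr : ∀ q ∈ S j, q.2 ≠ s := by
        intro q hq hqs
        obtain ⟨e1, g', l', e2⟩ := h8 j q hq (by rw [hqs, hss])
        have e3 := hsz (hqs.symm.trans e1)
        rw [e2] at hl
        exact (List.isChain_cons_cons.1 hl).1 ⟨e3, rfl⟩
      obtain ⟨t, ht1, ht2⟩ := fresh_across ((S j).image Prod.swap) (by
        intro p hp q hq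
        obtain ⟨p', hp', rfl⟩ := Finset.mem_image.1 hp
        obtain ⟨q', hq', rfl⟩ := Finset.mem_image.1 hq
        exact (h1 j p' hp' q' hq').symm) U s (by
        intro q hq
        obtain ⟨q', hq', rfl⟩ := Finset.mem_image.1 hq
        exact hnr q' hq')
      have ht3 : ∀ q ∈ S j, cmp q.2 s = cmp q.1 t := fun q hq =>
        ht2 q.swap (Finset.mem_image.2 ⟨q, hq, rfl⟩)
      have hmem : ∀ i, ∀ q, q ∈ (if i = j then insert (t, s) (S i) else S i) →
          q ∈ S i ∨ (i = j ∧ q = (t, s)) := by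
        intro i q hq
        split_ifs at hq with hij
        · rcases Finset.mem_insert.1 hq with h | h
          · exact Or.inr ⟨hij, h⟩
          · exact Or.inl h
        · exact Or.inl hq
      have hmem' : ∀ i, ∀ q, q ∈ S i → q ∈ (if i = j then insert (t, s) (S i) else S i) := by
        intro i q hq
        split_ifs
        · exact Finset.mem_insert_of_mem hq
        · exact hq
      have hnew : (t, s) ∈ (if j = j then insert (t, s) (S j) else S j) := by simp
      refine ⟨fun i => if i = j then insert (t, s) (S i) else S i, t, insert (sec t) U,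
        ?_, ?_, Finset.mem_insert_of_mem h3, Finset.mem_insert_self _ _, ?_, by simp, ?_, ?_, ?_⟩
      · intro i p hp q hq
        rcases hmem i p hp with hp' | ⟨rfl, rfl⟩
        · rcases hmem i q hq with hq | ⟨rfl, rfl⟩
          · exact h1 i p hp' q hq
          · exact (ht3 p hp').symm
        · rcases hmem i q hq with hq | ⟨-, rfl⟩
          · have := ht3 q hq
            rw [cmp_eq_cmp_symm] at this
            exact this.symm
          · simp
      · intro i q hq
        rcases hmem i q hq with hq | ⟨rfl, rfl⟩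
        · exact ⟨Finset.mem_insert_of_mem (h2 i q hq).1, Finset.mem_insert_of_mem (h2 i q hq).2⟩
        · exact ⟨Finset.mem_insert_self _ _, Finset.mem_insert_of_mem (by
            show sec s ∈ U
            rw [hss]; exact h4)⟩
      · intro _ h0
        exact ht1 (h0 ▸ h3)
      · intro i q hq hqt
        rcases hmem i q hq with hq | ⟨rfl, rfl⟩
        · exact absurd (hqt ▸ (h2 i q hq).1) ht1
        · exact ⟨rfl, g, l, rfl⟩
      · intro i q hq hqt
        rcases hmem i q hq with hq | ⟨rfl, rfl⟩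
        · exact absurd (hqt ▸ (h2 i q hq).2) ht1
        · have e1 : sec s = sec t := hqt
          rw [hss] at e1
          exact absurd (e1 ▸ h4) ht1
      · intro ρ hρ hρ'
        rw [hval ρ hρ (fun i q hq => hρ' i q (hmem' i q hq))]
        have e1 := hρ' j (t, s) hnew
        simp only at e1
        have e2 : lX G (j, false) = (lX G (j, true))⁻¹ := lX_linv (j, true)
        rw [e2, map_inv, ← e1]
        exact inv_apply_self' _ _
    · -- positive letter
      have hnr : ∀ q ∈ S j, q.1 ≠ s := by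
        intro q hq hqs
        obtain ⟨e1, g', l', e2⟩ := h7 j q hq (by rw [hqs, hss])
        have e3 := hsz (hqs.symm.trans e1)
        rw [e2] at hl
        exact (List.isChain_cons_cons.1 hl).1 ⟨e3, rfl⟩
      obtain ⟨t, ht1, ht3⟩ := fresh_across (S j) (h1 j) U s hnr
      have hmem : ∀ i, ∀ q, q ∈ (if i = j then insert (s, t) (S i) else S i) →
          q ∈ S i ∨ (i = j ∧ q = (s, t)) := by
        intro i q hq
        split_ifs at hq with hij
        · rcases Finset.mem_insert.1 hq with h | h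
          · exact Or.inr ⟨hij, h⟩
          · exact Or.inl h
        · exact Or.inl hq
      have hmem' : ∀ i, ∀ q, q ∈ S i → q ∈ (if i = j then insert (s, t) (S i) else S i) := by
        intro i q hq
        split_ifs
        · exact Finset.mem_insert_of_mem hq
        · exact hq
      have hnew : (s, t) ∈ (if j = j then insert (s, t) (S j) else S j) := by simp
      refine ⟨fun i => if i = j then insert (s, t) (S i) else S i, t, insert (sec t) U,
        ?_, ?_, Finset.mem_insert_of_mem h3, Finset.mem_insert_self _ _, ?_, by simp, ?_, ?_, ?_⟩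
      · intro i p hp q hq
        rcases hmem i p hp with hp' | ⟨rfl, rfl⟩
        · rcases hmem i q hq with hq | ⟨rfl, rfl⟩
          · exact h1 i p hp' q hq
          · exact ht3 p hp'
        · rcases hmem i q hq with hq | ⟨-, rfl⟩
          · have := ht3 q hq
            rw [cmp_eq_cmp_symm] at this
            exact this
          · simp
      · intro i q hq
        rcases hmem i q hq with hq | ⟨rfl, rfl⟩
        · exact ⟨Finset.mem_insert_of_mem (h2 i q hq).1, Finset.mem_insert_of_mem (h2 i q hq).2⟩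
        · exact ⟨Finset.mem_insert_of_mem (by
            show sec s ∈ U
            rw [hss]; exact h4), Finset.mem_insert_self _ _⟩
      · intro _ h0
        exact ht1 (h0 ▸ h3)
      · intro i q hq hqt
        rcases hmem i q hq with hq | ⟨rfl, rfl⟩
        · exact absurd (hqt ▸ (h2 i q hq).1) ht1
        · have e1 : sec s = sec t := hqt
          rw [hss] at e1
          exact absurd (e1 ▸ h4) ht1
      · intro i q hq hqt
        rcases hmem i q hq with hq | ⟨rfl, rfl⟩
        · exact absurd (hqt ▸ (h2 i q hq).2) ht1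
        · exact ⟨rfl, g, l, rfl⟩
      · intro ρ hρ hρ'
        rw [hval ρ hρ (fun i q hq => hρ' i q (hmem' i q hq))]
        exact hρ' j (s, t) hnew

include hG in
/-- every nontrivial element moves a point in some action -/
theorem exists_moving [Countable G] {m : XX G ι} (hm : m ≠ 1) :
    ∃ (ρ : XX G ι →* ((G ×ₗ ℚ) ≃o (G ×ₗ ℚ))) (e : G ×ₗ ℚ), ρ m e ≠ e := by
  have : Nonempty (G ×ₗ ℚ) := ⟨toLex (1, 0)⟩
  have : NoMinOrder (G ×ₗ ℚ) := inferInstance
  have : NoMaxOrder (G ×ₗ ℚ) := inferInstance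
  have : DenselyOrdered (G ×ₗ ℚ) := inferInstance
  have : Countable (G ×ₗ ℚ) := inferInstanceAs (Countable (G × ℚ))
  obtain ⟨⟨g, l⟩, hl, rfl⟩ := exists_wval m
  obtain ⟨S, z, U, h1, h2, h3, h4, h5, h6, h7, h8, h9⟩ := path_exists hG l hl
  choose L hL using fun j => ext_iso (S j) (h1 j)
  let ρ : XX G ι →* ((G ×ₗ ℚ) ≃o (G ×ₗ ℚ)) := Monoid.Coprod.lift (actE hG) (FreeGroup.lift L)
  have hρ : ∀ g, ρ (cX ι g) = actE hG g := fun g => by simp [ρ, cX]
  have hρ' : ∀ j, ρ (lX G (j, true)) = L j := fun j => by simp [ρ, lX, lF]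
  refine ⟨ρ, toLex (1, 0), ?_⟩
  have h10 := h9 ρ hρ (fun j q hq => by rw [hρ' j, hL j q hq])
  have h11 : wval (g, l) = cX ι g * wval (1, l) := by simp [wval]
  rw [h11, map_mul, RelIso.mul_apply, h10, hρ]
  intro h12
  by_cases hnil : l = []
  · have h13 := h6 hnil
    rw [h13] at h12
    have h14 := actE_free hG h12
    subst h14
    subst hnil
    exact hm (by simp [wval])
  · apply h5 hnil
    have := congrArg sec h12
    rw [sec_actE] at this
    rw [this]; rfl

include hG in
/-- **The free product is left-orderable.** -/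
theorem exists_order [Countable G] [Countable ι] : ∃ r : LinearOrder (XX G ι),
    ∀ a b c : XX G ι, r.lt b c → r.lt (a * b) (a * c) := by
  classical
  have : Countable (XX G ι) := countable_XX
  obtain ⟨en, hen⟩ := exists_surjective_nat (XX G ι)
  have hmv : ∀ n : ℕ, ∃ (ρ : XX G ι →* ((G ×ₗ ℚ) ≃o (G ×ₗ ℚ))) (e : G ×ₗ ℚ),
      en n ≠ 1 → ρ (en n) e ≠ e := by
    intro n
    by_cases h : en n = 1
    · exact ⟨1, toLex (1, 0), fun h' => absurd h h'⟩
    · obtain ⟨ρ, e, he⟩ := exists_moving hG h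
      exact ⟨ρ, e, fun _ => he⟩
  choose ρ e hρ using hmv
  let Φ : XX G ι → Lex (ℕ → G ×ₗ ℚ) := fun a => toLex (fun n => ρ n a (e n))
  have hΦ : Function.Injective Φ := by
    intro a b hab
    by_contra hne
    obtain ⟨n, hn⟩ := hen (a⁻¹ * b)
    have h1 : en n ≠ 1 := by
      rw [hn]
      intro h
      exact hne (inv_mul_eq_one.1 h)
    apply hρ n h1
    have h2 : ρ n a (e n) = ρ n b (e n) := congrFun (congrArg ofLex hab) n
    rw [hn, map_mul, RelIso.mul_apply, ← h2, map_inv]
    exact inv_apply_self' _ _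
  refine ⟨LinearOrder.lift' Φ hΦ, ?_⟩
  intro a b c hbc
  have h1 : Φ b < Φ c := hbc
  show Φ (a * b) < Φ (a * c)
  obtain ⟨i, hi, hi'⟩ := h1
  refine ⟨i, fun j hj => ?_, ?_⟩
  · have := hi j hj
    show ρ j (a * b) (e j) = ρ j (a * c) (e j)
    rw [map_mul, map_mul, RelIso.mul_apply, RelIso.mul_apply]
    exact congrArg _ this
  · show ρ i (a * b) (e i) < ρ i (a * c) (e i)
    rw [map_mul, map_mul, RelIso.mul_apply, RelIso.mul_apply]
    exact (ρ i a).strictMono hi'

end path

end Vale.Agent.P174.LO
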