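import Vale.Agent.P174.LO.Insert
import Vale.Agent.P174.LO.Lox

/-! P174: the combinatorial core of the order lemma.  helper879. -/

namespace Vale.Agent.P174.LO

universe u v w

variable {G : Type u} [Group G] {ι : Type v} {ℓ : ℕ} [NeZero ℓ]

/-! ### Segments of a cyclically reduced word -/

section seg

variable {x : ZMod ℓ → ι × Bool} {c : ZMod ℓ → G}

omit [NeZero ℓ] in
theorem seg_add (i : ZMod ℓ) (m n : ℕ) :
    seg x c i (m + n) = seg x c i m * seg x c (i + m) n := by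
  induction m generalizing i with
  | zero => simp [seg]
  | succ m ih =>
    have h1 : m + 1 + n = (m + n) + 1 := by omega
    rw [h1, seg, ih (i + 1), seg]
    have h2 : i + 1 + (m : ZMod ℓ) = i + ((m + 1 : ℕ) : ZMod ℓ) := by push_cast; ring
    rw [h2]
    simp only [mul_assoc]

/-- the list of letters and coefficients -/
def segl (x : ZMod ℓ → ι × Bool) (c : ZMod ℓ → G) (i : ZMod ℓ) : ℕ → List ((ι × Bool) × G)
  | 0 => []
  | n + 1 => (x i, c i) :: segl x c (i + 1) n

omit [NeZero ℓ] in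
theorem seg_eq_wval (i : ZMod ℓ) (n : ℕ) : seg x c i n = wval (1, segl x c i n) := by
  induction n generalizing i with
  | zero => simp [seg, segl, wval]
  | succ n ih =>
    rw [seg, ih, segl, wval_cons]
    simp [wval, mul_assoc]

omit [NeZero ℓ] in
theorem red_segl (hcr : ∀ i, ¬ (c i = 1 ∧ x (i + 1) = linv (x i))) (i : ZMod ℓ) (n : ℕ) :
    Red (segl x c i n) := by
  induction n generalizing i with
  | zero => simp [segl, Red]
  | succ n ih =>
    rcases n with _ | n
    · simp [segl, Red]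
    · have := ih (i + 1)
      rw [segl, segl]
      exact List.isChain_cons_cons.2 ⟨hcr i, this⟩

omit [Group G] [NeZero ℓ] in
theorem length_segl (i : ZMod ℓ) (n : ℕ) : (segl x c i n).length = n := by
  induction n generalizing i with
  | zero => simp [segl]
  | succ n ih => simp [segl, ih]

omit [Group G] [NeZero ℓ] in
theorem getElem?_segl (i : ZMod ℓ) (n : ℕ) {k : ℕ} (hk : k < n) :
    (segl x c i n)[k]? = some (x (i + k), c (i + k)) := by
  induction n generalizing i k with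
  | zero => omega
  | succ n ih =>
    rcases k with _ | k
    · simp [segl]
    · rw [segl, List.getElem?_cons_succ, ih (i + 1) (by omega)]
      have : i + 1 + (k : ZMod ℓ) = i + ((k + 1 : ℕ) : ZMod ℓ) := by push_cast; ring
      rw [this]

/-- the word between two slots -/
def mm (x : ZMod ℓ → ι × Bool) (c : ZMod ℓ → G) (i : ZMod ℓ) (n : ℕ) : XX G ι :=
  cX ι (c i) * seg x c (i + 1) (n - 1)

omit [NeZero ℓ] in
theorem mm_ne_one (hcr : ∀ i, ¬ (c i = 1 ∧ x (i + 1) = linv (x i))) {i : ZMod ℓ} {n : ℕ}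
    (hn : 1 ≤ n) (h1 : (x (i + n)).1 = (x i).1) (h2 : (x (i + n)).2 ≠ (x i).2) :
    mm x c i n ≠ 1 := by
  intro h
  have h3 : mm x c i n = wval (c i, segl x c (i + 1) (n - 1)) := by
    rw [mm, seg_eq_wval]; simp [wval]
  rw [h3, ← cX_one (ι := ι)] at h
  by_cases hn1 : n = 1
  · subst hn1
    simp only [Nat.sub_self, segl] at h
    rw [wval_nil] at h
    have h4 := cX_injective h
    refine hcr i ⟨h4, ?_⟩
    simp only [Nat.cast_one] at h1 h2
    refine Prod.ext h1 ?_
    show _ = !(x i).2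
    revert h2
    cases (x (i + 1)).2 <;> cases (x i).2 <;> simp
  · refine wval_ne (red_segl hcr _ _) ?_ h
    obtain ⟨k, rfl⟩ : ∃ k, n = k + 2 := ⟨n - 2, by omega⟩
    have : k + 2 - 1 = k + 1 := rfl
    rw [this, segl]
    simp

omit [NeZero ℓ] in
theorem seg_eq_mm {i : ZMod ℓ} {n : ℕ} (hn : 1 ≤ n) :
    seg x c i n = lX G (x i) * mm x c i n := by
  obtain ⟨k, rfl⟩ : ∃ k, n = k + 1 := ⟨n - 1, by omega⟩
  rw [seg, mm]
  simp [mul_assoc]

end seg

/-! ### Consecutive elements of a cyclic set -/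

section consec

variable (S : ZMod ℓ → Prop)

/-- the next element of `S` after `u` is `u + n` -/
def Nx (u : ZMod ℓ) (n : ℕ) : Prop := 1 ≤ n ∧ S (u + n) ∧ ∀ k : ℕ, 1 ≤ k → k < n → ¬ S (u + k)

variable {S}

theorem exists_next {u : ZMod ℓ} (hu : S u) : ∃ n, Nx S u n := by
  classical
  have hl : 0 < ℓ := Nat.pos_of_ne_zero (NeZero.ne ℓ)
  have h : ∃ n : ℕ, 1 ≤ n ∧ S (u + n) := ⟨ℓ, hl, by simpa using hu⟩
  refine ⟨Nat.find h, (Nat.find_spec h).1, (Nat.find_spec h).2, ?_⟩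
  intro k hk hk' hS
  exact Nat.find_min h hk' ⟨hk, hS⟩

omit [NeZero ℓ] in
theorem Nx.le {u : ZMod ℓ} {n k : ℕ} (h : Nx S u n) (hk : 1 ≤ k) (hS : S (u + k)) : n ≤ k := by
  by_contra hc
  exact h.2.2 k hk (not_le.1 hc) hS

/-- consecutive elements with different properties -/
theorem exists_consec {Pr : ZMod ℓ → Prop} {a b : ZMod ℓ} (ha : S a) (hb : S b) (h1 : Pr a)
    (h2 : ¬ Pr b) : ∃ u n, S u ∧ Nx S u n ∧ Pr u ∧ ¬ Pr (u + n) := by
  by_contra hc
  push Not at hc
  have key : ∀ k : ℕ, ∀ w, S w → Pr w → S (w + k) → Pr (w + k) := by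
    intro k
    induction k using Nat.strong_induction_on with
    | _ k ih =>
      intro w hw hP hk
      by_cases h0 : k = 0
      · subst h0; simpa using hP
      · obtain ⟨n, hn⟩ := exists_next hw
        have hle : n ≤ k := hn.le (by omega) hk
        have h3 := hc w n hw hn hP
        have h4 : w + n + ((k - n : ℕ) : ZMod ℓ) = w + k := by
          rw [add_assoc, ← Nat.cast_add]
          congr 2
          omega
        have h5 := ih (k - n) (by have := hn.1; omega) (w + n) hn.2.1 h3 (by rw [h4]; exact hk)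
        rwa [h4] at h5
  apply h2
  have h6 : a + ((b - a).val : ZMod ℓ) = b := by
    rw [ZMod.natCast_zmod_val]; ring
  have := key (b - a).val a ha h1 (by rw [h6]; exact hb)
  rwa [h6] at this

/-- a word in which all the pieces between consecutive elements of `S` are equal is periodic -/
theorem power_contra {x : ZMod ℓ → ι × Bool} {c : ZMod ℓ → G} {b : XX G ι}
    (hcr : ∀ i, ¬ (c i = 1 ∧ x (i + 1) = linv (x i)))
    (hb : ∀ u n, S u → Nx S u n → seg x c u n = b) {u₀ v₀ : ZMod ℓ} (hu : S u₀) (hv : S v₀)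
    (huv : u₀ ≠ v₀)
    (hnp : ∀ d : ℕ, 0 < d → d < ℓ → ¬ ∀ i, x (i + d) = x i ∧ c (i + d) = c i) : False := by
  obtain ⟨n₀, hn₀⟩ := exists_next hu
  have hlt : n₀ < ℓ := by
    have h2 : u₀ + ((v₀ - u₀).val : ZMod ℓ) = v₀ := by
      rw [ZMod.natCast_zmod_val]; ring
    have h3 : (v₀ - u₀).val ≠ 0 := by
      rw [Ne, ZMod.val_eq_zero, sub_eq_zero]
      exact huv.symm
    exact lt_of_le_of_lt (hn₀.le (k := (v₀ - u₀).val) (by omega) (by rw [h2]; exact hv))
      (ZMod.val_lt _)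
  -- all the steps have the same length and the same letters
  have hseg : ∀ u n, S u → Nx S u n → segl x c u n = segl x c u₀ n₀ := by
    intro u n hu' hn
    have h1 := (hb u n hu' hn).trans (hb u₀ n₀ hu hn₀).symm
    rw [seg_eq_wval, seg_eq_wval] at h1
    have h2 := wval_inj (p := (1, segl x c u n)) (q := (1, segl x c u₀ n₀))
      (red_segl hcr _ _) (red_segl hcr _ _) h1
    exact congrArg Prod.snd h2
  have hlen : ∀ u n, S u → Nx S u n → n = n₀ := by
    intro u n hu' hn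
    have h1 := congrArg List.length (hseg u n hu' hn)
    rwa [length_segl, length_segl] at h1
  have hlet : ∀ u, S u → ∀ k < n₀, x (u + k) = x (u₀ + k) ∧ c (u + k) = c (u₀ + k) := by
    intro u hu' k hk
    obtain ⟨n, hn⟩ := exists_next hu'
    have h1 := hseg u n hu' hn
    rw [hlen u n hu' hn] at h1
    have h2 := congrArg (fun l => l[k]?) h1
    simp only [getElem?_segl _ _ hk, Option.some.injEq, Prod.mk.injEq] at h2
    exact h2
  have hSn : ∀ u, S u → S (u + n₀) := by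
    intro u hu'
    obtain ⟨n, hn⟩ := exists_next hu'
    have := hn.2.1
    rwa [hlen u n hu' hn] at this
  have hSm : ∀ m : ℕ, S (u₀ + ((m * n₀ : ℕ) : ZMod ℓ)) := by
    intro m
    induction m with
    | zero => simpa using hu
    | succ m ih =>
      have h1 := hSn _ ih
      have h2 : u₀ + ((m * n₀ : ℕ) : ZMod ℓ) + n₀ = u₀ + (((m + 1) * n₀ : ℕ) : ZMod ℓ) := by
        push_cast; ring
      rwa [h2] at h1
  refine hnp n₀ hn₀.1 hlt ?_
  intro i
  -- write `i = u₀ + m n₀ + k`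
  obtain ⟨m, k, hk, hi⟩ : ∃ m k : ℕ, k < n₀ ∧ i = u₀ + ((m * n₀ : ℕ) : ZMod ℓ) + k := by
    refine ⟨(i - u₀).val / n₀, (i - u₀).val % n₀, Nat.mod_lt _ hn₀.1, ?_⟩
    rw [add_assoc, ← Nat.cast_add, mul_comm, Nat.div_add_mod, ZMod.natCast_zmod_val]
    ring
  have h1 := hlet _ (hSm m) k hk
  have h2 := hlet _ (hSm (m + 1)) k hk
  have h3 : i + (n₀ : ZMod ℓ) = u₀ + (((m + 1) * n₀ : ℕ) : ZMod ℓ) + k := by
    rw [hi]; push_cast; ring
  rw [h3, hi]
  exact ⟨h2.1.trans h1.1.symm, h2.2.trans h1.2.symm⟩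

end consec

/-! ### Cuts -/

section cuts

variable {Λ : Type w} [LinearOrder Λ]

/-- a cut which splits no block -/
def NS (K : LowerSet (Λ ×ₗ ℚ)) : Prop := ∀ t r r', toLex (t, r) ∈ K → toLex (t, r') ∈ K

/-- the diagonal action -/
def dF (a : XX G ι →* (Λ ≃o Λ)) : XX G ι →* ((Λ ×ₗ ℚ) ≃o (Λ ×ₗ ℚ)) := diaH a 1

theorem dF_apply (a : XX G ι →* (Λ ≃o Λ)) (g : XX G ι) (t : Λ) (r : ℚ) :
    dF a g (toLex (t, r)) = toLex (a g t, r) := rfl

theorem dF_inv_apply (a : XX G ι →* (Λ ≃o Λ)) (g : XX G ι) (t : Λ) (r : ℚ) :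
    (dF a g)⁻¹ (toLex (t, r)) = toLex ((a g)⁻¹ t, r) := by
  rw [← map_inv, ← map_inv, dF_apply]

theorem NS.map {a : XX G ι →* (Λ ≃o Λ)} {K : LowerSet (Λ ×ₗ ℚ)} (h : NS K) (g : XX G ι) :
    NS (cutH _ (dF a g) K) := by
  intro t r r' hr
  rw [mem_cutH, dF_inv_apply] at hr ⊢
  exact h _ _ _ hr

theorem NS.of_fix {a : XX G ι →* (Λ ≃o Λ)} (ha : ∀ m, m ≠ 1 → ∀ t, a m t ≠ t)
    {K : LowerSet (Λ ×ₗ ℚ)} {m : XX G ι} (hm : m ≠ 1) (h : cutH _ (dF a m) K = K) : NS K := by
  intro t r r' hr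
  by_contra hr'
  have h1 : toLex (a m t, r) ∈ K := by
    rw [← h, ← dF_apply, apply_mem_cutH]; exact hr
  have h2 : toLex (a m t, r') ∉ K := by
    rw [← h, ← dF_apply, apply_mem_cutH]; exact hr'
  rcases lt_or_gt_of_ne (ha m hm t) with h3 | h3
  · apply h2
    refine K.lower (le_of_lt ?_) hr
    exact Prod.Lex.toLex_lt_toLex.2 (Or.inl h3)
  · apply hr'
    refine K.lower (le_of_lt ?_) h1
    exact Prod.Lex.toLex_lt_toLex.2 (Or.inl h3)

end cuts

/-! ### The core -/

section core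

variable {x : ZMod ℓ → ι × Bool} {c : ZMod ℓ → G} {Λ : Type w} [LinearOrder Λ]

open Classical in
/-- the twisted fibre map of a slot -/
noncomputable def Fib (a : XX G ι →* (Λ ≃o Λ)) (f : (Λ ×ₗ ℚ) ≃o (Λ ×ₗ ℚ)) (x : ZMod ℓ → ι × Bool)
    (S : ZMod ℓ → Prop) (i : ZMod ℓ) : (Λ ×ₗ ℚ) ≃o (Λ ×ₗ ℚ) :=
  if S i then dF a (lX G ((x i).1, true)) * f else dF a (lX G ((x i).1, true))

/-- the fibre map of a step -/
noncomputable def fib (a : XX G ι →* (Λ ≃o Λ)) (f : (Λ ×ₗ ℚ) ≃o (Λ ×ₗ ℚ)) (x : ZMod ℓ → ι × Bool)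
    (c : ZMod ℓ → G) (S : ZMod ℓ → Prop) (i : ZMod ℓ) : (Λ ×ₗ ℚ) ≃o (Λ ×ₗ ℚ) :=
  (if (x i).2 then Fib a f x S i else (Fib a f x S i)⁻¹) * dF a (cX ι (c i))

/-- the source cut of a slot -/
def Kc (a : XX G ι →* (Λ ≃o Λ)) (x : ZMod ℓ → ι × Bool) (c : ZMod ℓ → G)
    (T : ZMod ℓ → LowerSet (Λ ×ₗ ℚ)) (i : ZMod ℓ) : LowerSet (Λ ×ₗ ℚ) :=
  if (x i).2 then cutH _ (dF a (cX ι (c i))) (T (i + 1)) else T i

theorem core {a : XX G ι →* (Λ ≃o Λ)} (ha : ∀ m, m ≠ 1 → ∀ t, a m t ≠ t)
    {f : (Λ ×ₗ ℚ) ≃o (Λ ×ₗ ℚ)} {S : ZMod ℓ → Prop} {j₀ : ι} (hS : ∀ i, S i → (x i).1 = j₀)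
    {T : ZMod ℓ → LowerSet (Λ ×ₗ ℚ)}
    (hT : ∀ i, T i = cutH _ (fib a f x c S i) (T (i + 1))) {C : LowerSet (Λ ×ₗ ℚ)}
    (hK : ∀ u, S u → Kc a x c T u = C) {u₀ v₀ : ZMod ℓ} (hu : S u₀) (hv : S v₀) (huv : u₀ ≠ v₀)
    (hcr : ∀ i, ¬ (c i = 1 ∧ x (i + 1) = linv (x i)))
    (hnp : ∀ d : ℕ, 0 < d → d < ℓ → ¬ ∀ i, x (i + d) = x i ∧ c (i + d) = c i)
    (hf : NS C → NS (cutH _ f C) → False) : False := by
  classical
  obtain ⟨D, hD⟩ : ∃ D, D = cutH _ (dF a (lX G (j₀, true)) * f) C := ⟨_, rfl⟩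
  obtain ⟨M, hM⟩ : ∃ M : ZMod ℓ → LowerSet (Λ ×ₗ ℚ), ∀ i, M i =
    cutH _ (dF a (cX ι (c i))) (T (i + 1)) := ⟨_, fun _ => rfl⟩
  have hFib : ∀ i, S i → Fib a f x S i = dF a (lX G (j₀, true)) * f := by
    intro i hi
    rw [Fib, if_pos hi, hS i hi]
  -- positive slots
  have t1 : ∀ u, S u → (x u).2 = true → M u = C ∧ T u = D := by
    intro u hu hb
    have h1 := hK u hu
    rw [Kc, if_pos hb, ← hM] at h1
    refine ⟨h1, ?_⟩
    rw [hT u, fib, if_pos hb, map_mul, RelIso.mul_apply, ← hM, h1, hFib u hu, hD]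
  -- negative slots
  have t2 : ∀ u, S u → (x u).2 = false → M u = D ∧ T u = C := by
    intro u hu hb
    have hb' : ¬ (x u).2 = true := by simp [hb]
    have h1 := hK u hu
    rw [Kc, if_neg hb'] at h1
    refine ⟨?_, h1⟩
    have h2 := hT u
    rw [fib, if_neg hb', map_mul, RelIso.mul_apply, ← hM, hFib u hu, h1, map_inv] at h2
    rw [hD, h2]
    exact (apply_inv_self' _ _).symm
  -- other slots
  have t3 : ∀ i, ¬ S i → T i = cutH _ (dF a (lX G (x i) * cX ι (c i))) (T (i + 1)) := by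
    intro i hi
    have h1 : (if (x i).2 then Fib a f x S i else (Fib a f x S i)⁻¹) = dF a (lX G (x i)) := by
      rw [Fib, if_neg hi]
      rcases hxi : x i with ⟨j, b⟩
      cases b
      · simp only [Bool.false_eq_true, if_false]
        rw [← map_inv, show (j, false) = linv (j, true) from rfl, lX_linv]
      · simp
    conv_lhs => rw [hT i, fib, h1, ← map_mul]
  have t4 : ∀ (n : ℕ) (i : ZMod ℓ), (∀ k < n, ¬ S (i + k)) →
      T i = cutH _ (dF a (seg x c i n)) (T (i + n)) := by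
    intro n
    induction n with
    | zero =>
      intro i _
      have h1 : T (i + ((0 : ℕ) : ZMod ℓ)) = T i := by simp
      rw [h1]
      simp only [seg, map_one]
      rfl
    | succ n ih =>
      intro i hi
      have h1 := t3 i (by simpa using hi 0 (by omega))
      have h2 := ih (i + 1) (fun k hk => by
        have := hi (k + 1) (by omega)
        have h3 : i + ((k + 1 : ℕ) : ZMod ℓ) = i + 1 + k := by push_cast; ring
        rwa [h3] at this)
      have h3 : i + 1 + (n : ZMod ℓ) = i + ((n + 1 : ℕ) : ZMod ℓ) := by push_cast; ring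
      rw [h1, h2, h3, seg, map_mul (dF a) (lX G (x i) * cX ι (c i)) (seg x c (i + 1) n),
        map_mul (cutH _), RelIso.mul_apply]
  have t5 : ∀ u n, Nx S u n → M u = cutH _ (dF a (mm x c u n)) (T (u + n)) := by
    intro u n hn
    have h1 := t4 (n - 1) (u + 1) (fun k hk => by
      have := hn.2.2 (k + 1) (by omega) (by omega)
      have h3 : u + ((k + 1 : ℕ) : ZMod ℓ) = u + 1 + k := by push_cast; ring
      rwa [h3] at this)
    have h2 : u + 1 + ((n - 1 : ℕ) : ZMod ℓ) = u + n := by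
      have : n = (n - 1) + 1 := by have := hn.1; omega
      conv_rhs => rw [this]
      push_cast; ring
    rw [h2] at h1
    rw [hM, h1, mm, map_mul, map_mul, RelIso.mul_apply]
  have nsD : NS D → NS (cutH _ f C) := by
    intro h
    have h1 := h.map (a := a) (lX G (j₀, true))⁻¹
    rw [hD, ← RelIso.mul_apply, ← map_mul, map_inv, inv_mul_cancel_left] at h1
    exact h1
  by_cases hpos : ∃ p, S p ∧ (x p).2 = true
  · by_cases hneg : ∃ q, S q ∧ (x q).2 = false
    · obtain ⟨p, hp, hp'⟩ := hpos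
      obtain ⟨q, hq, hq'⟩ := hneg
      -- a sign change
      obtain ⟨u, n, e1, e2, e3, e4⟩ := exists_consec (S := S) (Pr := fun i => (x i).2 = true)
        hp hq hp' (by simp [hq'])
      obtain ⟨u', n', e1', e2', e3', e4'⟩ := exists_consec (S := S)
        (Pr := fun i => (x i).2 = false) hq hp hq' (by simp [hp'])
      simp only [Bool.not_eq_true] at e4
      simp only [Bool.not_eq_false] at e4'
      have h1 := t5 u n e2
      rw [(t1 u e1 e3).1, (t2 _ e2.2.1 e4).2] at h1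
      have h2 := t5 u' n' e2'
      rw [(t2 u' e1' e3').1, (t1 _ e2'.2.1 e4').2] at h2
      have m1 : mm x c u n ≠ 1 := mm_ne_one hcr e2.1 (by rw [hS _ e2.2.1, hS _ e1])
        (by rw [e3, e4]; simp)
      have m2 : mm x c u' n' ≠ 1 := mm_ne_one hcr e2'.1 (by rw [hS _ e2'.2.1, hS _ e1'])
        (by rw [e3', e4']; simp)
      exact hf (NS.of_fix ha m1 h1.symm) (nsD (NS.of_fix ha m2 h2.symm))
    · -- all positive
      have hall : ∀ u, S u → (x u).2 = true := by
        intro u hu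
        by_contra h
        exact hneg ⟨u, hu, by simpa using h⟩
      have h1 : ∀ u n, S u → Nx S u n → C = cutH _ (dF a (mm x c u n)) D := by
        intro u n hu hn
        have := t5 u n hn
        rwa [(t1 u hu (hall u hu)).1, (t1 _ hn.2.1 (hall _ hn.2.1)).2] at this
      by_cases hmm : ∃ u n u' n', S u ∧ Nx S u n ∧ S u' ∧ Nx S u' n' ∧ mm x c u n ≠ mm x c u' n'
      · obtain ⟨u, n, u', n', e1, e2, e3, e4, e5⟩ := hmm
        have h2 := h1 u n e1 e2
        have h3 := h1 u' n' e3 e4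
        have hNS : NS D := by
          apply NS.of_fix ha (m := (mm x c u' n')⁻¹ * mm x c u n) (fun h => e5 (inv_mul_eq_one.1 h).symm)
          rw [map_mul, map_mul, RelIso.mul_apply, ← h2, h3, map_inv, map_inv]
          exact inv_apply_self' _ _
        have hNC : NS C := by rw [h2]; exact hNS.map _
        exact hf hNC (nsD hNS)
      · push Not at hmm
        obtain ⟨n₀, hn₀⟩ := exists_next hu
        have hb : ∀ u n, S u → Nx S u n → seg x c u n = seg x c u₀ n₀ := by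
          intro u n hu' hn
          rw [seg_eq_mm hn.1, seg_eq_mm hn₀.1, hmm u n u₀ n₀ hu' hn hu hn₀]
          have h2 : x u = x u₀ := Prod.ext (by rw [hS u hu', hS u₀ hu])
            (by rw [hall u hu', hall u₀ hu])
          rw [h2]
        exact power_contra hcr hb hu hv huv hnp
  · -- all negative
    have hall : ∀ u, S u → (x u).2 = false := by
      intro u hu
      by_contra h
      exact hpos ⟨u, hu, by simpa using h⟩
    have h1 : ∀ u n, S u → Nx S u n → D = cutH _ (dF a (mm x c u n)) C := by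
      intro u n hu hn
      have := t5 u n hn
      rwa [(t2 u hu (hall u hu)).1, (t2 _ hn.2.1 (hall _ hn.2.1)).2] at this
    by_cases hmm : ∃ u n u' n', S u ∧ Nx S u n ∧ S u' ∧ Nx S u' n' ∧ mm x c u n ≠ mm x c u' n'
    · obtain ⟨u, n, u', n', e1, e2, e3, e4, e5⟩ := hmm
      have h2 := h1 u n e1 e2
      have h3 := h1 u' n' e3 e4
      have hNS : NS C := by
        apply NS.of_fix ha (m := (mm x c u' n')⁻¹ * mm x c u n) (fun h => e5 (inv_mul_eq_one.1 h).symm)
        rw [map_mul, map_mul, RelIso.mul_apply, ← h2, h3, map_inv, map_inv]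
        exact inv_apply_self' _ _
      have hND : NS D := by rw [h2]; exact hNS.map _
      exact hf hNS (nsD hND)
    · push Not at hmm
      obtain ⟨n₀, hn₀⟩ := exists_next hu
      have hb : ∀ u n, S u → Nx S u n → seg x c u n = seg x c u₀ n₀ := by
        intro u n hu' hn
        rw [seg_eq_mm hn.1, seg_eq_mm hn₀.1, hmm u n u₀ n₀ hu' hn hu hn₀]
        have h2 : x u = x u₀ := Prod.ext (by rw [hS u hu', hS u₀ hu])
          (by rw [hall u hu', hall u₀ hu])
        rw [h2]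
      exact power_contra hcr hb hu hv huv hnp

end core

end Vale.Agent.P174.LO
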