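import Vale.Agent.P174.LO.Closed

/-! P174: the counting argument with an ordered set.  helper879. -/

namespace Vale.Agent.P174.LO

universe u v w

variable {G : Type u} [Group G] {ι : Type v} {ℓ : ℕ} [NeZero ℓ]

section letE

variable {Ω : Type w} [LinearOrder Ω]

/-- a letter as an order automorphism -/
def letE (L : ι → (Ω ≃o Ω)) (a : ι × Bool) : Ω ≃o Ω :=
  if a.2 then L a.1 else (L a.1)⁻¹

theorem letE_linv (L : ι → (Ω ≃o Ω)) (a : ι × Bool) : letE L (linv a) = (letE L a)⁻¹ := by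
  rcases a with ⟨j, b⟩
  cases b <;> simp [letE, linv]

/-- the source of a letter `a` which ends at `s` (so that it starts at `letE a s`) -/
def srcE (L : ι → (Ω ≃o Ω)) (a : ι × Bool) (s : Ω) : Ω := if a.2 then s else letE L a s

end letE

/-- An ordered set with an action for which the word fixes the point `y 0` and the slots are
separated. -/
structure OD (x : ZMod ℓ → ι × Bool) (c : ZMod ℓ → G) (Ω : Type w) [LinearOrder Ω] where
  act : G →* (Ω ≃o Ω)
  L : ι → (Ω ≃o Ω)
  y : ZMod ℓ → Ω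
  rel : ∀ i, y i = letE L (x i) (act (c i) (y (i + 1)))
  sep : ∀ i j, i ≠ j → (x i).1 = (x j).1 →
    srcE L (x i) (act (c i) (y (i + 1))) ≠ srcE L (x j) (act (c j) (y (j + 1)))

namespace OD

variable {x : ZMod ℓ → ι × Bool} {c : ZMod ℓ → G} {Ω : Type w} [LinearOrder Ω] (O : OD x c Ω)

/-- the middle point of a slot -/
def m (i : ZMod ℓ) : Ω := O.act (c i) (O.y (i + 1))

/-- the source point of a slot -/
def src (i : ZMod ℓ) : Ω := srcE O.L (x i) (O.m i)

/-- point at the end of a dart -/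
def en (d : Fc × ZMod ℓ) : Ω := if d.1.2 then O.m d.2 else O.y d.2

/-- point at the start of a dart -/
def st (d : Fc × ZMod ℓ) : Ω := if d.1.2 then O.y d.2 else O.m d.2

omit [NeZero ℓ] in
theorem st_eq (d : Fc × ZMod ℓ) : O.st d = letE O.L (ilab x d) (O.en d) := by
  rcases d with ⟨⟨n, s⟩, i⟩
  cases s
  · simp only [st, en, ilab, Bool.false_eq_true, if_false, letE_linv]
    rw [O.rel i]
    exact ((letE O.L (x i)).symm_apply_apply _).symm
  · simp only [st, en, ilab, if_true]
    exact O.rel i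

omit [NeZero ℓ] in
theorem act_cor (d : Fc × ZMod ℓ) : O.act (cor c d) (O.st (nxt d)) = O.en d := by
  rcases d with ⟨⟨n, s⟩, i⟩
  cases s
  · simp only [st, en, cor, nxt, Bool.false_eq_true, if_false, m, sub_add_cancel, map_inv]
    exact (O.act (c (i - 1))).symm_apply_apply _
  · simp only [st, en, cor, nxt, if_true, m]

omit [NeZero ℓ] in
theorem src_true {d : Fc × ZMod ℓ} (h : (ilab x d).2 = true) : O.src d.2 = O.en d := by
  rcases d with ⟨⟨n, s⟩, i⟩
  cases s
  · simp only [ilab, linv, Bool.false_eq_true, if_false, Bool.not_eq_true'] at h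
    simp only [src, srcE, en, Bool.false_eq_true, if_false, h]
    exact (O.rel i).symm
  · simp only [ilab, if_true] at h
    simp [src, srcE, en, h]

omit [NeZero ℓ] in
theorem src_false {d : Fc × ZMod ℓ} (h : (ilab x d).2 = false) : O.src d.2 = O.st d := by
  rcases d with ⟨⟨n, s⟩, i⟩
  cases s
  · simp only [ilab, linv, Bool.false_eq_true, if_false, Bool.not_eq_false'] at h
    simp only [src, srcE, st, Bool.false_eq_true, if_false, if_true, h]
  · simp only [ilab, if_true] at h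
    simp only [src, srcE, st, Bool.false_eq_true, if_false, if_true, h]
    exact (O.rel i).symm

omit [NeZero ℓ] in
/-- comparison at the start of a dart, in terms of the sources -/
theorem lt_iff {d d' : Fc × ZMod ℓ} (h : ilab x d' = linv (ilab x d)) :
    O.en d' < O.st d ↔ O.src d'.2 < O.src d.2 := by
  cases hb : (ilab x d).2
  · have h1 : (ilab x d').2 = true := by rw [h]; simp [linv, hb]
    rw [O.src_false hb, O.src_true h1]
  · have h1 : (ilab x d').2 = false := by rw [h]; simp [linv, hb]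
    rw [O.src_true hb, O.src_false h1, O.st_eq d, O.st_eq d', h, letE_linv]
    constructor
    · intro h2
      have h3 := (letE O.L (ilab x d))⁻¹.strictMono h2
      rwa [show (letE O.L (ilab x d))⁻¹ (letE O.L (ilab x d) (O.en d)) = O.en d from
        (letE O.L (ilab x d)).symm_apply_apply _] at h3
    · intro h2
      have h3 := (letE O.L (ilab x d)).strictMono h2
      rwa [show (letE O.L (ilab x d)) ((letE O.L (ilab x d))⁻¹ (O.en d')) = O.en d' from
        (letE O.L (ilab x d)).apply_symm_apply _] at h3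

omit [NeZero ℓ] in
theorem gt_iff {d d' : Fc × ZMod ℓ} (h : ilab x d' = linv (ilab x d)) :
    O.st d < O.en d' ↔ O.src d.2 < O.src d'.2 := by
  cases hb : (ilab x d).2
  · have h1 : (ilab x d').2 = true := by rw [h]; simp [linv, hb]
    rw [O.src_false hb, O.src_true h1]
  · have h1 : (ilab x d').2 = false := by rw [h]; simp [linv, hb]
    rw [O.src_true hb, O.src_false h1, O.st_eq d, O.st_eq d', h, letE_linv]
    constructor
    · intro h2
      have h3 := (letE O.L (ilab x d))⁻¹.strictMono h2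
      rwa [show (letE O.L (ilab x d))⁻¹ (letE O.L (ilab x d) (O.en d)) = O.en d from
        (letE O.L (ilab x d)).symm_apply_apply _] at h3
    · intro h2
      have h3 := (letE O.L (ilab x d)).strictMono h2
      rwa [show (letE O.L (ilab x d)) ((letE O.L (ilab x d))⁻¹ (O.en d')) = O.en d' from
        (letE O.L (ilab x d)).apply_symm_apply _] at h3

section map

variable {A : Finset Fc} {σ : Fc × ZMod ℓ → Fc × ZMod ℓ} {p : Fc × ZMod ℓ → Ps G} {V : Finset ℕ}

/-- the sign of a dart -/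
def sg (σ : Fc × ZMod ℓ → Fc × ZMod ℓ) (d : Fc × ZMod ℓ) : Prop :=
  O.src (σ d).2 < O.src d.2

/-- frame of a dart -/
def fr (p : Fc × ZMod ℓ → Ps G) (d : Fc × ZMod ℓ) : G :=
  match p d with
  | some (_, h) => h
  | none => 1

/-- absolute height of a corner -/
def z (p : Fc × ZMod ℓ → Ps G) (d : Fc × ZMod ℓ) : Ω := O.act (fr p d) (O.en d)

omit [NeZero ℓ] in
theorem fr_of {p : Fc × ZMod ℓ → Ps G} {d : Fc × ZMod ℓ} {v : ℕ} {h : G}
    (hp : p d = some (v, h)) : fr p d = h := by
  simp [fr, hp]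

omit [NeZero ℓ] in
theorem sg_sig (h : Cm x c A σ p V) {a : Fc} (ha : a ∈ A) (i : ZMod ℓ) :
    O.sg σ (σ (a, i)) ↔ ¬ O.sg σ (a, i) := by
  have h1 := h.red a ha i
  have h2 := h.slab a ha i
  have h3 : (x (σ (a, i)).2).1 = (x i).1 := by
    have h4 : ∀ d : Fc × ZMod ℓ, (ilab x d).1 = (x d.2).1 := by
      rintro ⟨⟨n, s⟩, j⟩
      cases s <;> simp [ilab, linv]
    have h5 := congrArg Prod.fst h2
    rw [h4] at h5
    rw [h5]
    show (ilab x (a, i)).1 = _
    rw [h4]
  have h4 : O.src (σ (a, i)).2 ≠ O.src i := O.sep _ _ h1 h3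
  unfold sg
  rw [h.ssig a ha i]
  show O.src i < O.src (σ (a, i)).2 ↔ ¬ O.src (σ (a, i)).2 < O.src i
  rw [not_lt]
  exact ⟨le_of_lt, fun h5 => lt_of_le_of_ne h5 h4.symm⟩

omit [NeZero ℓ] in
theorem z_lt (h : Cm x c A σ p V) {a : Fc} (ha : a ∈ A) (i : ZMod ℓ) {v : ℕ}
    (hv : At v (p (a, i))) :
    O.z p (σ (nxt (a, i))) < O.z p (a, i) ↔ O.sg σ (nxt (a, i)) := by
  obtain ⟨g, hg⟩ := hv
  have h1 := h.inner a ha i
  rw [hg, pm_some] at h1
  have h2 : O.z p (a, i) = O.act (g * cor c (a, i)) (O.st (nxt (a, i))) := by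
    rw [z, fr_of hg, map_mul, RelIso.mul_apply, O.act_cor]
  have h3 : O.z p (σ (nxt (a, i))) = O.act (g * cor c (a, i)) (O.en (σ (nxt (a, i)))) := by
    rw [z, fr_of h1]
  rw [h2, h3, OrderIso.lt_iff_lt]
  exact O.lt_iff (h.slab a ha _)

omit [NeZero ℓ] in
theorem z_gt (h : Cm x c A σ p V) {a : Fc} (ha : a ∈ A) (i : ZMod ℓ) {v : ℕ}
    (hv : At v (p (a, i))) :
    O.z p (a, i) < O.z p (σ (nxt (a, i))) ↔ ¬ O.sg σ (nxt (a, i)) := by
  obtain ⟨g, hg⟩ := hv
  have h1 := h.inner a ha i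
  rw [hg, pm_some] at h1
  have h2 : O.z p (a, i) = O.act (g * cor c (a, i)) (O.st (nxt (a, i))) := by
    rw [z, fr_of hg, map_mul, RelIso.mul_apply, O.act_cor]
  have h3 : O.z p (σ (nxt (a, i))) = O.act (g * cor c (a, i)) (O.en (σ (nxt (a, i)))) := by
    rw [z, fr_of h1]
  rw [h2, h3, OrderIso.lt_iff_lt]
  refine (O.gt_iff (d := nxt (a, i)) (h.slab a ha _)).trans ?_
  refine Iff.trans ?_ (O.sg_sig h ha (nxt (a, i)).2)
  unfold sg
  rw [h.ssig a ha]
  exact Iff.rfl

/-- the corners of the map -/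
def crn (A : Finset Fc) : Finset (Fc × ZMod ℓ) := A ×ˢ Finset.univ

theorem exists_cyc {P : ZMod ℓ → Prop} {i j : ZMod ℓ} (hi : P i) (hj : ¬ P j) :
    ∃ k, P k ∧ ¬ P (k + 1) := by
  by_contra hc
  push Not at hc
  apply hj
  have h1 : ∀ n : ℕ, P (i + n) := by
    intro n
    induction n with
    | zero => simpa using hi
    | succ n ih =>
      have := hc _ ih
      push_cast
      rwa [← add_assoc]
  have := h1 (j - i).val
  rwa [ZMod.natCast_zmod_val, add_sub_cancel] at this

theorem exists_cyc_nxt {P : Fc × ZMod ℓ → Prop} {a : Fc} {i j : ZMod ℓ} (hi : P (a, i))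
    (hj : ¬ P (a, j)) : ∃ k, P (a, k) ∧ ¬ P (nxt (a, k)) := by
  rcases a with ⟨n, s⟩
  cases s
  · by_contra hc
    push Not at hc
    obtain ⟨k, h1, h2⟩ := exists_cyc (P := fun k => ¬ P ((n, false), k)) hj (by simpa using hi)
    simp only [not_not] at h2
    apply h1
    have := hc (k + 1) h2
    simpa [nxt] using this
  · obtain ⟨k, h1, h2⟩ := exists_cyc (P := fun k => P ((n, true), k)) hi hj
    exact ⟨k, h1, by simpa [nxt] using h2⟩

/-- the slot with largest (smallest) source for a given unknown -/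
theorem exists_top : ∃ i : ZMod ℓ, ∀ j, (x j).1 = (x i).1 → O.src j ≤ O.src i := by
  classical
  obtain ⟨i, hi, hm⟩ := Finset.exists_max_image
    (Finset.univ.filter fun j : ZMod ℓ => (x j).1 = (x 0).1) O.src ⟨0, by simp⟩
  simp only [Finset.mem_filter, Finset.mem_univ, true_and] at hi hm
  exact ⟨i, fun j hj => hm j (by rw [hj, hi])⟩

theorem exists_bot : ∃ i : ZMod ℓ, ∀ j, (x j).1 = (x i).1 → O.src i ≤ O.src j := by
  classical
  obtain ⟨i, hi, hm⟩ := Finset.exists_min_image
    (Finset.univ.filter fun j : ZMod ℓ => (x j).1 = (x 0).1) O.src ⟨0, by simp⟩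
  simp only [Finset.mem_filter, Finset.mem_univ, true_and] at hi hm
  exact ⟨i, fun j hj => hm j (by rw [hj, hi])⟩

omit [NeZero ℓ] in
theorem fst_slab (h : Cm x c A σ p V) {a : Fc} (ha : a ∈ A) (i : ZMod ℓ) :
    (x (σ (a, i)).2).1 = (x i).1 := by
  have h4 : ∀ d : Fc × ZMod ℓ, (ilab x d).1 = (x d.2).1 := by
    rintro ⟨⟨n, s⟩, j⟩
    cases s <;> simp [ilab, linv]
  have h5 := congrArg Prod.fst (h.slab a ha i)
  rw [h4] at h5
  rw [h5]
  show (ilab x (a, i)).1 = _
  rw [h4]

theorem exists_sg (h : Cm x c A σ p V) {a : Fc} (ha : a ∈ A) : ∃ i, O.sg σ (a, i) := by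
  obtain ⟨i, hi⟩ := O.exists_top
  refine ⟨i, lt_of_le_of_ne (hi _ (fst_slab h ha i)) ?_⟩
  exact O.sep _ _ (h.red a ha i) (fst_slab h ha i)

theorem exists_nsg (h : Cm x c A σ p V) {a : Fc} (ha : a ∈ A) : ∃ i, ¬ O.sg σ (a, i) := by
  obtain ⟨i, hi⟩ := O.exists_bot
  exact ⟨i, not_lt.2 (hi _ (fst_slab h ha i))⟩

open Classical in
/-- corners of a given type -/
noncomputable def typ (σ : Fc × ZMod ℓ → Fc × ZMod ℓ) (A : Finset Fc) (s t : Prop) :
    Finset (Fc × ZMod ℓ) :=
  (crn A).filter fun d => (O.sg σ d ↔ s) ∧ (O.sg σ (nxt d) ↔ t)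

theorem card_le_pm (h : Cm x c A σ p V) : A.card ≤ (O.typ σ A True False).card := by
  classical
  have h1 : ∀ a ∈ A, ∃ k, (a, k) ∈ O.typ σ A True False := by
    intro a ha
    obtain ⟨i, hi⟩ := O.exists_sg h ha
    obtain ⟨j, hj⟩ := O.exists_nsg h ha
    obtain ⟨k, hk, hk'⟩ := exists_cyc_nxt (P := O.sg σ) hi hj
    exact ⟨k, by simp [typ, crn, ha, hk, hk']⟩
  have h2 : A ⊆ (O.typ σ A True False).image Prod.fst := by
    intro a ha
    obtain ⟨k, hk⟩ := h1 a ha
    exact Finset.mem_image.2 ⟨_, hk, rfl⟩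
  exact (Finset.card_le_card h2).trans Finset.card_image_le

theorem card_le_mp (h : Cm x c A σ p V) : A.card ≤ (O.typ σ A False True).card := by
  classical
  have h1 : ∀ a ∈ A, ∃ k, (a, k) ∈ O.typ σ A False True := by
    intro a ha
    obtain ⟨i, hi⟩ := O.exists_sg h ha
    obtain ⟨j, hj⟩ := O.exists_nsg h ha
    obtain ⟨k, hk, hk'⟩ := exists_cyc_nxt (P := fun d => ¬ O.sg σ d) hj (by simpa using hi)
    rw [not_not] at hk'
    exact ⟨k, by simp [typ, crn, ha, hk, hk']⟩
  have h2 : A ⊆ (O.typ σ A False True).image Prod.fst := by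
    intro a ha
    obtain ⟨k, hk⟩ := h1 a ha
    exact Finset.mem_image.2 ⟨_, hk, rfl⟩
  exact (Finset.card_le_card h2).trans Finset.card_image_le

/-- the corners at a vertex -/
theorem exists_pp (h : Cm x c A σ p V) {v : ℕ} (hv : v ∈ V) :
    ∃ d ∈ O.typ σ A True True, At v (p d) := by
  classical
  obtain ⟨a₀, ha₀, i₀, h0⟩ := h.att v hv
  obtain ⟨⟨a, i⟩, hd, hm⟩ := Finset.exists_max_image
    ((crn A).filter fun d => At v (p d)) (O.z p) ⟨(a₀, i₀), by simp [crn, ha₀, h0]⟩
  simp only [crn, Finset.mem_filter, Finset.mem_product, Finset.mem_univ, and_true] at hd hm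
  obtain ⟨ha, hv1⟩ := hd
  -- the next corner at the vertex
  have e1 : At v (p (σ (nxt (a, i)))) := by rw [h.inner a ha i, at_pm]; exact hv1
  have e2 : (σ (nxt (a, i))).1 ∈ A := h.sA a ha _
  have s1 : O.sg σ (nxt (a, i)) := by
    by_contra hc
    exact absurd (hm _ ⟨e2, e1⟩) (not_le.2 ((O.z_gt h ha i hv1).2 hc))
  -- the previous corner at the vertex
  obtain ⟨f, hf⟩ : ∃ f, f = prv (σ (a, i)) := ⟨_, rfl⟩
  have hfA : f.1 ∈ A := by rw [hf]; exact h.sA a ha i
  have hnf : σ (nxt f) = (a, i) := by rw [hf, nxt_prv, h.ssig a ha i]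
  have h3 : At v (p f) := by
    have h4 := h.inner f.1 hfA f.2
    have h5 : σ (nxt (f.1, f.2)) = (a, i) := hnf
    rw [h5] at h4
    rw [h4, at_pm] at hv1
    exact hv1
  have s2 : O.sg σ (a, i) := by
    by_contra hc
    have h6 := (O.z_lt (a := f.1) h hfA f.2 h3)
    have h7 : nxt (f.1, f.2) = σ (a, i) := by
      have : nxt f = σ (a, i) := by rw [hf, nxt_prv]
      exact this
    rw [h7] at h6
    rw [h.ssig a ha i, O.sg_sig h ha i] at h6
    exact absurd (hm _ ⟨hfA, h3⟩) (not_le.2 (h6.2 hc))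
  exact ⟨(a, i), by simp [typ, crn, ha, s1, s2], hv1⟩

theorem exists_mm (h : Cm x c A σ p V) {v : ℕ} (hv : v ∈ V) :
    ∃ d ∈ O.typ σ A False False, At v (p d) := by
  classical
  obtain ⟨a₀, ha₀, i₀, h0⟩ := h.att v hv
  obtain ⟨⟨a, i⟩, hd, hm⟩ := Finset.exists_min_image
    ((crn A).filter fun d => At v (p d)) (O.z p) ⟨(a₀, i₀), by simp [crn, ha₀, h0]⟩
  simp only [crn, Finset.mem_filter, Finset.mem_product, Finset.mem_univ, and_true] at hd hm
  obtain ⟨ha, hv1⟩ := hd
  have e1 : At v (p (σ (nxt (a, i)))) := by rw [h.inner a ha i, at_pm]; exact hv1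
  have e2 : (σ (nxt (a, i))).1 ∈ A := h.sA a ha _
  have s1 : ¬ O.sg σ (nxt (a, i)) := by
    intro hc
    exact absurd (hm _ ⟨e2, e1⟩) (not_le.2 ((O.z_lt h ha i hv1).2 hc))
  obtain ⟨f, hf⟩ : ∃ f, f = prv (σ (a, i)) := ⟨_, rfl⟩
  have hfA : f.1 ∈ A := by rw [hf]; exact h.sA a ha i
  have hnf : σ (nxt f) = (a, i) := by rw [hf, nxt_prv, h.ssig a ha i]
  have h3 : At v (p f) := by
    have h4 := h.inner f.1 hfA f.2
    have h5 : σ (nxt (f.1, f.2)) = (a, i) := hnf
    rw [h5] at h4
    rw [h4, at_pm] at hv1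
    exact hv1
  have s2 : ¬ O.sg σ (a, i) := by
    intro hc
    have h6 := (O.z_gt (a := f.1) h hfA f.2 h3)
    have h7 : nxt (f.1, f.2) = σ (a, i) := by
      have : nxt f = σ (a, i) := by rw [hf, nxt_prv]
      exact this
    rw [h7] at h6
    rw [h.ssig a ha i, O.sg_sig h ha i, not_not] at h6
    exact absurd (hm _ ⟨hfA, h3⟩) (not_le.2 (h6.2 hc))
  exact ⟨(a, i), by simp [typ, crn, ha, s1, s2], hv1⟩

omit [NeZero ℓ] in
theorem card_le_of_at {S : Finset (Fc × ZMod ℓ)} (h : ∀ v ∈ V, ∃ d ∈ S, At v (p d)) :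
    V.card ≤ S.card := by
  classical
  choose! f hf hf' using h
  refine Finset.card_le_card_of_injOn f hf ?_
  intro v hv w hw hvw
  obtain ⟨g, hg⟩ := hf' v hv
  obtain ⟨g', hg'⟩ := hf' w hw
  rw [hvw, hg'] at hg
  simp only [Option.some.injEq, Prod.mk.injEq] at hg
  exact hg.1.symm

theorem card_typ : (O.typ σ A True True).card + (O.typ σ A False False).card +
    (O.typ σ A True False).card + (O.typ σ A False True).card ≤ ℓ * A.card := by
  classical
  have h0 : (crn (ℓ := ℓ) A).card = ℓ * A.card := by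
    rw [crn, Finset.card_product, Finset.card_univ, ZMod.card, mul_comm]
  have h1 : Disjoint (O.typ σ A True True) (O.typ σ A False False) := by
    rw [Finset.disjoint_left]
    intro d hd hd'
    simp only [typ, Finset.mem_filter, iff_true, iff_false] at hd hd'
    exact hd'.2.1 hd.2.1
  have h2 : Disjoint (O.typ σ A True True ∪ O.typ σ A False False) (O.typ σ A True False) := by
    rw [Finset.disjoint_left]
    intro d hd hd'
    simp only [typ, Finset.mem_union, Finset.mem_filter, iff_true, iff_false] at hd hd'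
    tauto
  have h3 : Disjoint (O.typ σ A True True ∪ O.typ σ A False False ∪ O.typ σ A True False)
      (O.typ σ A False True) := by
    rw [Finset.disjoint_left]
    intro d hd hd'
    simp only [typ, Finset.mem_union, Finset.mem_filter, iff_true, iff_false] at hd hd'
    tauto
  rw [← h0, ← Finset.card_union_of_disjoint h1, ← Finset.card_union_of_disjoint h2,
    ← Finset.card_union_of_disjoint h3]
  apply Finset.card_le_card
  intro d hd
  simp only [typ, Finset.mem_union, Finset.mem_filter] at hd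
  tauto

include O in
/-- there is no closed reduced map over an ordered set -/
theorem no_closed : ¬ Cm x c A σ p V := by
  intro h
  have h1 := card_le_of_at (p := p) (fun v hv => O.exists_pp h hv)
  have h2 := card_le_of_at (p := p) (fun v hv => O.exists_mm h hv)
  have h3 := O.card_le_pm h
  have h4 := O.card_le_mp h
  have h5 := O.card_typ (σ := σ) (A := A)
  have h6 := h.cnt
  omega

end map

include O in
/-- **Freiheitssatz over an ordered set.** -/
theorem free {g : G} (h : cX ι g ∈ Subgroup.normalClosure {seg x c 0 ℓ}) : g = 1 := by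
  by_contra hg
  obtain ⟨A, σ, p, V, hC⟩ := exists_closed hg h
  exact O.no_closed hC

end OD

end Vale.Agent.P174.LO
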