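import Mathlib

/-! P174, one equation over a left-orderable group.  Words in `G * F(ι)`: letters, token lists,
reduced words.  helper879. -/

namespace Vale.Agent.P174.LO

universe u v w

/-- The free product `G * F(ι)`. -/
abbrev XX (G : Type u) [Group G] (ι : Type v) := Monoid.Coprod G (FreeGroup ι)

/-- the inverse letter -/
def linv {ι : Type v} (a : ι × Bool) : ι × Bool := (a.1, !a.2)

@[simp] theorem linv_linv {ι : Type v} (a : ι × Bool) : linv (linv a) = a := by
  simp [linv]

theorem linv_ne {ι : Type v} (a : ι × Bool) : linv a ≠ a := by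
  intro h
  have := congrArg Prod.snd h
  simp [linv] at this

theorem linv_inj {ι : Type v} {a b : ι × Bool} (h : linv a = linv b) : a = b := by
  rw [← linv_linv a, h, linv_linv]

/-- a letter as an element of the free group -/
def lF {ι : Type v} (a : ι × Bool) : FreeGroup ι :=
  if a.2 then FreeGroup.of a.1 else (FreeGroup.of a.1)⁻¹

variable {G : Type u} [Group G] {ι : Type v}

/-- a letter as an element of `G * F(ι)` -/
def lX (G : Type u) [Group G] {ι : Type v} (a : ι × Bool) : XX G ι := Monoid.Coprod.inr (lF a)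

/-- a coefficient as an element of `G * F(ι)` -/
def cX (ι : Type v) (g : G) : XX G ι := Monoid.Coprod.inl g

@[simp] theorem cX_one : cX ι (1 : G) = 1 := by simp [cX]

@[simp] theorem cX_mul (g h : G) : cX ι (g * h) = cX ι g * cX ι h := by simp [cX]

@[simp] theorem cX_inv (g : G) : cX ι g⁻¹ = (cX ι g)⁻¹ := by simp [cX]

theorem lX_linv (a : ι × Bool) : lX G (linv a) = (lX G a)⁻¹ := by
  rcases a with ⟨j, b⟩
  cases b <;> simp [lX, lF, linv]

@[simp] theorem lX_mul_linv (a : ι × Bool) : lX G a * lX G (linv a) = 1 := by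
  rw [lX_linv]; simp

@[simp] theorem lX_linv_mul (a : ι × Bool) : lX G (linv a) * lX G a = 1 := by
  rw [lX_linv]; simp

/-- the value of a token -/
def tv {D : Type w} (lab : D → ι × Bool) : D ⊕ G → XX G ι
  | .inl d => lX G (lab d)
  | .inr g => cX ι g

/-- the value of a token list -/
def tval {D : Type w} (lab : D → ι × Bool) (T : List (D ⊕ G)) : XX G ι :=
  (T.map (tv lab)).prod

section tval

variable {D : Type w} (lab : D → ι × Bool)

@[simp] theorem tval_nil : tval lab ([] : List (D ⊕ G)) = 1 := rfl

@[simp] theorem tval_inl (d : D) (T : List (D ⊕ G)) :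
    tval lab (.inl d :: T) = lX G (lab d) * tval lab T := by
  simp [tval, tv]

@[simp] theorem tval_inr (g : G) (T : List (D ⊕ G)) :
    tval lab (.inr g :: T) = cX ι g * tval lab T := by
  simp [tval, tv]

@[simp] theorem tval_append (S T : List (D ⊕ G)) :
    tval lab (S ++ T) = tval lab S * tval lab T := by
  simp [tval]

theorem tval_map_inr (Gs : List G) :
    tval lab (Gs.map (Sum.inr : G → D ⊕ G)) = cX ι Gs.prod := by
  induction Gs with
  | nil => simp
  | cons g Gs ih => simp [ih]

end tval

/-! ### Reduced words -/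

/-- a word `x₁ g₁ x₂ g₂ …` in which no letter is followed by a trivial coefficient and the
inverse letter -/
def Red (l : List ((ι × Bool) × G)) : Prop :=
  l.IsChain (fun p q => ¬ (p.2 = 1 ∧ q.1 = linv p.1))

/-- value of `g₀ x₁ g₁ x₂ g₂ …` -/
def wval (p : G × List ((ι × Bool) × G)) : XX G ι :=
  cX ι p.1 * (p.2.map (fun q => lX G q.1 * cX ι q.2)).prod

theorem wval_nil (g : G) : wval ((g, []) : G × List ((ι × Bool) × G)) = cX ι g := by
  simp [wval]

theorem wval_cons (g : G) (a : ι × Bool) (k : G) (l : List ((ι × Bool) × G)) :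
    wval (g, (a, k) :: l) = cX ι g * lX G a * wval (k, l) := by
  simp [wval, mul_assoc]

open Classical in
/-- left multiplication by a letter on words -/
noncomputable def push (a : ι × Bool) :
    G × List ((ι × Bool) × G) → G × List ((ι × Bool) × G)
  | (g, []) => (1, [(a, g)])
  | (g, (b, k) :: l) => if g = 1 ∧ b = linv a then (k, l) else (1, (a, g) :: (b, k) :: l)

theorem push_red (a : ι × Bool) (p : G × List ((ι × Bool) × G)) (h : Red p.2) :
    Red (push a p).2 := by
  rcases p with ⟨g, _ | ⟨⟨b, k⟩, l⟩⟩
  · simp [push, Red]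
  · by_cases hc : g = 1 ∧ b = linv a
    · simp only [push, hc, and_self, if_true]
      exact List.IsChain.tail h
    · simp only [push, hc, if_false]
      exact List.isChain_cons_cons.2 ⟨hc, h⟩

theorem push_push (a : ι × Bool) (p : G × List ((ι × Bool) × G)) (h : Red p.2) :
    push (linv a) (push a p) = p := by
  rcases p with ⟨g, _ | ⟨⟨b, k⟩, l⟩⟩
  · simp [push]
  · by_cases hc : g = 1 ∧ b = linv a
    · obtain ⟨rfl, rfl⟩ := hc
      simp only [push, and_self, if_true]
      rcases l with _ | ⟨⟨b', k'⟩, l⟩
      · simp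
      · have h1 : ¬ (k = 1 ∧ b' = linv (linv a)) := (List.isChain_cons_cons.1 h).1
        simp only [h1, if_false]
    · simp [push, hc]

/-- reduced words -/
def RW (G : Type u) [Group G] (ι : Type v) := {p : G × List ((ι × Bool) × G) // Red p.2}

/-- the permutation of reduced words given by a letter -/
noncomputable def pushE (a : ι × Bool) : Equiv.Perm (RW G ι) where
  toFun p := ⟨push a p.1, push_red a p.1 p.2⟩
  invFun p := ⟨push (linv a) p.1, push_red _ p.1 p.2⟩
  left_inv p := Subtype.ext (push_push a p.1 p.2)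
  right_inv p := Subtype.ext (by
    have := push_push (linv a) p.1 p.2
    rwa [linv_linv] at this)

/-- left multiplication by a coefficient on reduced words -/
def coefP (g : G) : Equiv.Perm (RW G ι) where
  toFun p := ⟨(g * p.1.1, p.1.2), p.2⟩
  invFun p := ⟨(g⁻¹ * p.1.1, p.1.2), p.2⟩
  left_inv p := Subtype.ext (by simp)
  right_inv p := Subtype.ext (by simp)

theorem coefP_val (g : G) (p : RW G ι) : (coefP g p).1 = (g * p.1.1, p.1.2) := rfl

/-- the action of `G` on reduced words -/
def coefE : G →* Equiv.Perm (RW G ι) where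
  toFun g := coefP g
  map_one' := Equiv.ext fun p => Subtype.ext (by
    rw [coefP_val]
    simp)
  map_mul' g h := Equiv.ext fun p => Subtype.ext (by
    rw [Equiv.Perm.mul_apply, coefP_val, coefP_val, coefP_val]
    simp [mul_assoc])

/-- the action of `G * F(ι)` on reduced words -/
noncomputable def actRW : XX G ι →* Equiv.Perm (RW G ι) :=
  Monoid.Coprod.lift coefE (FreeGroup.lift fun j => pushE (j, true))

theorem actRW_cX (g : G) (p : RW G ι) :
    (actRW (cX ι g) p).1 = (g * p.1.1, p.1.2) := by
  have h : actRW (cX ι g) = (coefP g : Equiv.Perm (RW G ι)) := by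
    simp [actRW, cX, coefE]
  rw [h, coefP_val]

theorem actRW_lX (a : ι × Bool) (p : RW G ι) : (actRW (lX G a) p).1 = push a p.1 := by
  rcases a with ⟨j, b⟩
  cases b
  · simp only [actRW, lX, lF, Monoid.Coprod.lift_apply_inr]
    simp only [Bool.false_eq_true, if_false, map_inv, FreeGroup.lift_apply_of]
    rfl
  · simp only [actRW, lX, lF, Monoid.Coprod.lift_apply_inr]
    simp only [if_true, FreeGroup.lift_apply_of]
    rfl

theorem red_nil : Red ([] : List ((ι × Bool) × G)) := by simp [Red]

/-- the trivial reduced word -/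
def rw1 : RW G ι := ⟨(1, []), red_nil⟩

theorem act_wval (p : G × List ((ι × Bool) × G)) (h : Red p.2) :
    (actRW (wval p) rw1).1 = p := by
  rcases p with ⟨g, l⟩
  induction l generalizing g with
  | nil => rw [wval_nil, actRW_cX]; simp [rw1]
  | cons q l ih =>
    obtain ⟨a, k⟩ := q
    rw [wval_cons, map_mul, map_mul, Equiv.Perm.mul_apply, Equiv.Perm.mul_apply, actRW_cX,
      actRW_lX, ih k (List.IsChain.tail h)]
    rcases l with _ | ⟨⟨b, k'⟩, l⟩
    · simp [push]
    · have h1 : ¬ (k = 1 ∧ b = linv a) := (List.isChain_cons_cons.1 h).1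
      simp [push, h1]

theorem wval_inj {p q : G × List ((ι × Bool) × G)} (hp : Red p.2) (hq : Red q.2)
    (h : wval p = wval q) : p = q := by
  rw [← act_wval p hp, h, act_wval q hq]

theorem wval_ne {g k : G} {l : List ((ι × Bool) × G)} (hl : Red l) (hn : l ≠ []) :
    wval (g, l) ≠ cX ι k := by
  intro h
  rw [← wval_nil] at h
  have := wval_inj (p := (g, l)) (q := (k, [])) hl red_nil h
  exact hn (congrArg Prod.snd this)

theorem cX_injective : Function.Injective (cX ι : G → XX G ι) := by
  intro g k h
  rw [← wval_nil, ← wval_nil] at h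
  have := wval_inj (p := (g, [])) (q := (k, [])) red_nil red_nil h
  exact congrArg Prod.fst this

/-! ### Cancellation in token lists -/

section norm

variable {D : Type w} (lab : D → ι × Bool)

/-- collect coefficients -/
def nrm : List (D ⊕ G) → G × List (D × G)
  | [] => (1, [])
  | .inr g :: T => (g * (nrm T).1, (nrm T).2)
  | .inl d :: T => (1, (d, (nrm T).1) :: (nrm T).2)

theorem wval_nrm (T : List (D ⊕ G)) :
    wval ((nrm T).1, (nrm T).2.map (fun q => (lab q.1, q.2))) = tval lab T := by
  induction T with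
  | nil => simp [nrm, wval]
  | cons t T ih =>
    rcases t with d | g
    · simp only [nrm, List.map_cons, wval_cons, tval_inl, ih]
      simp
    · simp only [nrm, tval_inr, ← ih]
      simp [wval, mul_assoc]

theorem exists_of_nrm_nil {T : List (D ⊕ G)} (h : (nrm T).2 = []) :
    T = ((T.filterMap Sum.getRight?).map Sum.inr) ∧
      (T.filterMap Sum.getRight?).prod = (nrm T).1 := by
  induction T with
  | nil => simp [nrm]
  | cons t T ih =>
    rcases t with d | g
    · simp [nrm] at h
    · simp only [nrm] at h ⊢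
      obtain ⟨h1, h2⟩ := ih h
      constructor
      · simp only [List.filterMap_cons, Sum.getRight?_inr, List.map_cons]
        rw [← h1]
      · simp [h2]

/-- split a token list at its first dart -/
theorem exists_of_nrm_cons {T : List (D ⊕ G)} {d : D} {k : G} {l : List (D × G)}
    (h : (nrm T).2 = (d, k) :: l) :
    ∃ (Gs : List G) (T' : List (D ⊕ G)), T = Gs.map Sum.inr ++ .inl d :: T' ∧
      Gs.prod = (nrm T).1 ∧ nrm T' = (k, l) := by
  induction T with
  | nil => simp [nrm] at h
  | cons t T ih =>
    rcases t with d' | g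
    · simp only [nrm, List.cons.injEq, Prod.mk.injEq] at h
      obtain ⟨⟨rfl, rfl⟩, rfl⟩ := h
      exact ⟨[], T, by simp, by simp [nrm], rfl⟩
    · simp only [nrm] at h ⊢
      obtain ⟨Gs, T', h1, h2, h3⟩ := ih h
      exact ⟨g :: Gs, T', by simp [h1], by simp [h2], h3⟩

theorem exists_cancel_aux {T : List (D ⊕ G)}
    (h : ¬ Red ((nrm T).2.map (fun q => (lab q.1, q.2)))) :
    ∃ (T₁ : List (D ⊕ G)) (d : D) (Gs : List G) (d' : D) (T₂ : List (D ⊕ G)),
      T = T₁ ++ .inl d :: (Gs.map Sum.inr ++ .inl d' :: T₂) ∧ Gs.prod = 1 ∧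
        lab d' = linv (lab d) := by
  induction T with
  | nil => simp [nrm, Red] at h
  | cons t T ih =>
    rcases t with d | g
    · simp only [nrm, List.map_cons] at h
      rcases hl : (nrm T).2 with _ | ⟨⟨d', k'⟩, l⟩
      · rw [hl] at h
        simp [Red] at h
      · by_cases hc : (nrm T).1 = 1 ∧ lab d' = linv (lab d)
        · obtain ⟨Gs, T', h1, h2, h3⟩ := exists_of_nrm_cons hl
          exact ⟨[], d, Gs, d', T', by simp [h1], by rw [h2, hc.1], hc.2⟩
        · have h' : ¬ Red ((nrm T).2.map (fun q => (lab q.1, q.2))) := by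
            intro h5
            apply h
            rw [hl, List.map_cons] at h5 ⊢
            exact List.isChain_cons_cons.2 ⟨hc, h5⟩
          obtain ⟨T₁, e, Gs, e', T₂, h1, h2, h3⟩ := ih h'
          exact ⟨.inl d :: T₁, e, Gs, e', T₂, by simp [h1], h2, h3⟩
    · simp only [nrm] at h
      obtain ⟨T₁, e, Gs, e', T₂, h1, h2, h3⟩ := ih h
      exact ⟨.inr g :: T₁, e, Gs, e', T₂, by simp [h1], h2, h3⟩

theorem nrm_ne_nil {T : List (D ⊕ G)} {d : D} (h : Sum.inl d ∈ T) : (nrm T).2 ≠ [] := by
  induction T with
  | nil => simp at h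
  | cons t T ih =>
    rcases t with d' | g
    · simp [nrm]
    · simp only [nrm]
      apply ih
      simpa using h

/-- **Normal form theorem, token version.**  If a token list with at least one letter has value
in `G`, two consecutive letters cancel. -/
theorem exists_cancel {T : List (D ⊕ G)} {g : G} (h : tval lab T = cX ι g) {d : D}
    (hd : Sum.inl d ∈ T) :
    ∃ (T₁ : List (D ⊕ G)) (d : D) (Gs : List G) (d' : D) (T₂ : List (D ⊕ G)),
      T = T₁ ++ .inl d :: (Gs.map Sum.inr ++ .inl d' :: T₂) ∧ Gs.prod = 1 ∧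
        lab d' = linv (lab d) := by
  apply exists_cancel_aux
  intro hr
  have h1 := wval_nrm lab T
  rw [h] at h1
  refine wval_ne hr ?_ h1
  intro h2
  exact nrm_ne_nil hd (by simpa using h2)

end norm

end Vale.Agent.P174.LO
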