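import Vale.Agent.P174.LO.Insert

/-! P174: existence of states.  helper879. -/

namespace Vale.Agent.P174.LO

universe u v w

variable {G : Type u} [Group G] {ι : Type v} {ℓ : ℕ} [NeZero ℓ]

/-- induction on words -/
theorem XX_induction {C : XX G ι → Prop} (one : C 1) (coef : ∀ g u, C u → C (cX ι g * u))
    (letter : ∀ a u, C u → C (lX G a * u)) (u : XX G ι) : C u := by
  have key : ∀ u v : XX G ι, C v → C (u * v) := by
    intro u
    induction u using Monoid.Coprod.induction_on with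
    | inl g => exact fun v hv => coef g v hv
    | inr n =>
      induction n using FreeGroup.induction_on with
      | C1 => intro v hv; simpa using hv
      | of j => exact fun v hv => letter (j, true) v hv
      | inv_of j _ =>
        intro v hv
        have := letter (j, false) v hv
        simpa [lX, lF] using this
      | mul a b ha hb =>
        intro v hv
        rw [map_mul, mul_assoc]
        exact ha _ (hb _ hv)
    | mul a b ha hb =>
      intro v hv
      rw [mul_assoc]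
      exact ha _ (hb _ hv)
  have := key u 1 one
  rwa [mul_one] at this

variable (x : ZMod ℓ → ι × Bool) (c : ZMod ℓ → G)

/-- an element which can be inserted into every state -/
def Insb (v : XX G ι) : Prop :=
  ∀ (A : Finset Fc) (T₁ T₂ : List (Dt ι ℓ ⊕ G)) (σ : Dt ι ℓ → Dt ι ℓ) (p : Dt ι ℓ → Ps G)
    (b : Ps G) (V : Finset ℕ), St x c A (T₁ ++ T₂) σ p b V →
    ∃ (A' : Finset Fc) (T : List (Dt ι ℓ ⊕ G)) (σ' : Dt ι ℓ → Dt ι ℓ) (p' : Dt ι ℓ → Ps G)
      (b' : Ps G) (V' : Finset ℕ), St x c A' (T₁ ++ (T ++ T₂)) σ' p' b' V' ∧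
        tval (lab x) T = v

variable {x c}

omit [NeZero ℓ] in
theorem Insb.one : Insb x c 1 := fun A T₁ T₂ σ p b V h => ⟨A, [], σ, p, b, V, by simpa using h, rfl⟩

omit [NeZero ℓ] in
theorem Insb.mul {v v' : XX G ι} (h : Insb x c v) (h' : Insb x c v') : Insb x c (v * v') := by
  intro A T₁ T₂ σ p b V hS
  obtain ⟨A₁, S₁, σ₁, p₁, b₁, V₁, hS₁, hv₁⟩ := h' A T₁ T₂ σ p b V hS
  obtain ⟨A₂, S₂, σ₂, p₂, b₂, V₂, hS₂, hv₂⟩ := h A₁ T₁ (S₁ ++ T₂) σ₁ p₁ b₁ V₁ hS₁
  exact ⟨A₂, S₂ ++ S₁, σ₂, p₂, b₂, V₂, by simpa using hS₂, by rw [tval_append, hv₁, hv₂]⟩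

omit [NeZero ℓ] in
/-- inserting a coefficient and its inverse -/
theorem Insb.coef {v : XX G ι} (h : Insb x c v) (g : G) :
    Insb x c (cX ι g * v * (cX ι g)⁻¹) := by
  intro A T₁ T₂ σ p b V hS
  have h1 : St x c A (T₁ ++ (([] : List G).map Sum.inr ++ T₂)) σ p b V := by simpa using hS
  have h2 := h1.coef (Hs := [g, g⁻¹]) (by simp)
  have h3 : St x c A ((T₁ ++ [.inr g]) ++ (.inr g⁻¹ :: T₂)) σ p b V := by simpa using h2
  obtain ⟨A₁, S₁, σ₁, p₁, b₁, V₁, hS₁, hv₁⟩ := h _ _ _ _ _ _ _ h3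
  refine ⟨A₁, .inr g :: (S₁ ++ [.inr g⁻¹]), σ₁, p₁, b₁, V₁, by simpa using hS₁, ?_⟩
  simp [hv₁, mul_assoc]

omit [NeZero ℓ] in
/-- inserting a letter and its inverse -/
theorem Insb.letter {v : XX G ι} (h : Insb x c v) (a : ι × Bool) :
    Insb x c (lX G a * v * (lX G a)⁻¹) := by
  intro A T₁ T₂ σ p b V hS
  obtain ⟨k, σ₀, p₀, V₀, h1⟩ := hS.spur a
  have h3 : St x c A ((T₁ ++ [.inl (.inr (k, a))]) ++ (.inl (.inr (k, linv a)) :: T₂)) σ₀ p₀ b V₀ :=
    by simpa using h1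
  obtain ⟨A₁, S₁, σ₁, p₁, b₁, V₁, hS₁, hv₁⟩ := h _ _ _ _ _ _ _ h3
  refine ⟨A₁, .inl (.inr (k, a)) :: (S₁ ++ [.inl (.inr (k, linv a))]), σ₁, p₁, b₁, V₁,
    by simpa using hS₁, ?_⟩
  simp [hv₁, mul_assoc, lab, lX_linv]

omit [NeZero ℓ] in
theorem Insb.conj {v : XX G ι} (h : Insb x c v) (u : XX G ι) : Insb x c (u * v * u⁻¹) := by
  induction u using XX_induction with
  | one => simpa using h
  | coef g u ih =>
    have := ih.coef g
    convert this using 1
    group
  | letter a u ih =>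
    have := ih.letter a
    convert this using 1
    group

theorem Insb.rel_inv : Insb x c (seg x c 0 ℓ)⁻¹ := by
  intro A T₁ T₂ σ p b V hS
  obtain ⟨K, m, A', σ', p', V', h1⟩ := hS.rel true (-1)
  refine ⟨A', _, σ', p', b, V', h1, ?_⟩
  have h2 := tval_oblk_true (x := x) (c := c) K m ℓ (-1)
  have h3 : (-1 : ZMod ℓ) + 1 - (ℓ : ZMod ℓ) = 0 := by simp
  rw [h3] at h2
  exact eq_inv_of_mul_eq_one_left h2

theorem Insb.rel : Insb x c (seg x c 0 ℓ) := by
  have h0 : Insb x c (cX ι (c (-1)) * seg x c 0 ℓ * (cX ι (c (-1)))⁻¹) := by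
    intro A T₁ T₂ σ p b V hS
    obtain ⟨K, m, A', σ', p', V', h1⟩ := hS.rel false 0
    refine ⟨A', _, σ', p', b, V', h1, ?_⟩
    have h2 := tval_oblk_false (x := x) (c := c) K m ℓ 0
    have h3 : (0 : ZMod ℓ) - 1 + (ℓ : ZMod ℓ) = -1 := by simp
    have h4 : (0 : ZMod ℓ) - 1 = -1 := by simp
    rw [h3, h4] at h2
    exact eq_mul_inv_of_mul_eq h2
  have := h0.coef (c (-1))⁻¹
  convert this using 1
  rw [cX_inv]
  group

/-- every consequence of the relator can be inserted -/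
theorem insb_of_mem {v : XX G ι} (h : v ∈ Subgroup.normalClosure {seg x c 0 ℓ}) :
    Insb x c v := by
  suffices hh : Insb x c v ∧ Insb x c v⁻¹ from hh.1
  unfold Subgroup.normalClosure at h
  induction h using Subgroup.closure_induction with
  | mem y hy =>
    rw [Group.conjugatesOfSet, Set.mem_iUnion₂] at hy
    obtain ⟨a, ha, hy⟩ := hy
    rw [Set.mem_singleton_iff] at ha
    subst ha
    rw [conjugatesOf, Set.mem_ofPred_eq, isConj_iff] at hy
    obtain ⟨u, rfl⟩ := hy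
    refine ⟨Insb.rel.conj u, ?_⟩
    have := (Insb.rel_inv (x := x) (c := c)).conj u
    convert this using 1
    group
  | one => exact ⟨Insb.one, by simpa using Insb.one⟩
  | mul a b _ _ ha hb => exact ⟨ha.1.mul hb.1, by rw [mul_inv_rev]; exact hb.2.mul ha.2⟩
  | inv a _ ha => exact ⟨ha.2, by simpa using ha.1⟩

omit [NeZero ℓ] in
theorem st_nil : St x c ∅ [] (id : Dt ι ℓ → Dt ι ℓ) (fun _ => none) (some (0, 1)) {0} where
  nodup := by simp
  disj := by simp
  slive := by simp [Live]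
  ssig := by simp [Live]
  slab := by simp [Live]
  inner := by simp
  path := rfl
  att := by
    intro v hv
    rw [Finset.mem_singleton] at hv
    subst hv
    exact Or.inl ⟨1, rfl⟩
  vmem := by simp [Live]
  bmem := by
    rintro v ⟨g, hg⟩
    simp only [Option.some.injEq, Prod.mk.injEq] at hg
    simp [hg.1]
  cnt := by simp
  red := by simp

/-- **Existence of diagrams.** -/
theorem exists_state {v : XX G ι} (h : v ∈ Subgroup.normalClosure {seg x c 0 ℓ}) :
    ∃ (A : Finset Fc) (T : List (Dt ι ℓ ⊕ G)) (σ : Dt ι ℓ → Dt ι ℓ) (p : Dt ι ℓ → Ps G)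
      (b : Ps G) (V : Finset ℕ), St x c A T σ p b V ∧ tval (lab x) T = v := by
  obtain ⟨A, T, σ, p, b, V, h1, h2⟩ := insb_of_mem h ∅ [] [] id (fun _ => none) (some (0, 1)) {0}
    (by simpa using st_nil)
  exact ⟨A, T, σ, p, b, V, by simpa using h1, h2⟩

end Vale.Agent.P174.LO
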