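import Vale.Agent.P174.LO.Step

/-! P174: the Freiheitssatz over countable left-ordered quotients.  helper879. -/

namespace Vale.Agent.P174.LO

universe u v w

variable {G : Type u} [Group G] {ι : Type v} {ℓ : ℕ} [NeZero ℓ]

/-- the data with separated slots -/
def PD.toOD {x : ZMod ℓ → ι × Bool} {c : ZMod ℓ → G} {Ω : Type w} [LinearOrder Ω] (P : PD x c Ω)
    (h : ∀ i j, i ≠ j → (x i).1 = (x j).1 → P.src i ≠ P.src j) : OD x c Ω :=
  ⟨P.act, P.L, P.y, P.rel, h⟩

/-- pull back along a homomorphism of the coefficient groups -/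
def OD.pull {H : Type w} [Group H] (φ : H →* G) {x : ZMod ℓ → ι × Bool} {c : ZMod ℓ → H}
    {Ω : Type*} [LinearOrder Ω] (O : OD x (fun i => φ (c i)) Ω) : OD x c Ω :=
  ⟨O.act.comp φ, O.L, O.y, O.rel, O.sep⟩

theorem exists_OD [LinearOrder G] [Countable G] [Countable ι]
    (hG : ∀ a b c : G, b < c → a * b < a * c) {x : ZMod ℓ → ι × Bool} {c : ZMod ℓ → G}
    (hcr : ∀ i, ¬ (c i = 1 ∧ x (i + 1) = linv (x i)))
    (hnp : ∀ d : ℕ, 0 < d → d < ℓ → ¬ ∀ i, x (i + d) = x i ∧ c (i + d) = c i) :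
    ∃ (Ω : Type (max u v)) (_ : LinearOrder Ω), Nonempty (OD x c Ω) := by
  classical
  have hW : seg x c 0 ℓ ≠ 1 := by
    rw [seg_eq_wval, ← cX_one (ι := ι)]
    refine wval_ne (red_segl hcr _ _) ?_
    intro h
    have h1 := congrArg List.length h
    rw [length_segl] at h1
    exact NeZero.ne ℓ (by simpa using h1)
  obtain ⟨Λ, i1, i2, a, l₁, l₂, ha, hl, hl₁, hl₂⟩ := exists_lam (ι := ι) hG hW
  rw [map_inv] at hl₁ hl₂
  have key : ∀ (n : ℕ) (Ω : Type (max u v)) (_ : LinearOrder Ω) (P : PD x c Ω), P.bad ≤ n →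
      ∃ (Ω : Type (max u v)) (_ : LinearOrder Ω), Nonempty (OD x c Ω) := by
    intro n
    induction n with
    | zero =>
      intro Ω i3 P hP
      refine ⟨Ω, i3, ⟨P.toOD fun i j hij hx hs => ?_⟩⟩
      have h1 : P.bad = 0 := by omega
      rw [PD.bad, Finset.card_eq_zero] at h1
      have h2 : (i, j) ∈ (Finset.univ.filter fun q : ZMod ℓ × ZMod ℓ =>
        q.1 ≠ q.2 ∧ (x q.1).1 = (x q.2).1 ∧ P.src q.1 = P.src q.2) := by
        simp [hij, hx, hs]
      rw [h1] at h2
      simp at h2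
    | succ n ih =>
      intro Ω i3 P hP
      by_cases h : ∃ u₀ v₀, u₀ ≠ v₀ ∧ (x u₀).1 = (x v₀).1 ∧ P.src u₀ = P.src v₀
      · obtain ⟨u₀, v₀, h1, h2, h3⟩ := h
        obtain ⟨P', h4, i, j, h5, h6, h7, h8⟩ := exists_refine P ha hl (by rw [map_inv]; exact hl₁)
          (by rw [map_inv]; exact hl₂) hcr hnp h1 h2 h3
        refine ih _ _ P' ?_
        have h9 : P'.bad < P.bad := by
          apply Finset.card_lt_card
          rw [Finset.ssubset_iff_of_subset]
          · exact ⟨(i, j), by simp [h5, h6, h7], by simp [h8]⟩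
          · intro q hq
            simp only [Finset.mem_filter, Finset.mem_univ, true_and] at hq ⊢
            exact ⟨hq.1, hq.2.1, h4 _ _ hq.2.2⟩
        omega
      · push Not at h
        exact ⟨Ω, i3, ⟨P.toOD fun i j hij hx => h i j hij hx⟩⟩
  exact key _ PUnit inferInstance ⟨1, fun _ => 1, fun _ => PUnit.unit, fun _ => rfl⟩ le_rfl

/-- **Freiheitssatz, countable left-ordered quotient.** -/
theorem free_of_countable {Q : Type w} [Group Q] [LinearOrder Q] [Countable Q] [Countable ι]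
    (hQ : ∀ a b c : Q, b < c → a * b < a * c) (φ : G →* Q) {x : ZMod ℓ → ι × Bool}
    {c : ZMod ℓ → G} (hcr : ∀ i, ¬ (φ (c i) = 1 ∧ x (i + 1) = linv (x i)))
    (hnp : ∀ d : ℕ, 0 < d → d < ℓ → ¬ ∀ i, x (i + d) = x i ∧ φ (c (i + d)) = φ (c i)) {g : G}
    (h : cX ι g ∈ Subgroup.normalClosure {seg x c 0 ℓ}) : g = 1 := by
  obtain ⟨Ω, i1, ⟨O⟩⟩ := exists_OD (c := fun i => φ (c i)) hQ hcr hnp
  exact (O.pull φ).free h

/-! ### Cyclically reduced representatives -/

omit [NeZero ℓ] in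
/-- cyclic words from lists -/
theorem seg_of_list (l : List ((ι × Bool) × G)) (hl : l ≠ []) :
    ∃ (_ : NeZero l.length) (x : ZMod l.length → ι × Bool) (c : ZMod l.length → G),
      seg x c 0 l.length = wval (1, l) := by
  have h0 : l.length ≠ 0 := by simpa using hl
  have : NeZero l.length := ⟨h0⟩
  refine ⟨this, fun i => (l[i.val]'(ZMod.val_lt i)).1, fun i => (l[i.val]'(ZMod.val_lt i)).2, ?_⟩
  rw [seg_eq_wval]
  congr 2
  apply List.ext_getElem?
  intro k
  by_cases hk : k < l.length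
  · rw [getElem?_segl _ _ hk, List.getElem?_eq_getElem hk]
    simp only [zero_add, ZMod.val_cast_of_lt hk]
  · rw [List.getElem?_eq_none (by rw [length_segl]; omega), List.getElem?_eq_none (by omega)]

theorem seg_conj {x : ZMod ℓ → ι × Bool} {c : ZMod ℓ → G} (i : ZMod ℓ) :
    ∃ u : XX G ι, seg x c 0 ℓ = u * seg x c i ℓ * u⁻¹ := by
  have hv' := ZMod.val_lt i
  have hsplit : ∀ (j : ZMod ℓ) (m n : ℕ), ℓ = m + n → seg x c j ℓ =
      seg x c j m * seg x c (j + m) n := by
    intro j m n h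
    have : seg x c j (m + n) = seg x c j m * seg x c (j + m) n := seg_add j m n
    rwa [← h] at this
  refine ⟨seg x c 0 i.val, ?_⟩
  have h6 : seg x c 0 ℓ = seg x c 0 i.val * seg x c i (ℓ - i.val) := by
    have := hsplit 0 i.val (ℓ - i.val) (by omega)
    rwa [zero_add, ZMod.natCast_zmod_val] at this
  have h7 : seg x c i ℓ = seg x c i (ℓ - i.val) * seg x c 0 i.val := by
    have h8 := hsplit i (ℓ - i.val) i.val (by omega)
    have h9 : i + ((ℓ - i.val : ℕ) : ZMod ℓ) = 0 := by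
      have : i + ((ℓ - i.val : ℕ) : ZMod ℓ) =
          ((i.val + (ℓ - i.val) : ℕ) : ZMod ℓ) := by
        push_cast
        rw [ZMod.natCast_zmod_val]
      rw [this]
      have h10 : i.val + (ℓ - i.val) = ℓ := by omega
      rw [h10]; simp
    rwa [h9] at h8
  rw [h7, h6]
  group

omit [NeZero ℓ] in
/-- every element is conjugate to a coefficient or to a cyclically reduced cyclic word -/
theorem exists_cyc_red (m : XX G ι) :
    (∃ (u : XX G ι) (g : G), m = u * cX ι g * u⁻¹) ∨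
      ∃ (ℓ : ℕ) (_ : NeZero ℓ) (x : ZMod ℓ → ι × Bool) (c : ZMod ℓ → G) (u : XX G ι),
        (∀ i, ¬ (c i = 1 ∧ x (i + 1) = linv (x i))) ∧ m = u * seg x c 0 ℓ * u⁻¹ := by
  classical
  have hex : ∃ n : ℕ, ∃ (u : XX G ι) (p : G × List ((ι × Bool) × G)),
      p.2.length = n ∧ m = u * wval p * u⁻¹ := by
    obtain ⟨p, -, hp⟩ := exists_wval m
    exact ⟨_, 1, p, rfl, by rw [hp]; simp⟩
  obtain ⟨u, ⟨g, l⟩, hlen, hm⟩ := Nat.find_spec hex
  have hmin : ∀ (u : XX G ι) (p : G × List ((ι × Bool) × G)), m = u * wval p * u⁻¹ →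
      l.length ≤ p.2.length := by
    intro u' p' h'
    simp only at hlen
    rw [hlen]
    exact Nat.find_min' hex ⟨u', p', rfl, h'⟩
  by_cases hl : l = []
  · left
    subst hl
    exact ⟨u, g, by rw [hm, wval_nil]⟩
  · right
    -- move the first coefficient to the end
    obtain ⟨l', hl', hw⟩ : ∃ l' : List ((ι × Bool) × G), l'.length = l.length ∧
        wval (1, l') = (cX ι g)⁻¹ * wval (g, l) * cX ι g := by
      rcases List.eq_nil_or_concat l with h | ⟨l₀, q, rfl⟩
      · exact absurd h hl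
      · refine ⟨l₀ ++ [(q.1, q.2 * g)], by simp, ?_⟩
        simp [wval, mul_assoc]
    have hm' : m = (u * cX ι g) * wval (1, l') * (u * cX ι g)⁻¹ := by
      rw [hm, hw]; group
    have hl'n : l' ≠ [] := by
      intro h
      rw [h] at hl'
      exact hl (List.eq_nil_of_length_eq_zero hl'.symm)
    obtain ⟨h0, x, c, hs⟩ := seg_of_list l' hl'n
    refine ⟨l'.length, h0, x, c, u * cX ι g, ?_, by rw [hs]; exact hm'⟩
    rintro i ⟨hc, hx⟩
    obtain ⟨n, hn⟩ : ∃ n, n = l'.length := ⟨_, rfl⟩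
    obtain ⟨v', hv'⟩ := seg_conj (x := x) (c := c) i
    have hn2 : 2 ≤ l'.length := by
      by_contra h
      have h1 : l'.length = 1 := by have := h0.ne; omega
      have h2 : ∀ j k : ZMod l'.length, j = k := by
        intro j k
        apply ZMod.val_injective
        have := ZMod.val_lt j
        have := ZMod.val_lt k
        omega
      rw [h2 (i + 1) i] at hx
      exact linv_ne _ hx.symm
    have h3 : seg x c i l'.length = wval (c (i + 1), segl x c (i + 2) (l'.length - 2)) := by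
      have h4 : ∀ k, seg x c i (k + 2) = wval (c (i + 1), segl x c (i + 2) k) := by
        intro k
        have h5 : i + 1 + 1 = i + 2 := by ring
        have h6 : seg x c i (k + 2) = lX G (x i) * cX ι (c i) * (lX G (x (i + 1)) *
          cX ι (c (i + 1)) * seg x c (i + 1 + 1) k) := rfl
        rw [h6, hc, hx, h5, lX_linv, cX_one, seg_eq_wval]
        simp only [wval, mul_one, cX_one, one_mul]
        group
      have h5 := h4 (l'.length - 2)
      have h6 : l'.length - 2 + 2 = l'.length := by omega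
      have h7 : ∀ k, k = l'.length → seg x c i k = seg x c i l'.length := fun k hk => by rw [hk]
      rw [← h7 _ h6]
      exact h5
    have h8 := hmin (u * cX ι g * v') (c (i + 1), segl x c (i + 2) (l'.length - 2)) (by
      rw [← h3, hm', ← hs, hv']; group)
    simp only [length_segl] at h8
    omega

/-- extraction of roots -/
theorem exists_root {x : ZMod ℓ → ι × Bool} {c : ZMod ℓ → G}
    (hcr : ∀ i, ¬ (c i = 1 ∧ x (i + 1) = linv (x i))) :
    ∃ (d : ℕ) (_ : NeZero d) (x' : ZMod d → ι × Bool) (c' : ZMod d → G) (N : ℕ),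
      (∀ i, ¬ (c' i = 1 ∧ x' (i + 1) = linv (x' i))) ∧
      (∀ e : ℕ, 0 < e → e < d → ¬ ∀ i, x' (i + e) = x' i ∧ c' (i + e) = c' i) ∧ 1 ≤ N ∧
      seg x c 0 ℓ = seg x' c' 0 d ^ N := by
  classical
  have hex : ∃ d : ℕ, 0 < d ∧ ∀ i, x (i + d) = x i ∧ c (i + d) = c i :=
    ⟨ℓ, Nat.pos_of_ne_zero (NeZero.ne ℓ), by simp⟩
  obtain ⟨d, hd⟩ : ∃ d, d = Nat.find hex := ⟨_, rfl⟩
  obtain ⟨hd0, hper⟩ := Nat.find_spec hex
  rw [← hd] at hd0 hper
  have hmin : ∀ e : ℕ, 0 < e → e < d → ¬ ∀ i, x (i + e) = x i ∧ c (i + e) = c i := by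
    intro e he he' h
    exact Nat.find_min hex (by rw [← hd]; exact he') ⟨he, h⟩
  have : NeZero d := ⟨by omega⟩
  -- periodicity
  have hperm : ∀ (m : ℕ) i, x (i + ((m * d : ℕ) : ZMod ℓ)) = x i ∧
      c (i + ((m * d : ℕ) : ZMod ℓ)) = c i := by
    intro m
    induction m with
    | zero => intro i; simp
    | succ m ih =>
      intro i
      have h1 : i + (((m + 1) * d : ℕ) : ZMod ℓ) = (i + ((m * d : ℕ) : ZMod ℓ)) + d := by
        push_cast; ring
      rw [h1, (hper _).1, (hper _).2]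
      exact ih i
  -- `d` divides `ℓ`
  have hdvd : d ∣ ℓ := by
    rw [Nat.dvd_iff_mod_eq_zero]
    by_contra hr
    refine hmin (ℓ % d) (Nat.pos_of_ne_zero hr) (Nat.mod_lt _ hd0) (fun i => ?_)
    have h1 := hperm (ℓ / d) (i + ((ℓ % d : ℕ) : ZMod ℓ))
    have h2 : i + ((ℓ % d : ℕ) : ZMod ℓ) + ((ℓ / d * d : ℕ) : ZMod ℓ) = i := by
      rw [add_assoc, ← Nat.cast_add, mul_comm, Nat.mod_add_div]
      simp
    rw [h2] at h1
    exact ⟨h1.1.symm, h1.2.symm⟩
  have hcast : ∀ n : ℕ, x (((n : ZMod d).val : ℕ) : ZMod ℓ) = x (n : ZMod ℓ) ∧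
      c (((n : ZMod d).val : ℕ) : ZMod ℓ) = c (n : ZMod ℓ) := by
    intro n
    rw [ZMod.val_natCast]
    have h1 := hperm (n / d) ((n % d : ℕ) : ZMod ℓ)
    rw [← Nat.cast_add, mul_comm, Nat.mod_add_div] at h1
    exact ⟨h1.1.symm, h1.2.symm⟩
  have hsegl : ∀ (k n : ℕ), seg (fun i : ZMod d => x (i.val : ZMod ℓ)) (fun i => c (i.val : ZMod ℓ))
      (n : ZMod d) k = seg x c (n : ZMod ℓ) k := by
    intro k
    induction k with
    | zero => intro n; rfl
    | succ k ih =>
      intro n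
      have h1 := ih (n + 1)
      push_cast at h1
      rw [seg, seg, h1]
      simp only [(hcast n).1, (hcast n).2]
  refine ⟨d, this, fun i => x (i.val : ZMod ℓ), fun i => c (i.val : ZMod ℓ), ℓ / d, ?_, ?_, ?_, ?_⟩
  · rintro i ⟨h1, h2⟩
    refine hcr (i.val : ZMod ℓ) ⟨h1, ?_⟩
    have h3 := (hcast (i.val + 1)).1
    push_cast at h3
    rw [ZMod.natCast_zmod_val] at h3
    rw [← h2, ← h3]
  · intro e he he' h
    refine hmin e he he' (fun i => ?_)
    obtain ⟨n, rfl⟩ : ∃ n : ℕ, (n : ZMod ℓ) = i := ⟨i.val, ZMod.natCast_zmod_val i⟩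
    obtain ⟨h1, h2⟩ := h (n : ZMod d)
    rw [← Nat.cast_add] at h1 h2
    simp only [(hcast _).1, (hcast _).2] at h1 h2
    rw [← Nat.cast_add]
    exact ⟨h1, h2⟩
  · exact Nat.div_pos (Nat.le_of_dvd (Nat.pos_of_ne_zero (NeZero.ne ℓ)) hdvd) hd0
  · have h1 : ∀ m : ℕ, seg x c 0 (m * d) = seg x c 0 d ^ m := by
      intro m
      induction m with
      | zero => simp [seg]
      | succ m ih =>
        rw [Nat.succ_mul, seg_add, ih, pow_succ]
        congr 1
        have h2 : ∀ (k n : ℕ), seg x c ((m * d : ℕ) + (n : ZMod ℓ)) k = seg x c (n : ZMod ℓ) k := by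
          intro k
          induction k with
          | zero => intro n; rfl
          | succ k ih' =>
            intro n
            have h3 := ih' (n + 1)
            push_cast at h3
            have h4 := hperm m (n : ZMod ℓ)
            rw [add_comm] at h4
            rw [seg, seg, h4.1, h4.2]
            push_cast
            rw [add_assoc, h3]
        have := h2 d 0
        simpa using this
    have h2 : seg (fun i : ZMod d => x (i.val : ZMod ℓ)) (fun i => c (i.val : ZMod ℓ)) 0 d =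
        seg x c 0 d := by
      have := hsegl d 0
      simpa using this
    rw [h2, ← h1]
    have h3 : ℓ / d * d = ℓ := Nat.div_mul_cancel hdvd
    have h4 : ∀ k, k = ℓ → seg x c 0 k = seg x c 0 ℓ := fun k hk => by rw [hk]
    exact (h4 _ h3).symm

end Vale.Agent.P174.LO
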