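import Vale.Agent.P174.LO.Unpeel

/-! P174: inserting spurs and faces; existence of states.  helper879. -/

namespace Vale.Agent.P174.LO

universe u v w

variable {G : Type u} [Group G] {ι : Type v} {ℓ : ℕ} [NeZero ℓ]

section fresh

omit [Group G] [NeZero ℓ] in
theorem exists_fresh_out (T : List (Dt ι ℓ ⊕ G)) :
    ∃ K : ℕ, ∀ k, K ≤ k → ∀ a, Sum.inl (Sum.inr (k, a)) ∉ T := by
  induction T with
  | nil => exact ⟨0, by simp⟩
  | cons t T ih =>
    obtain ⟨K, hK⟩ := ih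
    rcases t with (f | ⟨n, a'⟩) | g
    · exact ⟨K, fun k hk a => by simp [hK k hk a]⟩
    · refine ⟨max K (n + 1), fun k hk a => ?_⟩
      simp only [List.mem_cons, Sum.inl.injEq, Sum.inr.injEq, Prod.mk.injEq, not_or]
      refine ⟨?_, hK k (le_trans (le_max_left _ _) hk) a⟩
      intro h
      have := le_trans (le_max_right K (n + 1)) hk
      omega
    · exact ⟨K, fun k hk a => by simp [hK k hk a]⟩

omit [Group G] [NeZero ℓ] in
theorem exists_fresh_face (A : Finset Fc) (T : List (Dt ι ℓ ⊕ G)) :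
    ∃ m : ℕ, ∀ s, (m, s) ∉ A ∧ ∀ i, Sum.inl (Sum.inl ((m, s), i)) ∉ T := by
  have h1 : ∃ K : ℕ, ∀ k, K ≤ k → ∀ s i, Sum.inl (Sum.inl ((k, s), i)) ∉ T := by
    induction T with
    | nil => exact ⟨0, by simp⟩
    | cons t T ih =>
      obtain ⟨K, hK⟩ := ih
      rcases t with (⟨⟨n, s'⟩, i'⟩ | a') | g
      · refine ⟨max K (n + 1), fun k hk s i => ?_⟩
        simp only [List.mem_cons, Sum.inl.injEq, Prod.mk.injEq, not_or]
        refine ⟨?_, hK k (le_trans (le_max_left _ _) hk) s i⟩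
        intro h
        have := le_trans (le_max_right K (n + 1)) hk
        omega
      · exact ⟨K, fun k hk s i => by simp [hK k hk s i]⟩
      · exact ⟨K, fun k hk s i => by simp [hK k hk s i]⟩
  obtain ⟨K, hK⟩ := h1
  refine ⟨max K (A.sup Prod.fst + 1), fun s => ⟨fun h => ?_, fun i => hK _ (le_max_left _ _) s i⟩⟩
  have h2 := Finset.le_sup (f := Prod.fst) h
  have h3 := le_max_right K (A.sup Prod.fst + 1)
  simp only at h2
  omega

end fresh

variable (x : ZMod ℓ → ι × Bool) (c : ZMod ℓ → G)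

/-- the outer dart facing a side of a new face -/
def od (K : ℕ) (e : Fc × ZMod ℓ) : Dt ι ℓ := .inr (K + e.2.val, linv (ilab x e))

/-- the outer word of a new face, read backwards -/
def oblk (K : ℕ) (e : Fc × ZMod ℓ) : ℕ → List (Dt ι ℓ ⊕ G)
  | 0 => []
  | k + 1 => .inr (cor c e)⁻¹ :: .inl (od x K e) :: oblk K (prv e) k

/-- the word of length `k` starting at `i` -/
def seg (i : ZMod ℓ) : ℕ → XX G ι
  | 0 => 1
  | k + 1 => lX G (x i) * cX ι (c i) * seg (i + 1) k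

section seg

variable {x c}

omit [NeZero ℓ] in
theorem seg_succ (i : ZMod ℓ) (k : ℕ) :
    seg x c i (k + 1) = seg x c i k * (lX G (x (i + k)) * cX ι (c (i + k))) := by
  induction k generalizing i with
  | zero => simp [seg]
  | succ k ih =>
    rw [seg, ih (i + 1), seg]
    have : i + 1 + (k : ZMod ℓ) = i + ((k + 1 : ℕ) : ZMod ℓ) := by push_cast; ring
    rw [this]
    simp only [mul_assoc]

theorem drt_oblk (K : ℕ) (e : Fc × ZMod ℓ) (k : ℕ) : drt (oblk x c K e k) =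
    (List.range k).map (fun j => od x K (prv^[j] e)) := by
  induction k generalizing e with
  | zero => simp [oblk]
  | succ k ih =>
    rw [oblk, drt_inr, drt_inl, ih, List.range_succ_eq_map, List.map_cons, List.map_map]
    rfl

theorem length_drt_oblk (K : ℕ) (e : Fc × ZMod ℓ) (k : ℕ) :
    (drt (oblk x c K e k)).length = k := by
  rw [drt_oblk]; simp

theorem od_inj {K : ℕ} {a : Fc} {i j : ZMod ℓ} (h : od x K (a, i) = od x K (a, j)) : i = j := by
  simp only [od, Sum.inr.injEq, Prod.mk.injEq] at h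
  apply ZMod.val_injective
  omega

theorem prv_iter_inj {a : Fc} {i : ZMod ℓ} {j k : ℕ} (hj : j < ℓ) (hk : k < ℓ)
    (h : prv^[j] (a, i) = prv^[k] (a, i)) : j = k := by
  rw [prv_iter, prv_iter] at h
  have h1 := congrArg Prod.snd h
  simp only at h1
  have h2 : (j : ZMod ℓ) = (k : ZMod ℓ) := by
    split_ifs at h1
    · simpa using h1
    · simpa using h1
  have h3 := congrArg ZMod.val h2
  rwa [ZMod.val_cast_of_lt hj, ZMod.val_cast_of_lt hk] at h3

theorem exists_prv_iter (a : Fc) (i j : ZMod ℓ) : ∃ k < ℓ, prv^[k] (a, i) = (a, j) := by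
  rcases a with ⟨m, s⟩
  cases s
  · refine ⟨(j - i).val, ZMod.val_lt _, ?_⟩
    rw [prv_iter]
    simp
  · refine ⟨(i - j).val, ZMod.val_lt _, ?_⟩
    rw [prv_iter]
    simp

theorem nodup_oblk (K : ℕ) (a : Fc) (i : ZMod ℓ) : (drt (oblk x c K (a, i) ℓ)).Nodup := by
  rw [drt_oblk]
  refine List.Nodup.map_on ?_ List.nodup_range
  intro j hj k hk h
  rw [List.mem_range] at hj hk
  rw [prv_iter, prv_iter] at h
  have h1 := od_inj h
  apply prv_iter_inj (a := a) (i := i) hj hk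
  rw [prv_iter, prv_iter, h1]

theorem mem_oblk {K : ℕ} {a : Fc} {i : ZMod ℓ} {f : Dt ι ℓ} :
    Sum.inl f ∈ oblk x c K (a, i) ℓ ↔ ∃ j, f = od x K (a, j) := by
  rw [← mem_drt, drt_oblk, List.mem_map]
  constructor
  · rintro ⟨k, hk, rfl⟩
    rw [prv_iter]
    exact ⟨_, rfl⟩
  · rintro ⟨j, rfl⟩
    obtain ⟨k, hk, h⟩ := exists_prv_iter a i j
    exact ⟨k, List.mem_range.2 hk, by rw [h]⟩

theorem tval_oblk_true (K m k : ℕ) (i : ZMod ℓ) :
    tval (lab x) (oblk x c K ((m, true), i) k) * seg x c (i + 1 - k) k = 1 := by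
  induction k generalizing i with
  | zero => simp [oblk, seg]
  | succ k ih =>
    rw [oblk, seg_succ]
    simp only [tval_inr, tval_inl]
    have h1 : prv (((m, true), i) : Fc × ZMod ℓ) = ((m, true), i - 1) := rfl
    have h2 : i + 1 - ((k + 1 : ℕ) : ZMod ℓ) = i - 1 + 1 - k := by push_cast; ring
    have h3 : i - 1 + 1 - (k : ZMod ℓ) + k = i := by ring
    have h4 : lab x (od x K ((m, true), i)) = linv (x i) := rfl
    have h5 : cor c ((m, true), i) = c i := rfl
    rw [h1, h2, h3, h4, h5, lX_linv, cX_inv]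
    have := ih (i - 1)
    calc _ = (cX ι (c i))⁻¹ * (lX G (x i))⁻¹ * (tval (lab x) (oblk x c K ((m, true), i - 1) k) *
          seg x c (i - 1 + 1 - k) k) * (lX G (x i) * cX ι (c i)) := by group
      _ = 1 := by rw [this]; group

theorem tval_oblk_false (K m k : ℕ) (i : ZMod ℓ) :
    tval (lab x) (oblk x c K ((m, false), i) k) * cX ι (c (i - 1 + k)) =
      cX ι (c (i - 1)) * seg x c i k := by
  induction k generalizing i with
  | zero => simp [oblk, seg]
  | succ k ih =>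
    rw [oblk, seg]
    simp only [tval_inr, tval_inl]
    have h1 : prv (((m, false), i) : Fc × ZMod ℓ) = ((m, false), i + 1) := rfl
    have h2 : i - 1 + ((k + 1 : ℕ) : ZMod ℓ) = i + 1 - 1 + k := by push_cast; ring
    have h4 : lab x (od x K ((m, false), i)) = x i := by
      simp [lab, od, ilab]
    have h5 : (cor c ((m, false), i))⁻¹ = c (i - 1) := by simp [cor]
    rw [h1, h2, h4, h5]
    have := ih (i + 1)
    have h6 : i + 1 - 1 = i := by ring
    calc _ = cX ι (c (i - 1)) * lX G (x i) * (tval (lab x) (oblk x c K ((m, false), i + 1) k) *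
          cX ι (c (i + 1 - 1 + k))) := by group
      _ = _ := by rw [this, h6]; group

end seg

variable {x c}

section ops

variable {A : Finset Fc} {T : List (Dt ι ℓ ⊕ G)} {σ : Dt ι ℓ → Dt ι ℓ} {p : Dt ι ℓ → Ps G}
  {b : Ps G} {V : Finset ℕ}

omit [NeZero ℓ] in
/-- every position on the path has its vertex in `V` -/
theorem St.mid {T₁ T₂ : List (Dt ι ℓ ⊕ G)} (h : St x c A (T₁ ++ T₂) σ p b V) {s : Ps G}
    (hs : Pth σ p b T₁ s) {v : ℕ} (hv : At v s) : v ∈ V := by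
  rcases pth_end hs hv with h1 | ⟨d, h1, h2⟩
  · exact h.bmem v h1
  · exact h.vmem d (Or.inr (by simp [h1])) v h2

omit [Group G] [NeZero ℓ] in
theorem spur_taut (P Q R S U : Prop) : (P ∨ Q ∨ R ∨ S ∨ U) ↔ ((P ∨ Q ∨ U) ∨ R ∨ S) := by
  tauto

omit [NeZero ℓ] in
/-- inserting a spur -/
theorem St.spur {T₁ T₂ : List (Dt ι ℓ ⊕ G)} (h : St x c A (T₁ ++ T₂) σ p b V) (a : ι × Bool) :
    ∃ (k : ℕ) (σ' : Dt ι ℓ → Dt ι ℓ) (p' : Dt ι ℓ → Ps G) (V' : Finset ℕ),
      St x c A (T₁ ++ .inl (.inr (k, a)) :: .inl (.inr (k, linv a)) :: T₂) σ' p' b V' := by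
  classical
  obtain ⟨k, hk⟩ := exists_fresh_out (T₁ ++ T₂)
  obtain ⟨v, hv⟩ := Infinite.exists_notMem_finset V
  obtain ⟨s, hp1, hp2⟩ := pth_append.1 h.path
  set d₁ : Dt ι ℓ := .inr (k, a) with hd₁
  set d₂ : Dt ι ℓ := .inr (k, linv a) with hd₂
  have hdd : d₂ ≠ d₁ := by
    simp only [hd₁, hd₂, ne_eq, Sum.inr.injEq, Prod.mk.injEq, true_and]
    exact linv_ne a
  have hn1 : Sum.inl d₁ ∉ T₁ ++ T₂ := hk k le_rfl a
  have hn2 : Sum.inl d₂ ∉ T₁ ++ T₂ := hk k le_rfl (linv a)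
  have hne : ∀ f, Live A (T₁ ++ T₂) f → f ≠ d₁ ∧ f ≠ d₂ := by
    rintro f (⟨a', ha', i, rfl⟩ | hf)
    · exact ⟨by simp [hd₁], by simp [hd₂]⟩
    · exact ⟨by rintro rfl; exact hn1 hf, by rintro rfl; exact hn2 hf⟩
  set σ' : Dt ι ℓ → Dt ι ℓ := fun f => if f = d₁ then d₂ else if f = d₂ then d₁ else σ f
    with hσ'
  set p' : Dt ι ℓ → Ps G := fun f => if f = d₁ then some (v, 1) else if f = d₂ then s else p f
    with hp'
  have s1 : σ' d₁ = d₂ := by simp [hσ']
  have s2 : σ' d₂ = d₁ := by simp [hσ', hdd]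
  have s3 : ∀ f, Live A (T₁ ++ T₂) f → σ' f = σ f := by
    intro f hf
    simp [hσ', (hne f hf).1, (hne f hf).2]
  have p1 : p' d₁ = some (v, 1) := by simp [hp']
  have p2 : p' d₂ = s := by simp [hp', hdd]
  have p3 : ∀ f, Live A (T₁ ++ T₂) f → p' f = p f := by
    intro f hf
    simp [hp', (hne f hf).1, (hne f hf).2]
  have hLive : ∀ f, Live A (T₁ ++ .inl d₁ :: .inl d₂ :: T₂) f ↔
      Live A (T₁ ++ T₂) f ∨ f = d₁ ∨ f = d₂ := by
    intro f
    simp only [Live, List.mem_append, List.mem_cons, Sum.inl.injEq]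
    exact spur_taut _ _ _ _ _
  refine ⟨k, σ', p', insert v V, ?_⟩
  refine ⟨?_, ?_, ?_, ?_, ?_, ?_, ?_, ?_, ?_, ?_, ?_, ?_⟩
  · have h1 : drt (T₁ ++ Sum.inl d₁ :: Sum.inl d₂ :: T₂) = drt T₁ ++ d₁ :: d₂ :: drt T₂ := by
      simp
    rw [h1, List.perm_middle.nodup_iff, List.nodup_cons, List.perm_middle.nodup_iff,
      List.nodup_cons]
    have h2 := h.nodup
    rw [drt_append] at h2
    refine ⟨?_, ?_, h2⟩
    · intro h3
      simp only [List.mem_append, List.mem_cons, mem_drt] at h3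
      simp only [List.mem_append] at hn1
      rcases h3 with h3 | h3 | h3
      · exact hn1 (Or.inl h3)
      · exact hdd h3.symm
      · exact hn1 (Or.inr h3)
    · rw [← drt_append, mem_drt]; exact hn2
  · intro z hz i hi
    simp only [List.mem_append, List.mem_cons, Sum.inl.injEq, hd₁, hd₂] at hi
    apply h.disj z hz i
    simp only [List.mem_append]
    rcases hi with hi | hi | hi | hi
    · exact Or.inl hi
    · simp at hi
    · simp at hi
    · exact Or.inr hi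
  · intro f hf
    rcases (hLive f).1 hf with h1 | rfl | rfl
    · rw [s3 f h1]; exact (hLive _).2 (Or.inl (h.slive f h1))
    · rw [s1]; exact (hLive _).2 (Or.inr (Or.inr rfl))
    · rw [s2]; exact (hLive _).2 (Or.inr (Or.inl rfl))
  · intro f hf
    rcases (hLive f).1 hf with h1 | rfl | rfl
    · rw [s3 f h1, s3 _ (h.slive f h1), h.ssig f h1]
    · rw [s1, s2]
    · rw [s2, s1]
  · intro f hf
    rcases (hLive f).1 hf with h1 | rfl | rfl
    · rw [s3 f h1, h.slab f h1]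
    · rw [s1]; rfl
    · rw [s2]; simp [lab, hd₁, hd₂]
  · intro z hz i
    have h1 : Live A (T₁ ++ T₂) (.inl (nxt (z, i))) := Or.inl ⟨z, hz, _, rfl⟩
    rw [s3 _ h1, p3 _ (h.slive _ h1), p3 _ (Or.inl ⟨z, hz, i, rfl⟩), h.inner z hz i]
  · have q1 : ∀ f, Sum.inl f ∈ T₁ → Live A (T₁ ++ T₂) f := fun f hf => Or.inr (by simp [hf])
    have q2 : ∀ f, Sum.inl f ∈ T₂ → Live A (T₁ ++ T₂) f := fun f hf => Or.inr (by simp [hf])
    refine pth_append.2 ⟨s, pth_congr (fun f hf => ?_) (fun f hf => p3 f (q1 f hf)) hp1, ?_⟩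
    · rw [s3 f (q1 f hf), p3 _ (h.slive f (q1 f hf))]
    · simp only [pth_inl]
      refine ⟨by rw [s1, p2], by rw [s2], ?_⟩
      rw [p2]
      refine pth_congr (fun f hf => ?_) (fun f hf => p3 f (q2 f hf)) hp2
      rw [s3 f (q2 f hf), p3 _ (h.slive f (q2 f hf))]
  · intro z hz
    rcases Finset.mem_insert.1 hz with rfl | hz
    · exact Or.inr ⟨d₁, (hLive _).2 (Or.inr (Or.inl rfl)), 1, p1⟩
    · rcases h.att z hz with h1 | ⟨f, h1, h2⟩
      · exact Or.inl h1
      · exact Or.inr ⟨f, (hLive _).2 (Or.inl h1), by rw [p3 f h1]; exact h2⟩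
  · intro f hf z hz
    rcases (hLive f).1 hf with h1 | rfl | rfl
    · rw [p3 f h1] at hz
      exact Finset.mem_insert_of_mem (h.vmem f h1 z hz)
    · rw [p1] at hz
      obtain ⟨g, hg⟩ := hz
      simp only [Option.some.injEq, Prod.mk.injEq] at hg
      exact Finset.mem_insert.2 (Or.inl hg.1.symm)
    · rw [p2] at hz
      exact Finset.mem_insert_of_mem (h.mid hp1 hz)
  · exact fun z hz => Finset.mem_insert_of_mem (h.bmem z hz)
  · rw [Finset.card_insert_of_notMem hv]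
    have h1 := h.cnt
    simp only [drt_append, drt_inl, List.length_append, List.length_cons] at h1 ⊢
    omega
  · intro z hz i z' hz' hzz
    rw [s3 _ (Or.inl ⟨z, hz, i, rfl⟩)] at hzz
    exact h.red z hz i z' hz' hzz

theorem pth_oblk {K : ℕ} {a : Fc} {P : Fc × ZMod ℓ → Ps G}
    (h1 : ∀ i, p (σ (od x K (a, i))) = P (a, i))
    (h2 : ∀ i, p (od x K (a, i)) = pm (P (prv (a, i))) (cor c (prv (a, i)))) (k : ℕ)
    (i : ZMod ℓ) : Pth σ p (pm (P (a, i)) (cor c (a, i))) (oblk x c K (a, i) k)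
      (pm (P (prv^[k] (a, i))) (cor c (prv^[k] (a, i)))) := by
  induction k generalizing i with
  | zero => simp [oblk]
  | succ k ih =>
    rw [oblk]
    simp only [pth_inr, pth_inl]
    refine ⟨?_, ?_⟩
    · rw [h1]; simp
    · rw [h2, Function.iterate_succ_apply]
      exact ih _

/-- inserting a face -/
theorem St.rel {T₁ T₂ : List (Dt ι ℓ ⊕ G)} (h : St x c A (T₁ ++ T₂) σ p b V) (sg : Bool)
    (i₀ : ZMod ℓ) :
    ∃ (K m : ℕ) (A' : Finset Fc) (σ' : Dt ι ℓ → Dt ι ℓ) (p' : Dt ι ℓ → Ps G) (V' : Finset ℕ),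
      St x c A' (T₁ ++ (oblk x c K ((m, sg), i₀) ℓ ++ T₂)) σ' p' b V' := by
  classical
  obtain ⟨K, hK⟩ := exists_fresh_out (T₁ ++ T₂)
  obtain ⟨m, hm⟩ := exists_fresh_face A (T₁ ++ T₂)
  obtain ⟨s, hp1, hp2⟩ := pth_append.1 h.path
  obtain ⟨a, ha⟩ : ∃ a : Fc, a = (m, sg) := ⟨_, rfl⟩
  obtain ⟨haA, haT⟩ := hm sg
  rw [← ha] at haA haT
  obtain ⟨M, hM⟩ : ∃ M : ℕ, ∀ v ∈ V, v < M :=
    ⟨V.sup id + 1, fun v hv => Nat.lt_succ_of_le (Finset.le_sup (f := id) hv)⟩
  obtain ⟨P, hP⟩ : ∃ P : Fc × ZMod ℓ → Ps G, P = fun e => if e = (a, i₀) then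
    pm s (cor c (a, i₀))⁻¹ else some (M + e.2.val, 1) := ⟨_, rfl⟩
  have hP0 : P (a, i₀) = pm s (cor c (a, i₀))⁻¹ := by rw [hP]; simp
  have hP1 : ∀ i, i ≠ i₀ → P (a, i) = some (M + i.val, 1) := by
    intro i hi
    rw [hP]; simp [hi]
  obtain ⟨σ', hσ'⟩ : ∃ σ' : Dt ι ℓ → Dt ι ℓ, σ' = fun f => match f with
    | .inl e => if e.1 = a then od x K e else σ (.inl e)
    | .inr (k, α) => if K ≤ k then .inl (a, ((k - K : ℕ) : ZMod ℓ)) else σ (.inr (k, α)) :=
      ⟨_, rfl⟩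
  obtain ⟨p', hp'⟩ : ∃ p' : Dt ι ℓ → Ps G, p' = fun f => match f with
    | .inl e => if e.1 = a then P e else p (.inl e)
    | .inr (k, α) => if K ≤ k then pm (P (prv (a, ((k - K : ℕ) : ZMod ℓ))))
        (cor c (prv (a, ((k - K : ℕ) : ZMod ℓ)))) else p (.inr (k, α)) := ⟨_, rfl⟩
  have hne : ∀ f, Live A (T₁ ++ T₂) f → (∀ i, f ≠ .inl (a, i)) ∧ (∀ k α, K ≤ k →
      f ≠ .inr (k, α)) := by
    rintro f (⟨a', ha', i, rfl⟩ | hf)
    · refine ⟨fun i' h1 => ?_, fun k α hk => by simp⟩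
      simp only [Sum.inl.injEq, Prod.mk.injEq] at h1
      exact haA (h1.1 ▸ ha')
    · refine ⟨fun i' h1 => ?_, fun k α hk h1 => ?_⟩
      · subst h1; exact haT i' hf
      · subst h1; exact hK k hk α hf
  have s1 : ∀ i, σ' (.inl (a, i)) = od x K (a, i) := by
    intro i; rw [hσ']; simp
  have s2 : ∀ i, σ' (od x K (a, i)) = .inl (a, i) := by
    intro i; rw [hσ']; simp [od]
  have s3 : ∀ f, Live A (T₁ ++ T₂) f → σ' f = σ f := by
    intro f hf
    obtain ⟨h1, h2⟩ := hne f hf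
    rw [hσ']
    rcases f with ⟨a', i⟩ | ⟨k, α⟩
    · have h3 : a' ≠ a := by
        rintro rfl; exact h1 i rfl
      simp [h3]
    · have h3 : ¬ K ≤ k := fun hk => h2 k α hk rfl
      simp [h3]
  have p1 : ∀ i, p' (.inl (a, i)) = P (a, i) := by
    intro i; rw [hp']; simp
  have p2 : ∀ i, p' (od x K (a, i)) = pm (P (prv (a, i))) (cor c (prv (a, i))) := by
    intro i; rw [hp']; simp [od]
  have p3 : ∀ f, Live A (T₁ ++ T₂) f → p' f = p f := by
    intro f hf
    obtain ⟨h1, h2⟩ := hne f hf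
    rw [hp']
    rcases f with ⟨a', i⟩ | ⟨k, α⟩
    · have h3 : a' ≠ a := by
        rintro rfl; exact h1 i rfl
      simp [h3]
    · have h3 : ¬ K ≤ k := fun hk => h2 k α hk rfl
      simp [h3]
  have hLive : ∀ f, Live (insert a A) (T₁ ++ (oblk x c K (a, i₀) ℓ ++ T₂)) f ↔
      Live A (T₁ ++ T₂) f ∨ (∃ i, f = .inl (a, i)) ∨ (∃ i, f = od x K (a, i)) := by
    intro f
    simp only [Live, List.mem_append, mem_oblk, Finset.mem_insert]
    constructor
    · rintro (⟨a', rfl | ha', i, rfl⟩ | h1 | h1 | h1)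
      · exact Or.inr (Or.inl ⟨i, rfl⟩)
      · exact Or.inl (Or.inl ⟨a', ha', i, rfl⟩)
      · exact Or.inl (Or.inr (Or.inl h1))
      · exact Or.inr (Or.inr h1)
      · exact Or.inl (Or.inr (Or.inr h1))
    · rintro ((⟨a', ha', i, rfl⟩ | h1 | h1) | ⟨i, rfl⟩ | h1)
      · exact Or.inl ⟨a', Or.inr ha', i, rfl⟩
      · exact Or.inr (Or.inl h1)
      · exact Or.inr (Or.inr (Or.inr h1))
      · exact Or.inl ⟨a, Or.inl rfl, i, rfl⟩
      · exact Or.inr (Or.inr (Or.inl h1))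
  have hP2 : ∀ i v, At v (P (a, i)) → v ∈ V ∪ ((Finset.univ : Finset (ZMod ℓ)).erase i₀).image
      (fun i => M + i.val) := by
    intro i v hv
    by_cases hi : i = i₀
    · subst hi
      rw [hP0, at_pm] at hv
      exact Finset.mem_union_left _ (h.mid hp1 hv)
    · rw [hP1 i hi] at hv
      obtain ⟨g, hg⟩ := hv
      simp only [Option.some.injEq, Prod.mk.injEq] at hg
      refine Finset.mem_union_right _ (Finset.mem_image.2 ⟨i, ?_, hg.1⟩)
      exact Finset.mem_erase.2 ⟨hi, Finset.mem_univ _⟩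
  have hcardN : (((Finset.univ : Finset (ZMod ℓ)).erase i₀).image
      (fun i => M + i.val)).card = ℓ - 1 := by
    rw [Finset.card_image_of_injective, Finset.card_erase_of_mem (Finset.mem_univ _),
      Finset.card_univ, ZMod.card]
    intro i j hij
    apply ZMod.val_injective
    simpa using hij
  have hdisj : Disjoint V (((Finset.univ : Finset (ZMod ℓ)).erase i₀).image
      (fun i => M + i.val)) := by
    rw [Finset.disjoint_left]
    intro v hv hv'
    obtain ⟨i, -, rfl⟩ := Finset.mem_image.1 hv'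
    have := hM _ hv
    omega
  refine ⟨K, m, insert a A, σ', p', V ∪ ((Finset.univ : Finset (ZMod ℓ)).erase i₀).image
      (fun i => M + i.val), ?_⟩
  rw [← ha]
  refine ⟨?_, ?_, ?_, ?_, ?_, ?_, ?_, ?_, ?_, ?_, ?_, ?_⟩
  · have h1 := h.nodup
    rw [drt_append] at h1 ⊢
    rw [drt_append]
    have h2 : (drt (oblk x c K (a, i₀) ℓ)).Disjoint (drt T₁ ++ drt T₂) := by
      intro f hf hf'
      rw [mem_drt, mem_oblk] at hf
      obtain ⟨j, rfl⟩ := hf
      rw [← drt_append, mem_drt] at hf'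
      exact hK _ (Nat.le_add_right _ _) _ hf'
    have h3 : (drt (oblk x c K (a, i₀) ℓ) ++ (drt T₁ ++ drt T₂)).Nodup :=
      (nodup_oblk K a i₀).append h1 h2
    refine (List.Perm.nodup_iff ?_).1 h3
    rw [← List.append_assoc, ← List.append_assoc]
    exact List.Perm.append_right _ List.perm_append_comm
  · intro z hz i hi
    simp only [List.mem_append, mem_oblk] at hi
    rcases hi with hi | ⟨j, hj⟩ | hi
    · rcases Finset.mem_insert.1 hz with rfl | hz
      · exact haT i (by simp [hi])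
      · exact h.disj z hz i (by simp [hi])
    · simp [od] at hj
    · rcases Finset.mem_insert.1 hz with rfl | hz
      · exact haT i (by simp [hi])
      · exact h.disj z hz i (by simp [hi])
  · intro f hf
    rcases (hLive f).1 hf with h1 | ⟨i, rfl⟩ | ⟨i, rfl⟩
    · rw [s3 f h1]; exact (hLive _).2 (Or.inl (h.slive f h1))
    · rw [s1]; exact (hLive _).2 (Or.inr (Or.inr ⟨i, rfl⟩))
    · rw [s2]; exact (hLive _).2 (Or.inr (Or.inl ⟨i, rfl⟩))
  · intro f hf
    rcases (hLive f).1 hf with h1 | ⟨i, rfl⟩ | ⟨i, rfl⟩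
    · rw [s3 f h1, s3 _ (h.slive f h1), h.ssig f h1]
    · rw [s1, s2]
    · rw [s2, s1]
  · intro f hf
    rcases (hLive f).1 hf with h1 | ⟨i, rfl⟩ | ⟨i, rfl⟩
    · rw [s3 f h1, h.slab f h1]
    · rw [s1]; rfl
    · rw [s2]; simp [lab, od]
  · intro z hz i
    rcases Finset.mem_insert.1 hz with rfl | hz
    · have h1 : nxt (z, i) = (z, (nxt (z, i)).2) := rfl
      rw [h1, s1, p2, ← h1, prv_nxt, p1]
    · have h1 : Live A (T₁ ++ T₂) (.inl (nxt (z, i))) := Or.inl ⟨z, hz, _, rfl⟩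
      rw [s3 _ h1, p3 _ (h.slive _ h1), p3 _ (Or.inl ⟨z, hz, i, rfl⟩), h.inner z hz i]
  · have q1 : ∀ f, Sum.inl f ∈ T₁ → Live A (T₁ ++ T₂) f := fun f hf => Or.inr (by simp [hf])
    have q2 : ∀ f, Sum.inl f ∈ T₂ → Live A (T₁ ++ T₂) f := fun f hf => Or.inr (by simp [hf])
    refine pth_append.2 ⟨s, pth_congr (fun f hf => ?_) (fun f hf => p3 f (q1 f hf)) hp1, ?_⟩
    · rw [s3 f (q1 f hf), p3 _ (h.slive f (q1 f hf))]
    · refine pth_append.2 ⟨s, ?_, pth_congr (fun f hf => ?_) (fun f hf => p3 f (q2 f hf)) hp2⟩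
      · have h1 := pth_oblk (σ := σ') (p := p') (x := x) (c := c) (K := K) (a := a) (P := P)
          (fun i => by rw [s2, p1]) p2 ℓ i₀
        rw [prv_iter_l, hP0] at h1
        simpa using h1
      · rw [s3 f (q2 f hf), p3 _ (h.slive f (q2 f hf))]
  · intro z hz
    rcases Finset.mem_union.1 hz with hz | hz
    · rcases h.att z hz with h1 | ⟨f, h1, h2⟩
      · exact Or.inl h1
      · exact Or.inr ⟨f, (hLive _).2 (Or.inl h1), by rw [p3 f h1]; exact h2⟩
    · obtain ⟨i, hi, rfl⟩ := Finset.mem_image.1 hz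
      refine Or.inr ⟨.inl (a, i), (hLive _).2 (Or.inr (Or.inl ⟨i, rfl⟩)), 1, ?_⟩
      rw [p1, hP1 i (Finset.ne_of_mem_erase hi)]
  · intro f hf z hz
    rcases (hLive f).1 hf with h1 | ⟨i, rfl⟩ | ⟨i, rfl⟩
    · rw [p3 f h1] at hz
      exact Finset.mem_union_left _ (h.vmem f h1 z hz)
    · rw [p1] at hz
      exact hP2 i z hz
    · rw [p2, at_pm] at hz
      exact hP2 (prv (a, i)).2 z hz
  · exact fun z hz => Finset.mem_union_left _ (h.bmem z hz)
  · rw [Finset.card_union_of_disjoint hdisj, hcardN, Finset.card_insert_of_notMem haA]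
    have h1 := h.cnt
    have h2 : 0 < ℓ := Nat.pos_of_ne_zero (NeZero.ne ℓ)
    simp only [drt_append, List.length_append, length_drt_oblk] at h1 ⊢
    rw [Nat.mul_add]
    omega
  · intro z hz i z' hz' hzz
    rcases Finset.mem_insert.1 hz with rfl | hz
    · rw [s1] at hzz
      simp [od] at hzz
    · have hl : Live A (T₁ ++ T₂) (.inl (z, i)) := Or.inl ⟨z, hz, i, rfl⟩
      rw [s3 _ hl] at hzz
      rcases Finset.mem_insert.1 hz' with rfl | hz'
      · exact absurd hzz ((hne _ (h.slive _ hl)).1 i)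
      · exact h.red z hz i z' hz' hzz

end ops

end Vale.Agent.P174.LO
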