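import Vale.Agent.P174.LO.Defs

/-! P174: states (planar diagrams with boundary word), zipping and unpeeling.  helper879. -/

namespace Vale.Agent.P174.LO

universe u v w

variable {G : Type u} [Group G] {ι : Type v} {ℓ : ℕ} [NeZero ℓ]

/-- faces: an index and an orientation -/
abbrev Fc := ℕ × Bool

/-- darts: sides of faces, and outer darts (an index and a letter) -/
abbrev Dt (ι : Type v) (ℓ : ℕ) := (Fc × ZMod ℓ) ⊕ (ℕ × (ι × Bool))

/-- next side of a face -/
def nxt (d : Fc × ZMod ℓ) : Fc × ZMod ℓ := (d.1, if d.1.2 then d.2 + 1 else d.2 - 1)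

/-- previous side of a face -/
def prv (d : Fc × ZMod ℓ) : Fc × ZMod ℓ := (d.1, if d.1.2 then d.2 - 1 else d.2 + 1)

omit [NeZero ℓ] in
@[simp] theorem nxt_prv (d : Fc × ZMod ℓ) : nxt (prv d) = d := by
  rcases d with ⟨⟨m, s⟩, i⟩
  cases s <;> simp [nxt, prv]

omit [NeZero ℓ] in
@[simp] theorem prv_nxt (d : Fc × ZMod ℓ) : prv (nxt d) = d := by
  rcases d with ⟨⟨m, s⟩, i⟩
  cases s <;> simp [nxt, prv]

omit [NeZero ℓ] in
@[simp] theorem nxt_fst (d : Fc × ZMod ℓ) : (nxt d).1 = d.1 := rfl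

omit [NeZero ℓ] in
@[simp] theorem prv_fst (d : Fc × ZMod ℓ) : (prv d).1 = d.1 := rfl

omit [NeZero ℓ] in
theorem nxt_iter (k : ℕ) (a : Fc) (i : ZMod ℓ) :
    nxt^[k] (a, i) = (a, if a.2 then i + k else i - k) := by
  induction k with
  | zero => simp
  | succ k ih =>
    rw [Function.iterate_succ_apply', ih]
    rcases a with ⟨m, s⟩
    cases s
    · simp [nxt]; ring
    · simp [nxt]; ring

omit [NeZero ℓ] in
theorem prv_iter (k : ℕ) (a : Fc) (i : ZMod ℓ) :
    prv^[k] (a, i) = (a, if a.2 then i - k else i + k) := by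
  induction k with
  | zero => simp
  | succ k ih =>
    rw [Function.iterate_succ_apply', ih]
    rcases a with ⟨m, s⟩
    cases s
    · simp [prv]; ring
    · simp [prv]; ring

omit [NeZero ℓ] in
theorem nxt_iter_l (d : Fc × ZMod ℓ) : nxt^[ℓ] d = d := by
  rcases d with ⟨a, i⟩
  rw [nxt_iter]
  simp

omit [NeZero ℓ] in
theorem prv_iter_l (d : Fc × ZMod ℓ) : prv^[ℓ] d = d := by
  rcases d with ⟨a, i⟩
  rw [prv_iter]
  simp

variable (x : ZMod ℓ → ι × Bool) (c : ZMod ℓ → G)

/-- letter of a side of a face -/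
def ilab (d : Fc × ZMod ℓ) : ι × Bool := if d.1.2 then x d.2 else linv (x d.2)

/-- coefficient of the corner after a side of a face -/
def cor (d : Fc × ZMod ℓ) : G := if d.1.2 then c d.2 else (c (d.2 - 1))⁻¹

/-- letter of a dart -/
def lab (d : Dt ι ℓ) : ι × Bool := Sum.elim (ilab x) Prod.snd d

/-- positions: a vertex and a frame -/
abbrev Ps (G : Type u) := Option (ℕ × G)

/-- change of frame -/
def pm (s : Ps G) (g : G) : Ps G := s.map (fun q => (q.1, q.2 * g))

@[simp] theorem pm_pm (s : Ps G) (g h : G) : pm (pm s g) h = pm s (g * h) := by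
  rcases s with _ | ⟨v, k⟩ <;> simp [pm, mul_assoc]

@[simp] theorem pm_one (s : Ps G) : pm s 1 = s := by
  rcases s with _ | ⟨v, k⟩ <;> simp [pm]

@[simp] theorem pm_none (g : G) : pm (none : Ps G) g = none := rfl

@[simp] theorem pm_some (v : ℕ) (k g : G) : pm (some (v, k)) g = some (v, k * g) := rfl

theorem pm_eq_some {s : Ps G} {g : G} {v : ℕ} {k : G} (h : pm s g = some (v, k)) :
    s = some (v, k * g⁻¹) := by
  rw [← pm_some, ← h]; simp

/-- the vertex `v` is the vertex of the position -/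
def At (v : ℕ) (s : Ps G) : Prop := ∃ g, s = some (v, g)

theorem at_pm {v : ℕ} {s : Ps G} {g : G} : At v (pm s g) ↔ At v s := by
  constructor
  · rintro ⟨k, h⟩
    exact ⟨_, pm_eq_some h⟩
  · rintro ⟨k, rfl⟩
    exact ⟨_, rfl⟩

/-- paths -/
def Pth {D : Type w} (σ : D → D) (p : D → Ps G) : Ps G → List (D ⊕ G) → Ps G → Prop
  | s, [], e => s = e
  | s, .inr g :: T, e => Pth σ p (pm s g) T e
  | s, .inl d :: T, e => p (σ d) = s ∧ Pth σ p (p d) T e

section pth

variable {D : Type w} {σ : D → D} {p : D → Ps G}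

@[simp] theorem pth_nil {s e : Ps G} : Pth σ p s [] e ↔ s = e := Iff.rfl

@[simp] theorem pth_inr {s e : Ps G} {g : G} {T : List (D ⊕ G)} :
    Pth σ p s (.inr g :: T) e ↔ Pth σ p (pm s g) T e := Iff.rfl

@[simp] theorem pth_inl {s e : Ps G} {d : D} {T : List (D ⊕ G)} :
    Pth σ p s (.inl d :: T) e ↔ p (σ d) = s ∧ Pth σ p (p d) T e := Iff.rfl

theorem pth_append {s e : Ps G} {S T : List (D ⊕ G)} :
    Pth σ p s (S ++ T) e ↔ ∃ m, Pth σ p s S m ∧ Pth σ p m T e := by
  induction S generalizing s with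
  | nil => simp
  | cons t S ih =>
    rcases t with d | g
    · simp only [List.cons_append, pth_inl, ih]
      constructor
      · rintro ⟨h, m, h1, h2⟩
        exact ⟨m, ⟨h, h1⟩, h2⟩
      · rintro ⟨m, ⟨h, h1⟩, h2⟩
        exact ⟨h, m, h1, h2⟩
    · simp only [List.cons_append, pth_inr, ih]

theorem pth_coef {s e : Ps G} {Gs : List G} :
    Pth σ p s (Gs.map Sum.inr) e ↔ pm s Gs.prod = e := by
  induction Gs generalizing s with
  | nil => simp
  | cons g Gs ih => simp [ih]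

theorem pth_map {σ' : D → D} {p' : D → Ps G} {Φ : Ps G → Ps G}
    (hΦ : ∀ s g, Φ (pm s g) = pm (Φ s) g) {T : List (D ⊕ G)}
    (h1 : ∀ d, Sum.inl d ∈ T → p' (σ' d) = Φ (p (σ d)))
    (h2 : ∀ d, Sum.inl d ∈ T → p' d = Φ (p d)) {s e : Ps G} (h : Pth σ p s T e) :
    Pth σ' p' (Φ s) T (Φ e) := by
  induction T generalizing s with
  | nil =>
    simp only [pth_nil] at h ⊢
    rw [h]
  | cons t T ih =>
    have ih' : ∀ {s : Ps G}, Pth σ p s T e → Pth σ' p' (Φ s) T (Φ e) :=
      ih (fun d hd => h1 d (List.mem_cons_of_mem _ hd))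
        (fun d hd => h2 d (List.mem_cons_of_mem _ hd))
    rcases t with d | g
    · simp only [pth_inl] at h ⊢
      refine ⟨by rw [h1 d (by simp), h.1], ?_⟩
      rw [h2 d (by simp)]
      exact ih' h.2
    · simp only [pth_inr] at h ⊢
      rw [← hΦ]
      exact ih' h

theorem pth_congr {σ' : D → D} {p' : D → Ps G} {T : List (D ⊕ G)}
    (h1 : ∀ d, Sum.inl d ∈ T → p' (σ' d) = p (σ d))
    (h2 : ∀ d, Sum.inl d ∈ T → p' d = p d) {s e : Ps G} (h : Pth σ p s T e) :
    Pth σ' p' s T e :=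
  pth_map (Φ := id) (fun _ _ => rfl) h1 h2 h

theorem pth_end {T : List (D ⊕ G)} {s e : Ps G} (h : Pth σ p s T e) {v : ℕ} (hv : At v e) :
    At v s ∨ ∃ d, Sum.inl d ∈ T ∧ At v (p d) := by
  induction T generalizing s with
  | nil =>
    simp only [pth_nil] at h
    subst h
    exact Or.inl hv
  | cons t T ih =>
    rcases t with d | g
    · simp only [pth_inl] at h
      rcases ih h.2 with h3 | ⟨d', h3, h4⟩
      · exact Or.inr ⟨d, by simp, h3⟩
      · exact Or.inr ⟨d', by simp [h3], h4⟩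
    · simp only [pth_inr] at h
      rcases ih h with h3 | ⟨d', h3, h4⟩
      · exact Or.inl (at_pm.1 h3)
      · exact Or.inr ⟨d', by simp [h3], h4⟩

end pth

/-- the darts of a token list -/
def drt {D : Type w} (T : List (D ⊕ G)) : List D := T.filterMap Sum.getLeft?

section drt

variable {D : Type w}

omit [Group G] in
@[simp] theorem drt_nil : drt ([] : List (D ⊕ G)) = [] := rfl

omit [Group G] in
@[simp] theorem drt_inl (d : D) (T : List (D ⊕ G)) : drt (.inl d :: T) = d :: drt T := by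
  simp [drt]

omit [Group G] in
@[simp] theorem drt_inr (g : G) (T : List (D ⊕ G)) : drt (.inr g :: T) = drt T := by
  simp [drt, List.filterMap_cons]

omit [Group G] in
@[simp] theorem drt_append (S T : List (D ⊕ G)) : drt (S ++ T) = drt S ++ drt T := by
  simp [drt]

omit [Group G] in
@[simp] theorem drt_map_inr (Gs : List G) : drt (Gs.map (Sum.inr : G → D ⊕ G)) = [] := by
  induction Gs with
  | nil => simp
  | cons g Gs ih => simp [ih]

omit [Group G] in
theorem mem_drt {T : List (D ⊕ G)} {d : D} : d ∈ drt T ↔ Sum.inl d ∈ T := by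
  induction T with
  | nil => simp
  | cons t T ih =>
    rcases t with e | g
    · simp [ih]
    · simp [ih]

end drt

/-- live darts: sides of the present faces and darts of the outer word -/
def Live (A : Finset Fc) (T : List (Dt ι ℓ ⊕ G)) (d : Dt ι ℓ) : Prop :=
  (∃ a ∈ A, ∃ i, d = .inl (a, i)) ∨ Sum.inl d ∈ T

/-- A state: a planar diagram with faces `A`, outer word `T`, edge involution `σ`, positions `p`,
base position `b` and vertices `V`. -/
structure St (A : Finset Fc) (T : List (Dt ι ℓ ⊕ G)) (σ : Dt ι ℓ → Dt ι ℓ) (p : Dt ι ℓ → Ps G)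
    (b : Ps G) (V : Finset ℕ) : Prop where
  nodup : (drt T).Nodup
  disj : ∀ a ∈ A, ∀ i, Sum.inl (Sum.inl (a, i)) ∉ T
  slive : ∀ d, Live A T d → Live A T (σ d)
  ssig : ∀ d, Live A T d → σ (σ d) = d
  slab : ∀ d, Live A T d → lab x (σ d) = linv (lab x d)
  inner : ∀ a ∈ A, ∀ i, p (σ (.inl (nxt (a, i)))) = pm (p (.inl (a, i))) (cor c (a, i))
  path : Pth σ p b T b
  att : ∀ v ∈ V, At v b ∨ ∃ d, Live A T d ∧ At v (p d)
  vmem : ∀ d, Live A T d → ∀ v, At v (p d) → v ∈ V
  bmem : ∀ v, At v b → v ∈ V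
  cnt : ℓ * A.card + (drt T).length + 2 ≤ 2 * V.card + 2 * A.card
  red : ∀ a ∈ A, ∀ i, ∀ a' ∈ A, σ (.inl (a, i)) = .inl (a', i) → a'.2 = a.2

variable {x c}

section ops

variable {A : Finset Fc} {T : List (Dt ι ℓ ⊕ G)} {σ : Dt ι ℓ → Dt ι ℓ} {p : Dt ι ℓ → Ps G}
  {b : Ps G} {V : Finset ℕ}

omit [NeZero ℓ] in
/-- replacing coefficients by others with the same product -/
theorem St.coef {T₁ T₂ : List (Dt ι ℓ ⊕ G)} {Gs Hs : List G}
    (h : St x c A (T₁ ++ (Gs.map Sum.inr ++ T₂)) σ p b V) (hp : Gs.prod = Hs.prod) :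
    St x c A (T₁ ++ (Hs.map Sum.inr ++ T₂)) σ p b V := by
  have hd : drt (T₁ ++ (Hs.map Sum.inr ++ T₂)) = drt (T₁ ++ (Gs.map Sum.inr ++ T₂)) := by
    simp
  have hm : ∀ d, Sum.inl d ∈ T₁ ++ (Hs.map Sum.inr ++ T₂) ↔
      Sum.inl d ∈ T₁ ++ (Gs.map Sum.inr ++ T₂) := by
    intro d
    rw [← mem_drt, ← mem_drt, hd]
  have hL : ∀ d, Live A (T₁ ++ (Hs.map Sum.inr ++ T₂)) d ↔
      Live A (T₁ ++ (Gs.map Sum.inr ++ T₂)) d := by
    intro d
    rw [Live, Live, hm]
  refine ⟨by rw [hd]; exact h.nodup, fun a ha i => ?_, fun d hl => ?_, fun d hl => ?_,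
    fun d hl => ?_, h.inner, ?_, fun v hv => ?_, fun d hl => ?_, h.bmem, by rw [hd]; exact h.cnt,
    h.red⟩
  · rw [hm]; exact h.disj a ha i
  · rw [hL] at hl ⊢; exact h.slive d hl
  · rw [hL] at hl; exact h.ssig d hl
  · rw [hL] at hl; exact h.slab d hl
  · obtain ⟨m, h1, h2⟩ := pth_append.1 h.path
    obtain ⟨m', h3, h4⟩ := pth_append.1 h2
    rw [pth_coef] at h3
    refine pth_append.2 ⟨m, h1, pth_append.2 ⟨m', ?_, h4⟩⟩
    rw [pth_coef, ← hp, h3]
  · rcases h.att v hv with h1 | ⟨d, h1, h2⟩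
    · exact Or.inl h1
    · exact Or.inr ⟨d, (hL d).2 h1, h2⟩
  · rw [hL] at hl; exact h.vmem d hl

/-- identification of two positions at the cost of at most one vertex -/
theorem exists_phi (s t : Ps G) (V : Finset ℕ) (hs : ∀ v, At v s → v ∈ V)
    (ht : ∀ v, At v t → v ∈ V) :
    ∃ (Φ : Ps G → Ps G) (V' : Finset ℕ), (∀ q g, Φ (pm q g) = pm (Φ q) g) ∧ Φ s = Φ t ∧
      V' ⊆ V ∧ V.card ≤ V'.card + 1 ∧ (∀ v ∈ V', ∀ q, At v q → At v (Φ q)) ∧
      (∀ q, (∀ v, At v q → v ∈ V) → ∀ v, At v (Φ q) → v ∈ V') := by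
  classical
  -- killing a vertex
  have kill : ∀ v₀ ∈ V, ∃ (Φ : Ps G → Ps G) (V' : Finset ℕ),
      (∀ q g, Φ (pm q g) = pm (Φ q) g) ∧ (∀ q, (q = none ∨ At v₀ q) → Φ q = none) ∧
      V' ⊆ V ∧ V.card ≤ V'.card + 1 ∧ (∀ v ∈ V', ∀ q, At v q → At v (Φ q)) ∧
      (∀ q, (∀ v, At v q → v ∈ V) → ∀ v, At v (Φ q) → v ∈ V') := by
    intro v₀ hv₀
    refine ⟨fun q => match q with
      | none => none
      | some (v, k) => if v = v₀ then none else some (v, k), V.erase v₀, ?_, ?_,
      Finset.erase_subset _ _, ?_, ?_, ?_⟩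
    · rintro (_ | ⟨v, k⟩) g
      · rfl
      · simp only [pm_some]
        split_ifs <;> simp
    · rintro q (rfl | ⟨k, rfl⟩)
      · rfl
      · simp
    · rw [Finset.card_erase_of_mem hv₀]
      omega
    · rintro v hv q ⟨k, rfl⟩
      have : v ≠ v₀ := Finset.ne_of_mem_erase hv
      exact ⟨k, by simp [this]⟩
    · rintro (_ | ⟨v', k'⟩) hq v ⟨k, hk⟩
      · simp at hk
      · by_cases h : v' = v₀
        · simp [h] at hk
        · simp only [h, if_false, Option.some.injEq, Prod.mk.injEq] at hk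
          rw [← hk.1]
          exact Finset.mem_erase.2 ⟨h, hq v' ⟨k', rfl⟩⟩
  by_cases hst : s = t
  · exact ⟨id, V, fun _ _ => rfl, by rw [hst], subset_rfl, by omega, fun _ _ _ h => h,
      fun q hq v hv => hq v hv⟩
  rcases s with _ | ⟨v, g⟩
  · rcases t with _ | ⟨v', g'⟩
    · exact absurd rfl hst
    · obtain ⟨Φ, V', h1, h2, h3, h4, h5, h6⟩ := kill v' (ht v' ⟨g', rfl⟩)
      exact ⟨Φ, V', h1, by rw [h2 _ (Or.inl rfl), h2 _ (Or.inr ⟨g', rfl⟩)], h3, h4, h5, h6⟩
  · rcases t with _ | ⟨v', g'⟩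
    · obtain ⟨Φ, V', h1, h2, h3, h4, h5, h6⟩ := kill v (hs v ⟨g, rfl⟩)
      exact ⟨Φ, V', h1, by rw [h2 _ (Or.inl rfl), h2 _ (Or.inr ⟨g, rfl⟩)], h3, h4, h5, h6⟩
    · by_cases hv : v = v'
      · subst hv
        obtain ⟨Φ, V', h1, h2, h3, h4, h5, h6⟩ := kill v (hs v ⟨g, rfl⟩)
        exact ⟨Φ, V', h1, by rw [h2 _ (Or.inr ⟨g, rfl⟩), h2 _ (Or.inr ⟨g', rfl⟩)], h3, h4, h5, h6⟩
      · -- merging `v'` into `v`
        refine ⟨fun q => match q with
          | none => none
          | some (z, k) => if z = v' then some (v, g * g'⁻¹ * k) else some (z, k), V.erase v',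
          ?_, ?_, Finset.erase_subset _ _, ?_, ?_, ?_⟩
        · rintro (_ | ⟨z, k⟩) h
          · rfl
          · simp only [pm_some]
            split_ifs <;> simp [mul_assoc]
        · simp [hv]
        · rw [Finset.card_erase_of_mem (ht v' ⟨g', rfl⟩)]
          omega
        · rintro z hz q ⟨k, rfl⟩
          have : z ≠ v' := Finset.ne_of_mem_erase hz
          exact ⟨k, by simp [this]⟩
        · rintro (_ | ⟨z', k'⟩) hq z ⟨k, hk⟩
          · simp at hk
          · by_cases h : z' = v'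
            · simp only [h, if_true, Option.some.injEq, Prod.mk.injEq] at hk
              rw [← hk.1]
              exact Finset.mem_erase.2 ⟨hv, hs v ⟨g, rfl⟩⟩
            · simp only [h, if_false, Option.some.injEq, Prod.mk.injEq] at hk
              rw [← hk.1]
              exact Finset.mem_erase.2 ⟨h, hq z' ⟨k', rfl⟩⟩

omit [NeZero ℓ] in
theorem Live.ne_inner {a : Fc} {i : ZMod ℓ} (h : St x c A T σ p b V) {d : Dt ι ℓ}
    (hd : Sum.inl d ∈ T) (ha : a ∈ A) : d ≠ .inl (a, i) := by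
  rintro rfl
  exact h.disj a ha i hd

omit [NeZero ℓ] in
theorem St.sig_ne (h : St x c A T σ p b V) {d : Dt ι ℓ} (hd : Live A T d) : σ d ≠ d := by
  intro h1
  have h2 := h.slab d hd
  rw [h1] at h2
  exact linv_ne _ h2.symm

omit [NeZero ℓ] in
/-- zipping two adjacent outer darts -/
theorem St.zip {T₁ T₂ : List (Dt ι ℓ ⊕ G)} {d d' : Dt ι ℓ}
    (h : St x c A (T₁ ++ .inl d :: .inl d' :: T₂) σ p b V) (hl : lab x d' = linv (lab x d))
    (hm : ∀ a ∈ A, ∀ i, ∀ a' ∈ A, σ d = .inl (a, i) → σ d' = .inl (a', i) → a'.2 = a.2) :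
    ∃ (σ' : Dt ι ℓ → Dt ι ℓ) (p' : Dt ι ℓ → Ps G) (b' : Ps G) (V' : Finset ℕ),
      St x c A (T₁ ++ T₂) σ' p' b' V' := by
  classical
  set T := T₁ ++ .inl d :: .inl d' :: T₂ with hT
  have hdT : Sum.inl d ∈ T := by simp [hT]
  have hdT' : Sum.inl d' ∈ T := by simp [hT]
  have hdr : drt T = drt T₁ ++ d :: d' :: drt T₂ := by simp [hT]
  have hnd := h.nodup
  rw [hdr] at hnd
  have hdd : d ≠ d' := by
    intro h1
    rw [h1] at hl
    exact linv_ne _ hl.symm
  have hn1 : d ∉ drt T₁ ++ drt T₂ := by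
    have h1 := (List.perm_middle (a := d) (l₁ := drt T₁) (l₂ := d' :: drt T₂)).nodup_iff.1 hnd
    intro h2
    refine (List.nodup_cons.1 h1).1 ?_
    simp only [List.mem_append, List.mem_cons] at h2 ⊢
    tauto
  have hn2 : d' ∉ drt T₁ ++ drt T₂ := by
    have h1 := (List.perm_middle (a := d) (l₁ := drt T₁) (l₂ := d' :: drt T₂)).nodup_iff.1 hnd
    have h3 := (List.nodup_cons.1 h1).2
    have h4 := (List.perm_middle (a := d') (l₁ := drt T₁) (l₂ := drt T₂)).nodup_iff.1 h3
    exact (List.nodup_cons.1 h4).1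
  have hn3 : (drt T₁ ++ drt T₂).Nodup := by
    have h1 := (List.perm_middle (a := d) (l₁ := drt T₁) (l₂ := d' :: drt T₂)).nodup_iff.1 hnd
    have h3 := (List.nodup_cons.1 h1).2
    have h4 := (List.perm_middle (a := d') (l₁ := drt T₁) (l₂ := drt T₂)).nodup_iff.1 h3
    exact (List.nodup_cons.1 h4).2
  have hmem : ∀ f, Sum.inl f ∈ T₁ ++ T₂ ↔ Sum.inl f ∈ T ∧ f ≠ d ∧ f ≠ d' := by
    intro f
    constructor
    · intro hf
      have h1 : f ∈ drt T₁ ++ drt T₂ := by rw [← drt_append, mem_drt]; exact hf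
      refine ⟨?_, ?_, ?_⟩
      · simp only [hT, List.mem_append, List.mem_cons] at hf ⊢
        tauto
      · rintro rfl; exact hn1 h1
      · rintro rfl; exact hn2 h1
    · rintro ⟨h1, h2, h3⟩
      simp only [hT, List.mem_append, List.mem_cons, Sum.inl.injEq] at h1 ⊢
      tauto
  have hLd : Live A T d := Or.inr hdT
  have hLd' : Live A T d' := Or.inr hdT'
  have hLive : ∀ f, Live A (T₁ ++ T₂) f ↔ Live A T f ∧ f ≠ d ∧ f ≠ d' := by
    intro f
    constructor
    · rintro (⟨a, ha, i, rfl⟩ | hf)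
      · exact ⟨Or.inl ⟨a, ha, i, rfl⟩, (Live.ne_inner h hdT ha).symm,
          (Live.ne_inner h hdT' ha).symm⟩
      · obtain ⟨h1, h2⟩ := (hmem f).1 hf
        exact ⟨Or.inr h1, h2⟩
    · rintro ⟨⟨a, ha, i, rfl⟩ | hf, h2⟩
      · exact Or.inl ⟨a, ha, i, rfl⟩
      · exact Or.inr ((hmem f).2 ⟨hf, h2⟩)
  obtain ⟨s, hp1, hp2⟩ := pth_append.1 h.path
  simp only [pth_inl] at hp2
  obtain ⟨hse, hsd, hp3⟩ := hp2
  -- count
  have hcnt := h.cnt
  have hlen : (drt T).length = (drt (T₁ ++ T₂)).length + 2 := by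
    rw [hdr, drt_append]
    simp [List.length_append]
    omega
  by_cases hsp : σ d = d'
  · -- spur
    have hsp' : σ d' = d := by rw [← hsp, h.ssig d hLd]
    have hsne : ∀ f, Live A T f → f ≠ d → f ≠ d' → σ f ≠ d ∧ σ f ≠ d' := by
      intro f hf h1 h2
      constructor
      · intro h3
        apply h2
        rw [← h.ssig f hf, h3, hsp]
      · intro h3
        apply h1
        rw [← h.ssig f hf, h3, hsp']
    have key : ∀ v, At v (p d') → At v b ∨ ∃ f, Live A (T₁ ++ T₂) f ∧ At v (p f) := by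
      intro v hv
      rw [← hsp, hse] at hv
      rcases pth_end hp1 hv with h1 | ⟨f, h1, h2⟩
      · exact Or.inl h1
      · exact Or.inr ⟨f, Or.inr (by simp [h1]), h2⟩
    have hpath : Pth σ p b (T₁ ++ T₂) b := by
      refine pth_append.2 ⟨s, hp1, ?_⟩
      rw [← hse, hsp]
      exact hp3
    have fin : ∀ V' : Finset ℕ, V' ⊆ V → V.card ≤ V'.card + 1 →
        (∀ v ∈ V', At v b ∨ ∃ f, Live A (T₁ ++ T₂) f ∧ At v (p f)) →
        (∀ f, Live A (T₁ ++ T₂) f → ∀ v, At v (p f) → v ∈ V') → (∀ v, At v b → v ∈ V') →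
        St x c A (T₁ ++ T₂) σ p b V' := by
      intro V' hV1 hV2 hV3 hV4 hV5
      refine ⟨by rw [drt_append]; exact hn3, fun a ha i hi => h.disj a ha i ((hmem _).1 hi).1,
        fun f hf => ?_, fun f hf => h.ssig f ((hLive f).1 hf).1,
        fun f hf => h.slab f ((hLive f).1 hf).1, h.inner, hpath, hV3, hV4, hV5, by omega, h.red⟩
      obtain ⟨h1, h2, h3⟩ := (hLive f).1 hf
      exact (hLive _).2 ⟨h.slive f h1, hsne f h1 h2 h3⟩
    by_cases hv : ∃ v ∈ V, ¬ (At v b ∨ ∃ f, Live A (T₁ ++ T₂) f ∧ At v (p f))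
    · obtain ⟨v₀, hv₀, hv₁⟩ := hv
      refine ⟨σ, p, b, V.erase v₀, fin _ (Finset.erase_subset _ _) ?_ ?_ ?_ ?_⟩
      · rw [Finset.card_erase_of_mem hv₀]; omega
      · intro v hv
        rcases h.att v (Finset.mem_of_mem_erase hv) with h1 | ⟨f, h1, h2⟩
        · exact Or.inl h1
        · by_cases hfd' : f = d'
          · subst hfd'
            exact key v h2
          · by_cases hfd : f = d
            · subst hfd
              exfalso
              rcases h.att v₀ hv₀ with h3 | ⟨f', h3, h4⟩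
              · exact hv₁ (Or.inl h3)
              · by_cases hf1 : f' = d'
                · subst hf1
                  exact hv₁ (key v₀ h4)
                · by_cases hf2 : f' = f
                  · subst hf2
                    obtain ⟨g1, h5⟩ := h2
                    obtain ⟨g2, h6⟩ := h4
                    rw [h5] at h6
                    simp only [Option.some.injEq, Prod.mk.injEq] at h6
                    exact (Finset.ne_of_mem_erase hv) h6.1
                  · exact hv₁ (Or.inr ⟨f', (hLive f').2 ⟨h3, hf2, hf1⟩, h4⟩)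
            · exact Or.inr ⟨f, (hLive f).2 ⟨h1, hfd, hfd'⟩, h2⟩
      · intro f hf v hv
        refine Finset.mem_erase.2 ⟨?_, h.vmem f ((hLive f).1 hf).1 v hv⟩
        rintro rfl
        exact hv₁ (Or.inr ⟨f, hf, hv⟩)
      · intro v hv
        refine Finset.mem_erase.2 ⟨?_, h.bmem v hv⟩
        rintro rfl
        exact hv₁ (Or.inl hv)
    · push Not at hv
      refine ⟨σ, p, b, V, fin V subset_rfl (by omega) ?_ ?_ h.bmem⟩
      · exact hv
      · exact fun f hf => h.vmem f ((hLive f).1 hf).1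
  · -- the general case
    set e := σ d with he
    set e' := σ d' with he'
    have hee : σ e = d := h.ssig d hLd
    have hee' : σ e' = d' := h.ssig d' hLd'
    have hLe : Live A T e := h.slive d hLd
    have hLe' : Live A T e' := h.slive d' hLd'
    have hne1 : e ≠ d := h.sig_ne hLd
    have hne2 : e' ≠ d' := h.sig_ne hLd'
    have hne3 : e' ≠ d := by
      intro h1
      apply hsp
      rw [he, ← h1, hee']
    have hne4 : e ≠ e' := by
      intro h1
      apply hdd
      rw [← hee, h1, hee']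
    have hLe1 : Live A (T₁ ++ T₂) e := (hLive e).2 ⟨hLe, hne1, hsp⟩
    have hLe2 : Live A (T₁ ++ T₂) e' := (hLive e').2 ⟨hLe', hne3, hne2⟩
    obtain ⟨Φ, V', hΦ1, hΦ2, hΦ3, hΦ4, hΦ5, hΦ6⟩ := exists_phi s (p d') V
      (by rw [← hse]; exact h.vmem e hLe) (h.vmem d' hLd')
    set σ' : Dt ι ℓ → Dt ι ℓ := fun f => if f = e then e' else if f = e' then e else σ f with hσ'
    have hσe : σ' e = e' := by simp [hσ']
    have hσe' : σ' e' = e := by simp [hσ', hne4.symm]
    have hσo : ∀ f, f ≠ e → f ≠ e' → σ' f = σ f := by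
      intro f h1 h2
      simp [hσ', h1, h2]
    have star : ∀ f, Φ (p (σ' f)) = Φ (p (σ f)) := by
      intro f
      by_cases h1 : f = e
      · rw [h1, hσe, hee, he', hsd]
      · by_cases h2 : f = e'
        · rw [h2, hσe', hee', he, hse, hΦ2]
        · rw [hσo f h1 h2]
    refine ⟨σ', fun f => Φ (p f), Φ b, V', ?_⟩
    have hsl : ∀ f, Live A (T₁ ++ T₂) f → Live A (T₁ ++ T₂) (σ' f) := by
      intro f hf
      by_cases h1 : f = e
      · rw [h1, hσe]; exact hLe2
      · by_cases h2 : f = e'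
        · rw [h2, hσe']; exact hLe1
        · rw [hσo f h1 h2]
          obtain ⟨h3, h4, h5⟩ := (hLive f).1 hf
          refine (hLive _).2 ⟨h.slive f h3, ?_, ?_⟩
          · intro h6; apply h1; rw [← h.ssig f h3, h6]
          · intro h6; apply h2; rw [← h.ssig f h3, h6]
    refine ⟨by rw [drt_append]; exact hn3, fun a ha i hi => h.disj a ha i ((hmem _).1 hi).1,
      hsl, ?_, ?_, ?_, ?_, ?_, ?_, ?_, ?_, ?_⟩
    · -- involution
      intro f hf
      by_cases h1 : f = e
      · rw [h1, hσe, hσe']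
      · by_cases h2 : f = e'
        · rw [h2, hσe', hσe]
        · obtain ⟨h3, h4, h5⟩ := (hLive f).1 hf
          rw [hσo f h1 h2, hσo, h.ssig f h3]
          · intro h6; apply h4; rw [← h.ssig f h3, h6, hee]
          · intro h6; apply h5; rw [← h.ssig f h3, h6, hee']
    · -- labels
      intro f hf
      have hle : lab x e = linv (lab x d) := h.slab d hLd
      have hle' : lab x e' = linv (lab x d') := h.slab d' hLd'
      by_cases h1 : f = e
      · rw [h1, hσe, hle, hle', hl]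
      · by_cases h2 : f = e'
        · rw [h2, hσe', hle, hle', hl]; simp
        · rw [hσo f h1 h2]
          exact h.slab f ((hLive f).1 hf).1
    · -- inner
      intro a ha i
      show Φ (p (σ' _)) = pm (Φ (p _)) _
      rw [star, h.inner a ha i, hΦ1]
    · -- path
      have q1 : Pth σ' (fun f => Φ (p f)) (Φ b) T₁ (Φ s) :=
        pth_map (σ' := σ') (p' := fun f => Φ (p f)) hΦ1 (fun f _ => star f) (fun f _ => rfl) hp1
      have q2 : Pth σ' (fun f => Φ (p f)) (Φ (p d')) T₂ (Φ b) :=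
        pth_map (σ' := σ') (p' := fun f => Φ (p f)) hΦ1 (fun f _ => star f) (fun f _ => rfl) hp3
      exact pth_append.2 ⟨Φ s, q1, by rw [hΦ2]; exact q2⟩
    · -- vertices are attained
      intro v hv
      rcases h.att v (hΦ3 hv) with h1 | ⟨f, h1, h2⟩
      · exact Or.inl (hΦ5 v hv b h1)
      · by_cases hfd : f = d
        · refine Or.inr ⟨e', hLe2, ?_⟩
          show At v (Φ (p e'))
          rw [he', hsd, ← hfd]
          exact hΦ5 v hv _ h2
        · by_cases hfd' : f = d'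
          · refine Or.inr ⟨e, hLe1, ?_⟩
            show At v (Φ (p e))
            rw [he, hse, hΦ2, ← hfd']
            exact hΦ5 v hv _ h2
          · exact Or.inr ⟨f, (hLive f).2 ⟨h1, hfd, hfd'⟩, hΦ5 v hv _ h2⟩
    · intro f hf v hv
      exact hΦ6 (p f) (h.vmem f ((hLive f).1 hf).1) v hv
    · intro v hv
      exact hΦ6 b h.bmem v hv
    · omega
    · intro a ha i a' ha' h1
      by_cases h2 : Sum.inl (a, i) = e
      · rw [h2, hσe] at h1
        exact hm a ha i a' ha' h2.symm h1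
      · by_cases h3 : Sum.inl (a, i) = e'
        · rw [h3, hσe'] at h1
          exact (hm a' ha' i a ha h1 h3.symm).symm
        · rw [hσo _ h2 h3] at h1
          exact h.red a ha i a' ha' h1

end ops

end Vale.Agent.P174.LO
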