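import Vale.Agent.P174.LO.Core
import Vale.Agent.P174.LO.Count

/-! P174: the order lemma.  helper879. -/

namespace Vale.Agent.P174.LO

universe u v w

/-! ### The auxiliary ordered set -/

section lam

variable {H : Type u} [Group H]

/-- sum of two actions -/
def sumH {A B : Type v} [LinearOrder A] [LinearOrder B] (a : H →* (A ≃o A)) (b : H →* (B ≃o B)) :
    H →* ((A ⊕ₗ B) ≃o (A ⊕ₗ B)) where
  toFun g := OrderIso.sumLexCongr (a g) (b g)
  map_one' := by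
    apply RelIso.ext
    intro t
    rcases t with t | t
    · show toLex (Sum.inl (a 1 t)) = toLex (Sum.inl t)
      rw [map_one]; rfl
    · show toLex (Sum.inr (b 1 t)) = toLex (Sum.inr t)
      rw [map_one]; rfl
  map_mul' g h := by
    apply RelIso.ext
    intro t
    rcases t with t | t
    · show toLex (Sum.inl (a (g * h) t)) = toLex (Sum.inl (a g (a h t)))
      rw [map_mul]; rfl
    · show toLex (Sum.inr (b (g * h) t)) = toLex (Sum.inr (b g (b h t)))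
      rw [map_mul]; rfl

/-- dual action -/
def dualH {A : Type v} [LinearOrder A] (a : H →* (A ≃o A)) : H →* (Aᵒᵈ ≃o Aᵒᵈ) where
  toFun g := (a g).dual
  map_one' := by
    rw [map_one]; rfl
  map_mul' g h := by
    rw [map_mul]; rfl

theorem exists_lam_aux [LinearOrder H] [Countable H]
    (hH : ∀ a b c : H, b < c → a * b < a * c) {W : H} (hW : W ≠ 1) :
    ∃ (Λ : Type u) (_ : LinearOrder Λ) (_ : Countable Λ) (a : H →* (Λ ≃o Λ)) (l₁ l₂ : Λ),
      (∀ m, m ≠ 1 → ∀ t, a m t ≠ t) ∧ (∀ g h, a g l₁ < a h l₂) ∧ a W⁻¹ l₁ < l₁ ∧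
        l₂ < a W⁻¹ l₂ := by
  rcases lt_or_gt_of_ne hW with h | h
  · -- `W < 1`
    have h1 : 1 < W⁻¹ := by
      have := hH W⁻¹ W 1 h
      simpa using this
    refine ⟨Hᵒᵈ ⊕ₗ H, inferInstance, inferInstanceAs (Countable (H ⊕ H)),
      sumH (dualH (lmulH hH)) (lmulH hH), toLex (Sum.inl (OrderDual.toDual 1)),
      toLex (Sum.inr 1), ?_, ?_, ?_, ?_⟩
    · intro m hm t ht
      rcases t with t | t
      · have h2 : m * OrderDual.ofDual t = OrderDual.ofDual t := Sum.inl.inj ht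
        exact hm (by simpa using h2)
      · have h2 : m * t = t := Sum.inr.inj ht
        exact hm (by simpa using h2)
    · intro g h
      exact Sum.Lex.inl_lt_inr _ _
    · refine Sum.Lex.inl_lt_inl_iff.2 ?_
      show (1 : H) < W⁻¹ * 1
      simpa using h1
    · refine Sum.Lex.inr_lt_inr_iff.2 ?_
      show (1 : H) < W⁻¹ * 1
      simpa using h1
  · have h1 : W⁻¹ < 1 := by
      have := hH W⁻¹ 1 W h
      simpa using this
    refine ⟨H ⊕ₗ Hᵒᵈ, inferInstance, inferInstanceAs (Countable (H ⊕ H)),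
      sumH (lmulH hH) (dualH (lmulH hH)), toLex (Sum.inl 1),
      toLex (Sum.inr (OrderDual.toDual 1)), ?_, ?_, ?_, ?_⟩
    · intro m hm t ht
      rcases t with t | t
      · have h2 : m * t = t := Sum.inl.inj ht
        exact hm (by simpa using h2)
      · have h2 : m * OrderDual.ofDual t = OrderDual.ofDual t := Sum.inr.inj ht
        exact hm (by simpa using h2)
    · intro g h
      exact Sum.Lex.inl_lt_inr _ _
    · refine Sum.Lex.inl_lt_inl_iff.2 ?_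
      show W⁻¹ * 1 < (1 : H)
      simpa using h1
    · refine Sum.Lex.inr_lt_inr_iff.2 ?_
      show W⁻¹ * 1 < (1 : H)
      simpa using h1

theorem exists_lam {G : Type u} [Group G] [LinearOrder G] [Countable G] {ι : Type v} [Countable ι]
    (hG : ∀ a b c : G, b < c → a * b < a * c) {W : XX G ι} (hW : W ≠ 1) :
    ∃ (Λ : Type (max u v)) (_ : LinearOrder Λ) (_ : Countable Λ) (a : XX G ι →* (Λ ≃o Λ))
      (l₁ l₂ : Λ), (∀ m, m ≠ 1 → ∀ t, a m t ≠ t) ∧ (∀ g h, a g l₁ < a h l₂) ∧ a W⁻¹ l₁ < l₁ ∧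
        l₂ < a W⁻¹ l₂ := by
  obtain ⟨r, hr⟩ := exists_order (ι := ι) hG
  let _ := r
  have : Countable (XX G ι) := countable_XX
  exact exists_lam_aux hr hW

end lam

variable {G : Type u} [Group G] {ι : Type v} {ℓ : ℕ} [NeZero ℓ]

/-- as `OD`, but without separation of slots -/
structure PD (x : ZMod ℓ → ι × Bool) (c : ZMod ℓ → G) (Ω : Type w) [LinearOrder Ω] where
  act : G →* (Ω ≃o Ω)
  L : ι → (Ω ≃o Ω)
  y : ZMod ℓ → Ω
  rel : ∀ i, y i = letE L (x i) (act (c i) (y (i + 1)))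

namespace PD

variable {x : ZMod ℓ → ι × Bool} {c : ZMod ℓ → G} {Ω : Type w} [LinearOrder Ω] (P : PD x c Ω)

/-- the source point of a slot -/
def src (i : ZMod ℓ) : Ω := srcE P.L (x i) (P.act (c i) (P.y (i + 1)))

omit [NeZero ℓ] in
theorem src_pos {i : ZMod ℓ} (h : (x i).2 = true) : P.src i = P.act (c i) (P.y (i + 1)) := by
  simp [src, srcE, h]

omit [NeZero ℓ] in
theorem src_neg {i : ZMod ℓ} (h : (x i).2 = false) : P.src i = P.y i := by
  rw [P.rel i]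
  simp [src, srcE, h]

open Classical in
/-- the number of tied pairs of slots -/
noncomputable def bad : ℕ :=
  (Finset.univ.filter fun q : ZMod ℓ × ZMod ℓ =>
    q.1 ≠ q.2 ∧ (x q.1).1 = (x q.2).1 ∧ P.src q.1 = P.src q.2).card

end PD

section step

variable {x : ZMod ℓ → ι × Bool} {c : ZMod ℓ → G} {Ω : Type w} [LinearOrder Ω]
  {Λ : Type w} [LinearOrder Λ]

/-- the path of a point of `Λ` -/
def lam (a : XX G ι →* (Λ ≃o Λ)) (x : ZMod ℓ → ι × Bool) (c : ZMod ℓ → G) (l : Λ) (k : ℕ) : Λ :=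
  a (seg x c 0 k)⁻¹ l

omit [NeZero ℓ] in
theorem lam_succ (a : XX G ι →* (Λ ≃o Λ)) (l : Λ) (k : ℕ) :
    lam a x c l k = a (lX G (x k)) (a (cX ι (c k)) (lam a x c l (k + 1))) := by
  rw [lam, lam, ← RelIso.mul_apply, ← map_mul, ← RelIso.mul_apply, ← map_mul, seg_succ]
  congr 2
  simp only [zero_add]
  group

/-- the source of the path -/
def lsrc (a : XX G ι →* (Λ ≃o Λ)) (x : ZMod ℓ → ι × Bool) (c : ZMod ℓ → G) (l : Λ) (k : ℕ) : Λ :=
  if (x k).2 then a (cX ι (c k)) (lam a x c l (k + 1)) else lam a x c l k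

omit [NeZero ℓ] in
theorem lsrc_mem (a : XX G ι →* (Λ ≃o Λ)) (l : Λ) (k : ℕ) : ∃ g, lsrc a x c l k = a g l := by
  rw [lsrc]
  split_ifs
  · exact ⟨cX ι (c k) * (seg x c 0 (k + 1))⁻¹, by rw [map_mul, RelIso.mul_apply]; rfl⟩
  · exact ⟨_, rfl⟩

omit [NeZero ℓ] in
theorem path_fib {a : XX G ι →* (Λ ≃o Λ)} {f : (Λ ×ₗ ℚ) ≃o (Λ ×ₗ ℚ)} {S : ZMod ℓ → Prop} {l : Λ}
    {k : ℕ} (hf : S k → f (toLex (lsrc a x c l k, 0)) = toLex (lsrc a x c l k, 0)) :
    toLex (lam a x c l k, (0 : ℚ)) = fib a f x c S k (toLex (lam a x c l (k + 1), 0)) := by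
  classical
  rw [fib, RelIso.mul_apply, dF_apply]
  by_cases hb : (x k).2 = true
  · rw [if_pos hb]
    have h1 : lsrc a x c l k = a (cX ι (c k)) (lam a x c l (k + 1)) := by rw [lsrc, if_pos hb]
    have h2 : ((x k).1, true) = x k := Prod.ext rfl hb.symm
    rw [← h1]
    have h3 : dF a (lX G ((x k).1, true)) (toLex (lsrc a x c l k, 0)) =
        toLex (lam a x c l k, (0 : ℚ)) := by
      rw [dF_apply, h2, h1, ← lam_succ]
    by_cases hs : S k
    · rw [Fib, if_pos hs, RelIso.mul_apply, hf hs, h3]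
    · rw [Fib, if_neg hs, h3]
  · rw [if_neg hb]
    have h1 : lsrc a x c l k = lam a x c l k := by rw [lsrc, if_neg hb]
    have h2 : ((x k).1, true) = linv (x k) := by
      refine Prod.ext rfl ?_
      show true = !(x k).2
      simp only [Bool.not_eq_true] at hb
      rw [hb]; rfl
    have h3 : dF a (lX G ((x k).1, true)) (toLex (lam a x c l k, (0 : ℚ))) =
        toLex (a (cX ι (c k)) (lam a x c l (k + 1)), 0) := by
      rw [dF_apply, h2, lX_linv, map_inv, lam_succ a l k]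
      rw [inv_apply_self']
    have h4 : Fib a f x S k (toLex (lam a x c l k, (0 : ℚ))) =
        toLex (a (cX ι (c k)) (lam a x c l (k + 1)), 0) := by
      by_cases hs : S k
      · have h5 := hf hs
        rw [h1] at h5
        rw [Fib, if_pos hs, RelIso.mul_apply, h5, h3]
      · rw [Fib, if_neg hs, h3]
    rw [← h4, inv_apply_self']

open Classical in
/-- the refined data -/
noncomputable def refine (P : PD x c Ω) (a : XX G ι →* (Λ ≃o Λ)) (f : (Λ ×ₗ ℚ) ≃o (Λ ×ₗ ℚ))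
    (j₀ : ι) (κ : Ω) (T : ZMod ℓ → LowerSet (Λ ×ₗ ℚ))
    (hT : ∀ i, T i = cutH _ (fib a f x c (fun i => (x i).1 = j₀ ∧ P.src i = κ) i) (T (i + 1))) :
    PD x c (Ω ×ₗ LowerSet (Λ ×ₗ ℚ)) where
  act := diaH P.act (((cutH _).comp (dF a)).comp Monoid.Coprod.inl)
  L j := twist (P.L j) (fun ω => cutH _
    (if j = j₀ ∧ ω = κ then dF a (lX G (j, true)) * f else dF a (lX G (j, true))))
  y i := toLex (P.y i, T i)
  rel := by
    intro i
    have hact : diaH P.act (((cutH _).comp (dF a)).comp Monoid.Coprod.inl) (c i)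
        (toLex (P.y (i + 1), T (i + 1))) =
        toLex (P.act (c i) (P.y (i + 1)), cutH _ (dF a (cX ι (c i))) (T (i + 1))) := rfl
    rw [hact]
    have h1 := P.rel i
    have h2 := hT i
    rw [fib, map_mul, RelIso.mul_apply] at h2
    by_cases hb : (x i).2 = true
    · rw [letE, if_pos hb] at h1 ⊢
      rw [twist_apply, ← h1]
      rw [if_pos hb, Fib] at h2
      rw [P.src_pos hb] at h2
      rw [h2]
      congr!
    · have hb' : (x i).2 = false := by simpa using hb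
      rw [letE, if_neg hb] at h1 ⊢
      rw [twist_inv_apply, ← h1]
      rw [if_neg hb, Fib] at h2
      rw [P.src_neg hb', map_inv] at h2
      rw [h2]
      congr!

omit [NeZero ℓ] in
theorem refine_src (P : PD x c Ω) (a : XX G ι →* (Λ ≃o Λ)) (f : (Λ ×ₗ ℚ) ≃o (Λ ×ₗ ℚ))
    (j₀ : ι) (κ : Ω) (T : ZMod ℓ → LowerSet (Λ ×ₗ ℚ))
    (hT : ∀ i, T i = cutH _ (fib a f x c (fun i => (x i).1 = j₀ ∧ P.src i = κ) i) (T (i + 1)))
    (i : ZMod ℓ) : (refine P a f j₀ κ T hT).src i = toLex (P.src i, Kc a x c T i) := by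
  by_cases hb : (x i).2 = true
  · rw [PD.src_pos _ hb, P.src_pos hb, Kc, if_pos hb]
    rfl
  · have hb' : (x i).2 = false := by simpa using hb
    rw [PD.src_neg _ hb', P.src_neg hb', Kc, if_neg hb]
    rfl

/-- **The refinement step.** -/
theorem exists_refine [Countable Λ] (P : PD x c Ω) {a : XX G ι →* (Λ ≃o Λ)} {l₁ l₂ : Λ}
    (ha : ∀ m, m ≠ 1 → ∀ t, a m t ≠ t) (hl : ∀ g h, a g l₁ < a h l₂)
    (hl₁ : a (seg x c 0 ℓ)⁻¹ l₁ < l₁) (hl₂ : l₂ < a (seg x c 0 ℓ)⁻¹ l₂)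
    (hcr : ∀ i, ¬ (c i = 1 ∧ x (i + 1) = linv (x i)))
    (hnp : ∀ d : ℕ, 0 < d → d < ℓ → ¬ ∀ i, x (i + d) = x i ∧ c (i + d) = c i)
    {u₀ v₀ : ZMod ℓ} (huv : u₀ ≠ v₀) (h₁ : (x u₀).1 = (x v₀).1) (h₂ : P.src u₀ = P.src v₀) :
    ∃ P' : PD x c (Ω ×ₗ LowerSet (Λ ×ₗ ℚ)), (∀ i j, P'.src i = P'.src j → P.src i = P.src j) ∧
      ∃ i j, i ≠ j ∧ (x i).1 = (x j).1 ∧ P.src i = P.src j ∧ P'.src i ≠ P'.src j := by
  classical
  obtain ⟨j₀, hj₀⟩ : ∃ j₀, j₀ = (x u₀).1 := ⟨_, rfl⟩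
  obtain ⟨κ, hκ⟩ : ∃ κ, κ = P.src u₀ := ⟨_, rfl⟩
  obtain ⟨S, hS⟩ : ∃ S : ZMod ℓ → Prop, S = fun i => (x i).1 = j₀ ∧ P.src i = κ := ⟨_, rfl⟩
  have hSu : S u₀ := by rw [hS]; exact ⟨hj₀.symm, hκ.symm⟩
  have hSv : S v₀ := by rw [hS]; exact ⟨by rw [← h₁, hj₀], by rw [← h₂, hκ]⟩
  -- the slots
  obtain ⟨R, hR⟩ : ∃ R : Finset ℕ, ∀ k, k ∈ R ↔ k < ℓ ∧ S k :=
    ⟨(Finset.range ℓ).filter fun k => S k, fun k => by simp⟩
  have hRn : R.Nonempty := ⟨u₀.val, (hR _).2 ⟨ZMod.val_lt _, by rw [ZMod.natCast_zmod_val]; exact hSu⟩⟩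
  obtain ⟨ka, hka, hka'⟩ := R.exists_max_image (lsrc a x c l₁) hRn
  obtain ⟨kb, hkb, hkb'⟩ := R.exists_min_image (lsrc a x c l₂) hRn
  have hsep : ∀ k k', lsrc a x c l₁ k < lsrc a x c l₂ k' := by
    intro k k'
    obtain ⟨g, hg⟩ := lsrc_mem (x := x) (c := c) a l₁ k
    obtain ⟨h, hh⟩ := lsrc_mem (x := x) (c := c) a l₂ k'
    rw [hg, hh]
    exact hl g h
  -- the automorphism of the fibre
  have hC : Countable (Λ ×ₗ ℚ) := inferInstanceAs (Countable (Λ × ℚ))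
  have hN : Nonempty (Λ ×ₗ ℚ) := ⟨toLex (l₁, 0)⟩
  have lt1 : (toLex (lsrc a x c l₁ ka, (1 : ℚ)) : Λ ×ₗ ℚ) < toLex (lsrc a x c l₂ kb, (-1 : ℚ)) :=
    Prod.Lex.toLex_lt_toLex.2 (Or.inl (hsep _ _))
  have lt2 : (toLex (lsrc a x c l₁ ka, (1 : ℚ)) : Λ ×ₗ ℚ) < toLex (lsrc a x c l₁ ka, (2 : ℚ)) :=
    Prod.Lex.toLex_lt_toLex.2 (Or.inr ⟨rfl, by norm_num⟩)
  obtain ⟨f, hf1, hf2, hf3⟩ := ext_move lt1 lt2
    ((R.image fun k => (toLex (lsrc a x c l₁ k, (0 : ℚ)) : Λ ×ₗ ℚ)) ∪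
      (R.image fun k => (toLex (lsrc a x c l₂ k, (0 : ℚ)) : Λ ×ₗ ℚ))) (by
    intro t ht
    rcases Finset.mem_union.1 ht with ht | ht
    · obtain ⟨k, hk, rfl⟩ := Finset.mem_image.1 ht
      left
      apply le_of_lt
      rcases (hka' k hk).lt_or_eq with h | h
      · exact Prod.Lex.toLex_lt_toLex.2 (Or.inl h)
      · exact Prod.Lex.toLex_lt_toLex.2 (Or.inr ⟨h, by norm_num⟩)
    · obtain ⟨k, hk, rfl⟩ := Finset.mem_image.1 ht
      right
      constructor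
      · rcases (hkb' k hk).lt_or_eq with h | h
        · exact Prod.Lex.toLex_lt_toLex.2 (Or.inl h)
        · exact Prod.Lex.toLex_lt_toLex.2 (Or.inr ⟨h, by norm_num⟩)
      · exact Prod.Lex.toLex_lt_toLex.2 (Or.inl (hsep _ _)))
  have hfix1 : ∀ k < ℓ, S k → f (toLex (lsrc a x c l₁ k, 0)) = toLex (lsrc a x c l₁ k, 0) := by
    intro k hk hs
    exact hf1 _ (Finset.mem_union_left _ (Finset.mem_image.2 ⟨k, (hR k).2 ⟨hk, hs⟩, rfl⟩))
  have hfix2 : ∀ k < ℓ, S k → f (toLex (lsrc a x c l₂ k, 0)) = toLex (lsrc a x c l₂ k, 0) := by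
    intro k hk hs
    exact hf1 _ (Finset.mem_union_right _ (Finset.mem_image.2 ⟨k, (hR k).2 ⟨hk, hs⟩, rfl⟩))
  -- closing up
  obtain ⟨T, hT, hpq⟩ := exists_cyclic (fib a f x c S)
    (fun k => (toLex (lam a x c l₁ k, (0 : ℚ)) : Λ ×ₗ ℚ))
    (fun k => (toLex (lam a x c l₂ k, (0 : ℚ)) : Λ ×ₗ ℚ))
    (fun k hk => path_fib (hfix1 k hk)) (fun k hk => path_fib (hfix2 k hk))
    (by
      refine Prod.Lex.toLex_lt_toLex.2 (Or.inl ?_)
      show a (seg x c 0 ℓ)⁻¹ l₁ < a (seg x c 0 0)⁻¹ l₁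
      simpa [seg] using hl₁)
    (by
      refine Prod.Lex.toLex_lt_toLex.2 (Or.inl ?_)
      exact hl _ _)
    (by
      refine Prod.Lex.toLex_lt_toLex.2 (Or.inl ?_)
      show a (seg x c 0 0)⁻¹ l₂ < a (seg x c 0 ℓ)⁻¹ l₂
      simpa [seg] using hl₂)
  have hT' := hT
  rw [hS] at hT'
  refine ⟨refine P a f j₀ κ T hT', ?_, ?_⟩
  · intro i j hij
    rw [refine_src, refine_src] at hij
    exact congrArg (fun s => (ofLex s).1) hij
  · by_contra hcon
    push Not at hcon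
    have hKK : ∀ i j, S i → S j → Kc a x c T i = Kc a x c T j := by
      intro i j hi hj
      by_cases hij : i = j
      · rw [hij]
      · rw [hS] at hi hj
        have := hcon i j hij (by rw [hi.1, hj.1]) (by rw [hi.2, hj.2])
        rw [refine_src, refine_src] at this
        exact congrArg (fun s => (ofLex s).2) this
    refine core ha (f := f) (S := S) (j₀ := j₀) (fun i hi => by rw [hS] at hi; exact hi.1) hT
      (C := Kc a x c T u₀) (fun u hu => hKK u u₀ hu hSu) hSu hSv huv hcr hnp ?_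
    intro n1 n2
    -- the source cuts contain the sources of the first path and not those of the second one
    have hin : ∀ k ∈ R, toLex (lsrc a x c l₁ k, (0 : ℚ)) ∈ Kc a x c T u₀ ∧
        toLex (lsrc a x c l₂ k, (0 : ℚ)) ∉ Kc a x c T u₀ := by
      intro k hk
      obtain ⟨hk1, hk2⟩ := (hR k).1 hk
      rw [← hKK k u₀ hk2 hSu]
      by_cases hb : (x k).2 = true
      · rw [Kc, if_pos hb, lsrc, if_pos hb, lsrc, if_pos hb, ← dF_apply, ← dF_apply,
          apply_mem_cutH, apply_mem_cutH]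
        have := hpq (k + 1) (by omega)
        push_cast at this
        exact this
      · rw [Kc, if_neg hb, lsrc, if_neg hb, lsrc, if_neg hb]
        exact hpq k (by omega)
    have e1 : toLex (lsrc a x c l₁ ka, (1 : ℚ)) ∈ Kc a x c T u₀ := n1 _ _ _ (hin ka hka).1
    have e2 : toLex (lsrc a x c l₂ kb, (-1 : ℚ)) ∉ Kc a x c T u₀ := by
      intro h
      exact (hin kb hkb).2 (n1 _ _ _ h)
    have e3 : toLex (lsrc a x c l₁ ka, (1 : ℚ)) ∈ cutH _ f (Kc a x c T u₀) := by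
      rw [← hf2, apply_mem_cutH]; exact e1
    have e4 : toLex (lsrc a x c l₁ ka, (2 : ℚ)) ∉ cutH _ f (Kc a x c T u₀) := by
      rw [← hf3, apply_mem_cutH]; exact e2
    exact e4 (n2 _ _ _ e3)

end step

end Vale.Agent.P174.LO
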