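import Vale.Agent.P174.LO.Map

/-! P174: removing two mirror faces at the boundary.  helper879. -/

namespace Vale.Agent.P174.LO

universe u v w

variable {G : Type u} [Group G] {ι : Type v} {ℓ : ℕ} [NeZero ℓ]
variable (x : ZMod ℓ → ι × Bool) (c : ZMod ℓ → G)

/-- the boundary of a face read from the end of the side `e` to its start -/
def rblk (ι : Type v) (e : Fc × ZMod ℓ) : ℕ → List (Dt ι ℓ ⊕ G)
  | 0 => [.inr (cor c e)]
  | k + 1 => .inr (cor c e) :: .inl (.inl (nxt e)) :: rblk ι (nxt e) k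

section rblk

variable {x c}

omit [NeZero ℓ] in
theorem rblk_succ (e : Fc × ZMod ℓ) (k : ℕ) : rblk c ι e (k + 1) =
    rblk c ι e k ++ [.inl (.inl (nxt^[k + 1] e)), .inr (cor c (nxt^[k + 1] e))] := by
  induction k generalizing e with
  | zero => simp [rblk]
  | succ k ih =>
    rw [rblk, ih (nxt e)]
    simp [rblk]

omit [NeZero ℓ] in
theorem drt_rblk (e : Fc × ZMod ℓ) (k : ℕ) : drt (rblk c ι e k) =
    (List.range k).map (fun j => (.inl (nxt^[j + 1] e) : Dt ι ℓ)) := by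
  induction k with
  | zero => simp [rblk]
  | succ k ih =>
    rw [rblk_succ, drt_append, ih, List.range_succ, List.map_append]
    simp

omit [NeZero ℓ] in
theorem length_drt_rblk (e : Fc × ZMod ℓ) (k : ℕ) : (drt (rblk c ι e k)).length = k := by
  rw [drt_rblk]; simp

omit [NeZero ℓ] in
theorem nxt_iter_inj {a : Fc} {i : ZMod ℓ} {j k : ℕ} (hj : j < ℓ) (hk : k < ℓ)
    (h : nxt^[j] (a, i) = nxt^[k] (a, i)) : j = k := by
  rw [nxt_iter, nxt_iter] at h
  have h1 := congrArg Prod.snd h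
  simp only at h1
  have h2 : (j : ZMod ℓ) = (k : ZMod ℓ) := by
    split_ifs at h1
    · simpa using h1
    · simpa using h1
  have h3 := congrArg ZMod.val h2
  rwa [ZMod.val_cast_of_lt hj, ZMod.val_cast_of_lt hk] at h3

theorem exists_nxt_iter (a : Fc) (i j : ZMod ℓ) : ∃ k < ℓ, nxt^[k] (a, i) = (a, j) := by
  rcases a with ⟨m, s⟩
  cases s
  · refine ⟨(i - j).val, ZMod.val_lt _, ?_⟩
    rw [nxt_iter]
    simp
  · refine ⟨(j - i).val, ZMod.val_lt _, ?_⟩
    rw [nxt_iter]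
    simp

theorem nodup_rblk (e : Fc × ZMod ℓ) : (drt (rblk c ι e (ℓ - 1))).Nodup := by
  have hl : 0 < ℓ := Nat.pos_of_ne_zero (NeZero.ne ℓ)
  rw [drt_rblk]
  refine List.Nodup.map_on ?_ List.nodup_range
  intro j hj k hk h
  rw [List.mem_range] at hj hk
  have h1 := Sum.inl_injective h
  have := nxt_iter_inj (a := e.1) (i := e.2) (by omega) (by omega) h1
  omega

theorem mem_rblk {e : Fc × ZMod ℓ} {f : Dt ι ℓ} :
    Sum.inl f ∈ rblk c ι e (ℓ - 1) ↔ ∃ j, j ≠ e.2 ∧ f = .inl (e.1, j) := by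
  have hl : 0 < ℓ := Nat.pos_of_ne_zero (NeZero.ne ℓ)
  rw [← mem_drt, drt_rblk, List.mem_map]
  constructor
  · rintro ⟨k, hk, rfl⟩
    rw [List.mem_range] at hk
    refine ⟨(nxt^[k + 1] e).2, ?_, ?_⟩
    · intro h
      have h1 : nxt^[k + 1] (e.1, e.2) = nxt^[0] (e.1, e.2) := by
        refine Prod.ext ?_ ?_
        · rw [nxt_iter]; rfl
        · exact h
      have := nxt_iter_inj (by omega) (by omega) h1
      omega
    · congr 1
      refine Prod.ext ?_ rfl
      have := congrArg Prod.fst (nxt_iter (ℓ := ℓ) (k + 1) e.1 e.2)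
      exact this
  · rintro ⟨j, hj, rfl⟩
    obtain ⟨k, hk, h⟩ := exists_nxt_iter e.1 e.2 j
    rcases k with _ | k
    · exfalso
      apply hj
      exact (congrArg Prod.snd h).symm
    · exact ⟨k, List.mem_range.2 (by omega), congrArg Sum.inl h⟩

omit [NeZero ℓ] in
theorem pth_rblk {σ : Dt ι ℓ → Dt ι ℓ} {p : Dt ι ℓ → Ps G} {a : Fc}
    (h : ∀ i, p (σ (.inl (nxt (a, i)))) = pm (p (.inl (a, i))) (cor c (a, i))) (k : ℕ)
    (i : ZMod ℓ) : Pth σ p (p (.inl (a, i))) (rblk c ι (a, i) k)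
      (p (σ (.inl (nxt^[k + 1] (a, i))))) := by
  induction k generalizing i with
  | zero => simp [rblk, h]
  | succ k ih =>
    have h1 : nxt (a, i) = (a, (nxt (a, i)).2) := rfl
    simp only [rblk, pth_inr, pth_inl]
    refine ⟨h i, ?_⟩
    rw [h1, Function.iterate_succ_apply, h1]
    exact ih _

theorem pth_rblk' {σ : Dt ι ℓ → Dt ι ℓ} {p : Dt ι ℓ → Ps G} {a : Fc}
    (h : ∀ i, p (σ (.inl (nxt (a, i)))) = pm (p (.inl (a, i))) (cor c (a, i)))
    (i : ZMod ℓ) : Pth σ p (p (.inl (a, i))) (rblk c ι (a, i) (ℓ - 1))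
      (p (σ (.inl (a, i)))) := by
  have hl : 0 < ℓ := Nat.pos_of_ne_zero (NeZero.ne ℓ)
  have h1 := pth_rblk h (ℓ - 1) i
  rw [Nat.sub_add_cancel hl, nxt_iter_l] at h1
  exact h1

omit [NeZero ℓ] in
theorem tval_rblk (m m' : ℕ) (k : ℕ) (i : ZMod ℓ) :
    tval (lab x) (rblk c ι ((m, true), i) k) *
      tval (lab x) (rblk c ι ((m', false), i + k + 1) k) = 1 := by
  induction k with
  | zero => simp [rblk, cor]
  | succ k ih =>
    rw [rblk_succ]
    simp only [rblk, tval_append, tval_inl, tval_inr, tval_nil, mul_one]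
    have h1 : nxt^[k + 1] (((m, true), i) : Fc × ZMod ℓ) = ((m, true), i + k + 1) := by
      rw [nxt_iter]; simp; ring
    have h2 : nxt (((m', false), i + (k + 1 : ℕ) + 1) : Fc × ZMod ℓ) =
        ((m', false), i + k + 1) := by
      simp [nxt]; ring
    rw [h1, h2]
    have h3 : lab x (.inl ((m, true), i + k + 1)) = x (i + k + 1) := rfl
    have h4 : lab x (.inl ((m', false), i + k + 1)) = linv (x (i + k + 1)) := rfl
    have h5 : cor c ((m, true), i + k + 1) = c (i + k + 1) := rfl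
    have h6 : cor c ((m', false), i + (k + 1 : ℕ) + 1) = (c (i + k + 1))⁻¹ := by
      simp [cor]; ring_nf
    rw [h3, h4, h5, h6, lX_linv, cX_inv]
    calc _ = tval (lab x) (rblk c ι ((m, true), i) k) *
          tval (lab x) (rblk c ι ((m', false), i + k + 1) k) := by group
      _ = 1 := ih

theorem tval_rblk_mirror {a a' : Fc} (h : a'.2 ≠ a.2) (i : ZMod ℓ) :
    tval (lab x) (rblk c ι (a, i) (ℓ - 1)) * tval (lab x) (rblk c ι (a', i) (ℓ - 1)) = 1 := by
  have hl : 0 < ℓ := Nat.pos_of_ne_zero (NeZero.ne ℓ)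
  have hi : i + ((ℓ - 1 : ℕ) : ZMod ℓ) + 1 = i := by
    rw [add_assoc]
    have : (((ℓ - 1 : ℕ) : ZMod ℓ) + 1) = ((ℓ - 1 + 1 : ℕ) : ZMod ℓ) := by push_cast; ring
    rw [this, Nat.sub_add_cancel hl]
    simp
  rcases a with ⟨m, s⟩
  rcases a' with ⟨m', s'⟩
  simp only at h
  have h1 := tval_rblk (x := x) (c := c) m m' (ℓ - 1) i
  have h2 := tval_rblk (x := x) (c := c) m' m (ℓ - 1) i
  rw [hi] at h1 h2
  cases s <;> cases s' <;> simp at h
  · exact mul_eq_one_iff_eq_inv.2 (eq_inv_of_mul_eq_one_right h2)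
  · exact h1

end rblk

section ops

variable {x c} {A : Finset Fc} {T : List (Dt ι ℓ ⊕ G)} {σ : Dt ι ℓ → Dt ι ℓ} {p : Dt ι ℓ → Ps G}
  {b : Ps G} {V : Finset ℕ}

/-- two adjacent outer darts at mirror faces: remove the two faces -/
theorem St.unpeel {T₁ T₂ : List (Dt ι ℓ ⊕ G)} {d d' : Dt ι ℓ}
    (h : St x c A (T₁ ++ .inl d :: .inl d' :: T₂) σ p b V) {a a' : Fc} {i : ZMod ℓ} (ha : a ∈ A)
    (ha' : a' ∈ A) (hd : σ d = .inl (a, i)) (hd' : σ d' = .inl (a', i)) (hs : a'.2 ≠ a.2) :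
    St x c ((A.erase a).erase a') (T₁ ++ (rblk c ι (a, i) (ℓ - 1) ++
      (rblk c ι (a', i) (ℓ - 1) ++ T₂))) σ p b V := by
  classical
  have hl : 0 < ℓ := Nat.pos_of_ne_zero (NeZero.ne ℓ)
  set T := T₁ ++ .inl d :: .inl d' :: T₂ with hT
  have hdT : Sum.inl d ∈ T := by simp [hT]
  have hdT' : Sum.inl d' ∈ T := by simp [hT]
  have haa : a ≠ a' := by rintro rfl; exact hs rfl
  have hdr : drt T = drt T₁ ++ d :: d' :: drt T₂ := by simp [hT]
  have hnd := h.nodup
  rw [hdr] at hnd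
  have h1 := (List.perm_middle (a := d) (l₁ := drt T₁) (l₂ := d' :: drt T₂)).nodup_iff.1 hnd
  have h3 := (List.nodup_cons.1 h1).2
  have h4 := (List.perm_middle (a := d') (l₁ := drt T₁) (l₂ := drt T₂)).nodup_iff.1 h3
  have hdd : d ≠ d' := by
    rintro rfl
    exact (List.nodup_cons.1 h1).1 (by simp)
  have hn1 : d ∉ drt T₁ ++ drt T₂ := by
    intro h2
    refine (List.nodup_cons.1 h1).1 ?_
    simp only [List.mem_append, List.mem_cons] at h2 ⊢
    tauto
  have hn2 : d' ∉ drt T₁ ++ drt T₂ := (List.nodup_cons.1 h4).1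
  have hn3 : (drt T₁ ++ drt T₂).Nodup := (List.nodup_cons.1 h4).2
  have hmem : ∀ f, Sum.inl f ∈ T₁ ++ T₂ ↔ Sum.inl f ∈ T ∧ f ≠ d ∧ f ≠ d' := by
    intro f
    constructor
    · intro hf
      have h9 : f ∈ drt T₁ ++ drt T₂ := by rw [← drt_append, mem_drt]; exact hf
      refine ⟨?_, ?_, ?_⟩
      · simp only [hT, List.mem_append, List.mem_cons] at hf ⊢
        tauto
      · intro h8; rw [h8] at h9; exact hn1 h9
      · intro h8; rw [h8] at h9; exact hn2 h9
    · rintro ⟨h1, h2, h3⟩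
      simp only [hT, List.mem_append, List.mem_cons, Sum.inl.injEq] at h1 ⊢
      tauto
  set N := T₁ ++ (rblk c ι (a, i) (ℓ - 1) ++ (rblk c ι (a', i) (ℓ - 1) ++ T₂)) with hN
  have hmN : ∀ f, Sum.inl f ∈ N ↔ (Sum.inl f ∈ T ∧ f ≠ d ∧ f ≠ d') ∨
      (∃ j, j ≠ i ∧ f = .inl (a, j)) ∨ (∃ j, j ≠ i ∧ f = .inl (a', j)) := by
    intro f
    rw [← hmem f]
    simp only [hN, List.mem_append, mem_rblk]
    have taut : ∀ P Q R S : Prop, (P ∨ Q ∨ R ∨ S) ↔ ((P ∨ S) ∨ Q ∨ R) := by
      intro P Q R S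
      tauto
    exact taut _ _ _ _
  have hLd : Live A T d := Or.inr hdT
  have hLd' : Live A T d' := Or.inr hdT'
  have hLive : ∀ f, Live ((A.erase a).erase a') N f ↔ Live A T f ∧ f ≠ d ∧ f ≠ d' ∧
      f ≠ .inl (a, i) ∧ f ≠ .inl (a', i) := by
    intro f
    constructor
    · rintro (⟨z, hz, j, rfl⟩ | hf)
      · have hz1 : z ∈ A := Finset.mem_of_mem_erase (Finset.mem_of_mem_erase hz)
        have hz2 : z ≠ a' := Finset.ne_of_mem_erase hz
        have hz3 : z ≠ a := Finset.ne_of_mem_erase (Finset.mem_of_mem_erase hz)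
        refine ⟨Or.inl ⟨z, hz1, j, rfl⟩, (Live.ne_inner h hdT hz1).symm,
          (Live.ne_inner h hdT' hz1).symm, ?_, ?_⟩
        · simp [hz3]
        · simp [hz2]
      · rcases (hmN f).1 hf with ⟨h5, h6, h7⟩ | ⟨j, hj, rfl⟩ | ⟨j, hj, rfl⟩
        · exact ⟨Or.inr h5, h6, h7, Live.ne_inner h h5 ha, Live.ne_inner h h5 ha'⟩
        · refine ⟨Or.inl ⟨a, ha, j, rfl⟩, (Live.ne_inner h hdT ha).symm,
            (Live.ne_inner h hdT' ha).symm, ?_, ?_⟩
          · simp [hj]
          · simp [haa]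
        · refine ⟨Or.inl ⟨a', ha', j, rfl⟩, (Live.ne_inner h hdT ha').symm,
            (Live.ne_inner h hdT' ha').symm, ?_, ?_⟩
          · simp [haa.symm]
          · simp [hj]
    · rintro ⟨⟨z, hz, j, rfl⟩ | hf, h5, h6, h7, h8⟩
      · by_cases hz1 : z = a
        · subst hz1
          refine Or.inr ((hmN _).2 (Or.inr (Or.inl ⟨j, ?_, rfl⟩)))
          rintro rfl
          exact h7 rfl
        · by_cases hz2 : z = a'
          · subst hz2
            refine Or.inr ((hmN _).2 (Or.inr (Or.inr ⟨j, ?_, rfl⟩)))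
            rintro rfl
            exact h8 rfl
          · exact Or.inl ⟨z, Finset.mem_erase.2 ⟨hz2, Finset.mem_erase.2 ⟨hz1, hz⟩⟩, j, rfl⟩
      · exact Or.inr ((hmN _).2 (Or.inl ⟨hf, h5, h6⟩))
  have hsd : σ (.inl (a, i)) = d := by rw [← hd, h.ssig d hLd]
  have hsd' : σ (.inl (a', i)) = d' := by rw [← hd', h.ssig d' hLd']
  obtain ⟨s, hp1, hp2⟩ := pth_append.1 h.path
  simp only [pth_inl] at hp2
  obtain ⟨hse, hse', hp3⟩ := hp2
  have q1 : Pth σ p s (rblk c ι (a, i) (ℓ - 1)) (p d) := by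
    have := pth_rblk' (c := c) (h.inner a ha) i
    rwa [hsd, ← hd, hse] at this
  have q2 : Pth σ p (p d) (rblk c ι (a', i) (ℓ - 1)) (p d') := by
    have := pth_rblk' (c := c) (h.inner a' ha') i
    rwa [hsd', ← hd', hse'] at this
  have hpath : Pth σ p b N b := pth_append.2 ⟨s, hp1, pth_append.2 ⟨p d, q1, pth_append.2
    ⟨p d', q2, hp3⟩⟩⟩
  -- vertices on the path
  have hv0 : ∀ f, Sum.inl f ∈ N → Live ((A.erase a).erase a') N f := fun f hf => Or.inr hf
  have hv1 : ∀ v, At v s → At v b ∨ ∃ f, Live ((A.erase a).erase a') N f ∧ At v (p f) := by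
    intro v hv
    rcases pth_end hp1 hv with h5 | ⟨f, h5, h6⟩
    · exact Or.inl h5
    · exact Or.inr ⟨f, hv0 f (by simp [hN, h5]), h6⟩
  have hv2 : ∀ v, At v (p d) → At v b ∨ ∃ f, Live ((A.erase a).erase a') N f ∧ At v (p f) := by
    intro v hv
    rcases pth_end q1 hv with h5 | ⟨f, h5, h6⟩
    · exact hv1 v h5
    · exact Or.inr ⟨f, hv0 f (by simp [hN, h5]), h6⟩
  have hv3 : ∀ v, At v (p d') → At v b ∨ ∃ f, Live ((A.erase a).erase a') N f ∧ At v (p f) := by
    intro v hv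
    rcases pth_end q2 hv with h5 | ⟨f, h5, h6⟩
    · exact hv2 v h5
    · exact Or.inr ⟨f, hv0 f (by simp [hN, h5]), h6⟩
  have hdN : drt N = drt T₁ ++ (drt (rblk c ι (a, i) (ℓ - 1)) ++
      (drt (rblk c ι (a', i) (ℓ - 1)) ++ drt T₂)) := by
    simp [hN]
  refine ⟨?_, ?_, ?_, ?_, ?_, ?_, hpath, ?_, ?_, h.bmem, ?_, ?_⟩
  · -- nodup
    have hperm : List.Perm (drt N) (drt (rblk c ι (a, i) (ℓ - 1)) ++
        (drt (rblk c ι (a', i) (ℓ - 1)) ++ (drt T₁ ++ drt T₂))) := by
      rw [hdN]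
      refine (List.perm_append_comm_assoc _ _ _).trans ?_
      exact (List.Perm.append_left _ (List.perm_append_comm_assoc _ _ _))
    rw [hperm.nodup_iff]
    rw [List.nodup_append, List.nodup_append]
    refine ⟨nodup_rblk _, ⟨nodup_rblk _, hn3, ?_⟩, ?_⟩
    · intro f hf g hg
      rw [mem_drt, mem_rblk] at hf
      obtain ⟨j, hj, rfl⟩ := hf
      rw [← drt_append, mem_drt] at hg
      exact (Live.ne_inner h ((hmem g).1 hg).1 ha').symm
    · intro f hf g hg
      rw [mem_drt, mem_rblk] at hf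
      obtain ⟨j, hj, rfl⟩ := hf
      rw [List.mem_append] at hg
      rcases hg with hg | hg
      · rw [mem_drt, mem_rblk] at hg
        obtain ⟨j', hj', rfl⟩ := hg
        simp [haa]
      · rw [← drt_append, mem_drt] at hg
        exact (Live.ne_inner h ((hmem g).1 hg).1 ha).symm
  · intro z hz j hj
    have hz1 : z ∈ A := Finset.mem_of_mem_erase (Finset.mem_of_mem_erase hz)
    have hz2 : z ≠ a' := Finset.ne_of_mem_erase hz
    have hz3 : z ≠ a := Finset.ne_of_mem_erase (Finset.mem_of_mem_erase hz)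
    rcases (hmN _).1 hj with ⟨h5, h6, h7⟩ | ⟨j, hj, h5⟩ | ⟨j, hj, h5⟩
    · exact h.disj z hz1 _ h5
    · simp only [Sum.inl.injEq, Prod.mk.injEq] at h5
      exact hz3 h5.1
    · simp only [Sum.inl.injEq, Prod.mk.injEq] at h5
      exact hz2 h5.1
  · intro f hf
    obtain ⟨h5, h6, h7, h8, h9⟩ := (hLive f).1 hf
    refine (hLive _).2 ⟨h.slive f h5, ?_, ?_, ?_, ?_⟩
    · intro h10; apply h8; rw [← h.ssig f h5, h10, hd]
    · intro h10; apply h9; rw [← h.ssig f h5, h10, hd']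
    · intro h10; apply h6; rw [← h.ssig f h5, h10, hsd]
    · intro h10; apply h7; rw [← h.ssig f h5, h10, hsd']
  · exact fun f hf => h.ssig f ((hLive f).1 hf).1
  · exact fun f hf => h.slab f ((hLive f).1 hf).1
  · intro z hz j
    exact h.inner z (Finset.mem_of_mem_erase (Finset.mem_of_mem_erase hz)) j
  · intro v hv
    rcases h.att v hv with h5 | ⟨f, h5, h6⟩
    · exact Or.inl h5
    · by_cases c1 : f = d
      · exact hv2 v (c1 ▸ h6)
      by_cases c2 : f = d'
      · exact hv3 v (c2 ▸ h6)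
      by_cases c3 : f = .inl (a, i)
      · apply hv1 v
        rw [← hse, hd, ← c3]
        exact h6
      by_cases c4 : f = .inl (a', i)
      · apply hv2 v
        rw [← hse', hd', ← c4]
        exact h6
      exact Or.inr ⟨f, (hLive f).2 ⟨h5, c1, c2, c3, c4⟩, h6⟩
  · exact fun f hf => h.vmem f ((hLive f).1 hf).1
  · have hc1 : ((A.erase a).erase a').card + 2 = A.card := by
      have h5 : a' ∈ A.erase a := Finset.mem_erase.2 ⟨haa.symm, ha'⟩
      have h6 := Finset.card_erase_add_one h5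
      have h7 := Finset.card_erase_add_one ha
      omega
    have hc2 : (drt N).length = (drt T₁).length + (ℓ - 1) + (ℓ - 1) + (drt T₂).length := by
      rw [hdN]
      simp only [List.length_append, length_drt_rblk]
      omega
    have hc3 : (drt T).length = (drt T₁).length + 2 + (drt T₂).length := by
      rw [hdr]
      simp only [List.length_append, List.length_cons]
      omega
    have hc4 := h.cnt
    rw [← hc1, mul_add] at hc4
    omega
  · intro z hz j z' hz' hzz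
    exact h.red z (Finset.mem_of_mem_erase (Finset.mem_of_mem_erase hz)) j z'
      (Finset.mem_of_mem_erase (Finset.mem_of_mem_erase hz')) hzz

end ops

end Vale.Agent.P174.LO
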